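import Vale.Agent.P011.H974.LocCert

/-!
# LOC: finitely many anticommuting elements suffice at almost all places
-/

open Module MvPolynomial

set_option linter.unusedSectionVars false

namespace Vale.Agent.P011.H974.Loc

open Vale.Agent.P011.H305 Vale.Agent.P011.H738 Vale.Agent.P011.H271 Vale.Agent.P011.H698
open Vale.Agent.P011.H974.Jac
open Vale.Agent.P011.H732D (Wi Un)
open Vale.Agent.P011.H872.FF (XaF)
open Vale.Agent.P011.H63.FB (LSF)

section num

variable {k : Type} [Field k] (v : Place k)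

theorem abv_sum_le {ι : Type*} (t : Finset ι) (g : ι → k) (h : ∀ i ∈ t, v.abv (g i) ≤ 1) :
    v.abv (∑ i ∈ t, g i) ≤ 1 := by
  classical
  induction t using Finset.induction_on with
  | empty => rw [Finset.sum_empty, map_zero]; exact zero_le_one
  | insert a t ha ih =>
    rw [Finset.sum_insert ha]
    exact (v.nonarch _ _).trans (max_le (h a (Finset.mem_insert_self _ _))
      (ih fun i hi => h i (Finset.mem_insert_of_mem hi)))

theorem abv_sum_lt {ι : Type*} (t : Finset ι) (g : ι → k) (h : ∀ i ∈ t, v.abv (g i) < 1) :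
    v.abv (∑ i ∈ t, g i) < 1 := by
  classical
  induction t using Finset.induction_on with
  | empty => rw [Finset.sum_empty, map_zero]; exact zero_lt_one
  | insert a t ha ih =>
    rw [Finset.sum_insert ha]
    exact (v.nonarch _ _).trans_lt (max_lt (h a (Finset.mem_insert_self _ _))
      (ih fun i hi => h i (Finset.mem_insert_of_mem hi)))

theorem abv_det_le {N : ℕ} (M : Matrix (Fin N) (Fin N) k) (h : ∀ i j, v.abv (M i j) ≤ 1) :
    v.abv M.det ≤ 1 := by
  rw [Matrix.det_apply]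
  refine abv_sum_le v _ _ fun σ _ => ?_
  have h1 : v.abv (∏ i, M (σ i) i) ≤ 1 := by
    rw [map_prod]
    exact Finset.prod_le_one (fun i _ => v.abv.nonneg _) fun i _ => h _ _
  rcases Int.units_eq_one_or (Equiv.Perm.sign σ) with h2 | h2
  · rw [h2, one_smul]
    exact h1
  · rw [h2, Units.neg_smul, one_smul, AbsoluteValue.map_neg]
    exact h1

end num

theorem infinite_of_gff (k : Type) [Field k] [GFF k] : Infinite k := by
  obtain ⟨F, _, _, φ, -⟩ := GFF.out (k := k)
  have : Infinite (RatFunc F) := Infinite.of_injective (algebraMap (Polynomial F) (RatFunc F))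
    (RatFunc.algebraMap_injective F)
  exact Infinite.of_injective φ φ.injective

section main

variable {k K D : Type} [Field k] [Field K] [StarRing K] [DivisionRing D] [StarRing D]
  [Algebra k K] [Algebra k D] [Algebra K D] [IsScalarTower k K D] {d : kˣ} {s : K} {δ : kˣ} {I : D}
  {N : ℕ}

/-- An integral element of norm at least one is a unit. -/
theorem un_of_det {v : Place k} {B : Basis (Fin N) k D} (hG : Gd B v) {z : D} (hz : Bd B v 1 z)
    (hd : 1 ≤ v.abv (Algebra.leftMulMatrix B z).det) : z ≠ 0 ∧ Un B v z := by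
  have hN : Nonempty (Fin N) := by
    by_contra hcon
    rw [not_nonempty_iff] at hcon
    have h1 : (1 : D) = 0 := B.repr.injective (Subsingleton.elim _ _)
    exact one_ne_zero h1
  have hz0 : z ≠ 0 := by
    rintro rfl
    rw [map_zero, Matrix.det_zero, map_zero] at hd
    exact absurd hd (not_le.mpr one_pos)
  have hent : ∀ i j, v.abv (Algebra.leftMulMatrix B z i j) ≤ 1 := by
    intro i j
    rw [Algebra.leftMulMatrix_eq_repr_mul]
    have h2 : Bd B v (1 * 1) (z * B j) := hG.mul' zero_le_one zero_le_one hz (by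
      intro l
      rw [B.repr_self]
      by_cases hl : j = l
      · rw [hl, Finsupp.single_eq_same, map_one]
      · rw [Finsupp.single_eq_of_ne (Ne.symm hl), map_zero]
        exact zero_le_one)
    rw [one_mul] at h2
    exact h2 i
  refine ⟨hz0, hz, fun i => ?_⟩
  have h3 : (Algebra.leftMulMatrix B z).mulVec (fun l => B.repr z⁻¹ l) = fun l => B.repr 1 l := by
    have h4 := Algebra.leftMulMatrix_mulVec_repr B z z⁻¹
    rw [mul_inv_cancel₀ hz0] at h4
    exact h4
  have h5 : (Algebra.leftMulMatrix B z).det * B.repr z⁻¹ i =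
      ∑ j, (Algebra.leftMulMatrix B z).adjugate i j * B.repr 1 j := by
    have h6 := congrArg (Matrix.mulVec (Algebra.leftMulMatrix B z).adjugate) h3
    rw [Matrix.mulVec_mulVec, Matrix.adjugate_mul, Matrix.smul_mulVec, Matrix.one_mulVec] at h6
    exact congrFun h6 i
  have h7 : v.abv ((Algebra.leftMulMatrix B z).det * B.repr z⁻¹ i) ≤ 1 := by
    rw [h5]
    refine abv_sum_le v _ _ fun j _ => ?_
    rw [map_mul]
    refine mul_le_one₀ ?_ (v.abv.nonneg _) (hG.one j)
    rw [Matrix.adjugate_apply]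
    refine abv_det_le v _ fun a b => ?_
    by_cases ha : a = j
    · rw [ha, Matrix.updateRow_self]
      by_cases hb : b = i
      · rw [hb, Pi.single_eq_same, map_one]
      · rw [Pi.single_eq_of_ne hb, map_zero]
        exact zero_le_one
    · rw [Matrix.updateRow_ne ha]
      exact hent a b
  rw [map_mul] at h7
  nlinarith [v.abv.nonneg (B.repr z⁻¹ i), mul_le_mul_of_nonneg_right hd
    (v.abv.nonneg (B.repr z⁻¹ i))]

/-- **LOC**, without conditions on the place and with the nonvanishing. -/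
theorem loc [GFF k] {m n : ℕ} (hS : SetF k K D d s) (hm : m ≠ 0)
    (hn : n = 2 * m) (hdeg : finrank K D = n ^ 2) (hs : star I = -I)
    (hI : I * I = algebraMap k D δ) {w : D} (hw0 : w ≠ 0)
    (hw : w * I = -(I * w)) (B : Basis (Fin N) k D) :
    ∃ (S₁ : Set (Place k)) (J : Set D), S₁.Finite ∧ J.Finite ∧ J ⊆ Wi I ∧
      (∀ y ∈ J, 1 + y ≠ 0 ∧ 1 + y * y ≠ 0) ∧
      ∀ v ∉ S₁, ∀ x : D, x * star x = 1 → Bd B v 1 x →
        ∃ y ∈ J, Un B v (1 + y) ∧ Un B v (1 + y * y) ∧
          (x + I * x * I⁻¹) * (1 + y * y) + 2 * ((x - I * x * I⁻¹) * y) ≠ 0 ∧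
          Un B v ((x + I * x * I⁻¹) * (1 + y * y) + 2 * ((x - I * x * I⁻¹) * y)) := by
  classical
  have := infinite_of_gff k
  have htop := span_top hS hm hn hdeg hs hI hw0 hw B
  have h1 : (1 : MvPolynomial (Fin N) k) ∈ Submodule.span (MvPolynomial (Fin N) k)
      ({a | ∃ i, a = EE B i} ∪ {a | ∃ y ∈ Wi I, 1 + y * y ≠ 0 ∧ a = PP B I y}) := by
    change (1 : MvPolynomial (Fin N) k) ∈ Ideal.span _
    rw [htop]
    exact Submodule.mem_top
  obtain ⟨T, hT, h2⟩ := Submodule.mem_span_finite_of_mem_span h1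
  rw [Submodule.mem_span_finset] at h2
  obtain ⟨f, -, hf⟩ := h2
  let Y : MvPolynomial (Fin N) k → D := fun a =>
    if h : ∃ y ∈ Wi I, 1 + y * y ≠ 0 ∧ a = PP B I y then h.choose else 0
  have hY : ∀ a, (∃ y ∈ Wi I, 1 + y * y ≠ 0 ∧ a = PP B I y) →
      Y a ∈ Wi I ∧ 1 + Y a * Y a ≠ 0 ∧ a = PP B I (Y a) := by
    intro a h
    have h3 : Y a = h.choose := dif_pos h
    rw [h3]
    exact h.choose_spec
  obtain ⟨J, hJ⟩ : ∃ J, J = Y '' {a | a ∈ T ∧ ∃ y ∈ Wi I, 1 + y * y ≠ 0 ∧ a = PP B I y} := ⟨_, rfl⟩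
  have hJf : J.Finite := by
    rw [hJ]
    exact (T.finite_toSet.subset fun a ha => ha.1).image _
  have hJW : ∀ y ∈ J, y ∈ Wi I ∧ 1 + y * y ≠ 0 := by
    intro y hy
    rw [hJ] at hy
    obtain ⟨a, ⟨-, ha⟩, rfl⟩ := hy
    exact ⟨(hY a ha).1, (hY a ha).2.1⟩
  have h2D : (2 : D) ≠ 0 := by
    rw [← map_ofNat (algebraMap k D) 2]
    exact (_root_.map_ne_zero _).mpr hS.two_ne
  have hJ1 : ∀ y ∈ J, 1 + y ≠ 0 := by
    intro y hy h0
    have h3 : y = -1 := by rw [eq_neg_iff_add_eq_zero, add_comm]; exact h0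
    have h4 := (hJW y hy).1.1
    rw [h3, star_neg, star_one, neg_neg] at h4
    refine h2D ?_
    calc (2 : D) = 1 + 1 := by norm_num
      _ = 1 + -1 := by rw [h4]
      _ = 0 := add_neg_cancel _
  refine ⟨(⋃ a ∈ T, {v : Place k | ∃ μ, ¬ v.abv ((f a).coeff μ) ≤ 1}) ∪ {v | ¬ Gd B v} ∪
    {v | ¬ Un B v I} ∪ (⋃ y ∈ J, ({v | ¬ Un B v (1 + y)} ∪ {v | ¬ Un B v (1 + y * y)} ∪
      {v | ¬ Bd B v 1 y})), J, ?_, hJf, fun y hy => (hJW y hy).1,
    fun y hy => ⟨hJ1 y hy, (hJW y hy).2⟩, ?_⟩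
  · refine (((T.finite_toSet.biUnion fun a _ => finite_coeff (f a)).union (finite_bad B)).union
      (finite_un B I)).union (hJf.biUnion fun y _ => ((finite_un B _).union (finite_un B _)).union
        (finite_nonint B y))
  · intro v hv x hx hxb
    simp only [Set.mem_union, Set.mem_iUnion, Set.mem_ofPred_eq, not_or, not_exists, not_not] at hv
    obtain ⟨⟨⟨hv1, hv2⟩, hv3⟩, hv4⟩ := hv
    -- one of the values is a unit
    have h3 : ∃ a ∈ T, 1 ≤ v.abv (eval (fun l => B.repr x l) a) := by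
      by_contra hcon
      push Not at hcon
      have h4 := congrArg (eval fun l => B.repr x l) hf
      rw [map_sum, map_one] at h4
      have h5 : v.abv (∑ a ∈ T, eval (fun l => B.repr x l) (f a • a)) < 1 := by
        refine abv_sum_lt v _ _ fun a ha => ?_
        rw [smul_eq_mul, map_mul, map_mul]
        have h6 := abv_eval_le v (fun μ => hv1 a ha μ) hxb
        calc _ ≤ 1 * v.abv (eval (fun l => B.repr x l) a) :=
              mul_le_mul_of_nonneg_right h6 (v.abv.nonneg _)
          _ < 1 := by rw [one_mul]; exact hcon a ha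
      rw [h4, map_one] at h5
      exact lt_irrefl _ h5
    obtain ⟨a, haT, ha⟩ := h3
    have h6 : ∃ y ∈ Wi I, 1 + y * y ≠ 0 ∧ a = PP B I y := by
      rcases hT haT with ⟨i, hi⟩ | h7
      · rw [hi, repr_coords hS, hx, sub_self, map_zero, Finsupp.zero_apply, map_zero] at ha
        exact absurd ha (not_le.mpr one_pos)
      · exact h7
    obtain ⟨-, -, h7⟩ := hY a h6
    have hyJ : Y a ∈ J := by
      rw [hJ]
      exact ⟨a, ⟨haT, h6⟩, rfl⟩
    obtain ⟨y, hy⟩ : ∃ y, y = Y a := ⟨_, rfl⟩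
    rw [← hy] at h7 hyJ
    obtain ⟨⟨hu1, hu2⟩, hu3⟩ := hv4 y hyJ
    rw [h7, eval_PP] at ha
    have m1 : ∀ {p q : D}, Bd B v 1 p → Bd B v 1 q → Bd B v 1 (p * q) := by
      intro p q hp hq
      have h8 := hv2.mul' zero_le_one zero_le_one hp hq
      rwa [one_mul] at h8
    have hc : Bd B v 1 (I * x * I⁻¹) := m1 (m1 hv3.1 hxb) hv3.2
    have h2b : Bd B v 1 (2 : D) := by
      have e : (2 : D) = 1 + 1 := by norm_num
      rw [e]
      exact hv2.one.add hv2.one
    have hz : Bd B v 1 ((x + I * x * I⁻¹) * (1 + y * y) + 2 * ((x - I * x * I⁻¹) * y)) :=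
      (m1 (hxb.add hc) (hv2.one.add (m1 hu3 hu3))).add (m1 h2b (m1 (hxb.sub hc) hu3))
    rw [Lam_apply] at ha
    obtain ⟨h9, h10⟩ := un_of_det hv2 hz ha
    exact ⟨y, hyJ, hu1, hu2, h9, h10⟩

end main

/-- **(R3) LOC.** -/
theorem locF : H732D.LocF := by
  intro k K D _ _ _ _ _ _ _ _ _ _ d s hS m hm hdeg a t ht ha had N B I hI
  have hfin := hS.fin
  have hcen := hS.cen
  have hsI : star I = -I := by
    rw [hI, star_mul, ht.1, Vale.Agent.P011.H167.Cn.star_algK hS, hS.star_s, map_neg, mul_neg,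
      ← Algebra.commutes]
  have hII : I * I = algebraMap k D ((a * d : kˣ) : k) := by
    have h1 : algebraMap K D s * t * (algebraMap K D s * t) =
        algebraMap K D (s ^ 2) * (t * t) := by
      rw [← mul_assoc, mul_assoc (algebraMap K D s) t, ← Algebra.commutes s t, ← mul_assoc,
        mul_assoc, ← map_mul, ← pow_two]
    rw [hI, h1, hS.sq, ht.2, ← IsScalarTower.algebraMap_apply, ← map_mul, Units.val_mul, mul_comm]
  -- an anticommuting element
  obtain ⟨y, hy⟩ : ∃ y : D, y * t ≠ t * y := by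
    by_contra hcon
    push Not at hcon
    have h2 : t ∈ Subalgebra.center K D := by
      rw [Subalgebra.mem_center_iff]
      exact hcon
    rw [Algebra.IsCentral.center_eq_bot, Algebra.mem_bot] at h2
    obtain ⟨c, hc⟩ := h2
    exact Vale.Agent.P011.H167.Cn.Xa_ne hS ha ht c hc
  have hw : (y * t - t * y) * I = -(I * (y * t - t * y)) := by
    have h3 : y * (t * t) = (t * t) * y := by rw [ht.2]; exact (Algebra.commutes _ _).symm
    have h4 : (y * t - t * y) * t = -(t * (y * t - t * y)) := by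
      calc (y * t - t * y) * t = y * (t * t) - t * y * t := by noncomm_ring
        _ = (t * t) * y - t * y * t := by rw [h3]
        _ = -(t * (y * t - t * y)) := by noncomm_ring
    rw [hI, ← mul_assoc, ← Algebra.commutes s (y * t - t * y), mul_assoc, h4, mul_neg, mul_assoc]
  obtain ⟨S₁, J, h1, h2, h3, -, h4⟩ := loc (m := m) hS hm.ne' rfl hdeg hsI hII
    (sub_ne_zero.mpr hy) hw B
  refine ⟨S₁, J, h1, h2, h3, fun v hv _ x hx hxb => ?_⟩
  obtain ⟨y, hy, h5, h6, -, h7⟩ := h4 v hv x hx hxb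
  exact ⟨y, hy, h5, h6, h7⟩

end Vale.Agent.P011.H974.Loc
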