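import Vale.Agent.P011.H974.SolvR8
import Vale.Agent.P011.H732D.Red

/-!
Doubling the degree over function fields: the reduction to the centralizer and the choice of `t`
give the statement in degree `2 m`.
-/

open Module Polynomial

set_option linter.unusedSectionVars false

namespace Vale.Agent.P011.H974.R8

open Vale.Agent.P011.H738 Vale.Agent.P011.H271 Vale.Agent.P011.H305 Vale.Agent.P011.H698
open Vale.Agent.P011.H63.FB (LSF incF)
open Vale.Agent.P011.H872.FF (XaF IsCentF kk om)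
open Vale.Agent.P011.H732D

/-- A global function field in the letters of the library. -/
theorem isGlobal_of_gff (k : Type) [Field k] [h : GFF k] : IsGlobalFunctionField k := by
  obtain ⟨F, i1, i2, φ, h1, h2⟩ := h.out
  exact ⟨F, i1, i2, φ.toAlgebra, h1⟩

section red

variable {k K D : Type} [Field k] [GFF k] [Field K] [StarRing K]
    [DivisionRing D] [StarRing D] [Algebra k K] [Algebra k D] [Algebra K D] [IsScalarTower k K D]
    {d : kˣ} {s : K} {t : D} {a : kˣ}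

/-- **The reduction to the centralizer**, with a given set of places. -/
theorem mem_of_ab2 (hS : SetF k K D d s) (ht : t ∈ XaF D a) (ha : ¬ IsSquare (a : k))
    (had : ¬ IsSquare ((a * d : kˣ) : k)) {m N : ℕ} (hm : 0 < m)
    (hdeg : finrank K D = (2 * m) ^ 2) {Ω : Type} [Field Ω] [Algebra K Ω]
    (f : D →ₐ[K] Matrix (Fin (2 * m)) (Fin (2 * m)) Ω) (B : Basis (Fin N) k D)
    (Q : Subgroup (SUA f)) {T₀ : Finset (Place k)} {ε₀ : ℝ} (hε₀ : 0 < ε₀)
    (hQ : H704.HQ.HQ1F k B T₀ ε₀ (ImF Q)) (hAb : AbAtF B f (ImF Q) t) (S₂ : Finset (Place k)) :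
    ∃ (S : Finset (Place k)), S₂ ⊆ S ∧ ∃ ε : ℝ, 0 < ε ∧ ∀ q ∉ S, a * d ∈ LSF q → ∀ x : D,
      x * star x = 1 → (f x).det = 1 → (∀ v ∈ S, Sm B v ε (x - 1)) →
      (∀ v ∉ S, v ≠ q → Bd B v 1 x) → x ∈ ImF Q := by
  classical
  obtain ⟨v0, -, -⟩ := Vale.Agent.P011.H704.HQ.exists_q_set hS (n := 2 * m) (by omega) hdeg a ∅
  obtain ⟨L, _, _, _, K', _, _, _, _, C, _, _, _, _, _, _, T, ι, hSC, hC, h⟩ :=
    Vale.Agent.P011.H167.Cn.exists_isCentF hS ha had hdeg ht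
  have := hS.cen
  obtain ⟨I, hI⟩ : ∃ I : D, I = algebraMap K D s * t := ⟨_, rfl⟩
  have hI1 : I ∈ Xs D (a * d) := by
    rw [hI]
    exact I_mem hS ht
  have h2D : (2 : D) ≠ 0 := Vale.Agent.P011.H872.FF.two_neD hS
  have hI0 : I ≠ 0 := by
    rintro rfl
    have := hI1.2
    rw [mul_zero] at this
    exact (a * d).ne_zero ((map_eq_zero (algebraMap k D)).mp this.symm)
  obtain ⟨w, hw0, hw⟩ := Vale.Agent.P011.H974.Jac.exists_anti h
  have hwI : w * I = -(I * w) := by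
    rw [hI, ← mul_assoc, ← Algebra.commutes s w, mul_assoc, hw, mul_neg, mul_assoc]
  obtain ⟨S₁, J, hS₁, hJ, hJW, hJ0, hloc⟩ := Vale.Agent.P011.H974.Loc.loc hS hm.ne' rfl hdeg
    hI1.1 hI1.2 hw0 hwI B
  have hgg : ∀ y ∈ Wi I, ∀ μ : k, (f (gg (jj I y) μ)).det =
      algebraMap K Ω (algebraMap k K (1 - μ ^ 2 * ((a * d : kˣ) : k))) ^ m := fun y hy μ =>
    Vale.Agent.P011.H976.FF.nrd_gg hS ht ha had rfl hdeg f hI μ (one_add_ne h2D hI0 hy)
  obtain ⟨SA, θ, hθ, hrot⟩ := Vale.Agent.P011.H976.FF.rot_mem hS f B Q hAb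
  obtain ⟨S, hSub', hv0, hgood, hmid⟩ := exists_mid hS ht hSC h hm hdeg hC had f B hI hgg hS₁ hJ
    hJW hJ0 hloc (S₂ ∪ (T₀ ∪ SA)) v0
  have hSub : T₀ ∪ SA ⊆ S := Finset.union_subset_right hSub'
  have h1Q : (1 : D) ∈ ImF Q := ⟨1, Q.one_mem, rfl⟩
  have hQ' : HQ1F B (ImF Q) T₀ ε₀ := fun F _ _ _ ι' α β i j p₀ p₁ p₂ p₃ u hu h1 h2 =>
    hQ F ι' α β i j p₀ p₁ p₂ p₃ u hu h2 fun v hv l => h1 v hv l
  obtain ⟨κ, hκ, hstep⟩ := Vale.Agent.P011.H961.R5.step hS B (a * d) hI1 h1Q hε₀ hQ'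
    (S₀ := S) ⟨v0, hv0⟩ (Finset.union_subset_left hSub) hgood hθ
  obtain ⟨ε, hε, hmid'⟩ := hmid κ hκ
  refine ⟨S, Finset.union_subset_left hSub', min ε θ, lt_min hε hθ,
    fun q hq hqs x hx hdx hxS hxi => ?_⟩
  obtain ⟨i, hi, hiS, hu1, hu2⟩ := hmid' q hq hqs x hx hdx
    (fun v hv => (hxS v hv).mono (min_le_left _ _)) hxi
  obtain ⟨ν₁, hν₁, hν₁', hn₁⟩ := hstep I hI1 i hi (fun v hv => ⟨by
    rw [sub_self]
    exact sm_zero hκ, (hiS v hv).1⟩) hu1
  obtain ⟨ν₂, hν₂, hν₂', hn₂⟩ := hstep i hi (x * I * x⁻¹) (conj_unitary_mem hx hI1) hiS hu2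
  rw [hI] at hν₁' hν₂'
  exact hrot x ν₁ ν₂ i hx hdx hν₁ hν₂ hν₁' hν₂' fun v hv => by
    have hv' : v ∈ S := hSub (Finset.mem_union_right _ hv)
    exact ⟨(hxS v hv').mono (min_le_right _ _), hn₁ v hv', hn₂ v hv'⟩

end red

/-- **The statement in degree `n`** for the division algebras over global function fields. -/
def MPF (n : ℕ) : Prop :=
  ∀ (L K' C : Type) [Field L] [GFF L] [Field K'] [StarRing K'] [DivisionRing C]
    [StarRing C] [Algebra L K'] [Algebra L C] [Algebra K' C] [IsScalarTower L K' C]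
    [StarModule K' C] (d' : Lˣ) (s' : K'), SetF L K' C d' s' → finrank K' C = n ^ 2 →
    ∀ (Ω' : Type) [Field Ω'] [Algebra K' Ω'] (g : C →ₐ[K'] Matrix (Fin n) (Fin n) Ω') (M : ℕ)
      (B' : Basis (Fin M) L C) (N' : Subgroup (SUA g)), N'.Normal → N'.index ≠ 0 →
      NearA L K' g B' N'

/-- **The solvable step in degree `n`** for the division algebras over global function fields. -/
def SolvF (n : ℕ) : Prop :=
  ∀ (L K' C : Type) [Field L] [GFF L] [Field K'] [StarRing K'] [DivisionRing C]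
    [StarRing C] [Algebra L K'] [Algebra L C] [Algebra K' C] [IsScalarTower L K' C]
    [StarModule K' C] (d' : Lˣ) (s' : K'), SetF L K' C d' s' → finrank K' C = n ^ 2 →
    ∀ (Ω' : Type) [Field Ω'] [Algebra K' Ω'] (g : C →ₐ[K'] Matrix (Fin n) (Fin n) Ω') (M : ℕ)
      (B' : Basis (Fin M) L C), SolvAtF L K' g B'

/-- The existence of the symmetric square roots. -/
def ExTF (m : ℕ) : Prop :=
  ∀ (k K D : Type) [Field k] [GFF k] [Field K] [StarRing K] [DivisionRing D] [StarRing D]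
    [Algebra k K] [Algebra k D] [Algebra K D] [IsScalarTower k K D] (d : kˣ) (s : K),
    SetF k K D d s → finrank K D = (2 * m) ^ 2 →
    ∃ (a : kˣ) (t : D), t ∈ XaF D a ∧ ¬ IsSquare (a : k) ∧ ¬ IsSquare ((a * d : kˣ) : k)

/-- The elements of the centralizers of the symmetric square roots. -/
def AbF (m : ℕ) : Prop :=
  ∀ (k K D : Type) [Field k] [GFF k] [Field K] [StarRing K] [DivisionRing D]
    [StarRing D] [Algebra k K] [Algebra k D] [Algebra K D] [IsScalarTower k K D] (d : kˣ) (s : K)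
    (_ : SetF k K D d s) (_ : finrank K D = (2 * m) ^ 2) (a : kˣ) (t : D)
    (_ : t ∈ XaF D a) (_ : ¬ IsSquare (a : k)) (_ : ¬ IsSquare ((a * d : kˣ) : k))
    (Ω : Type) [Field Ω] [Algebra K Ω] (f : D →ₐ[K] Matrix (Fin (2 * m)) (Fin (2 * m)) Ω) (N : ℕ)
    (B : Basis (Fin N) k D) (Q : Subgroup (SUA f)) (_ : Q.Normal) (_ : Q.index ≠ 0)
    (T0 : Finset (Place k)) (ε0 : ℝ) (_ : 0 < ε0) (_ : H704.HQ.HQ1F k B T0 ε0 (ImF Q)),
    AbAtF B f (ImF Q) t

/-- The solvable step gives the statement. -/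
theorem mpf_of_solv {n : ℕ} (hn : 3 ≤ n) (h : SolvF n) : MPF n := by
  intro L K' C _ _ _ _ _ _ _ _ _ _ _ d' s' hS hdeg Ω' _ _ g M B' N' hN hi
  exact near_of_solv (isGlobal_of_gff L) (hS.anis hdeg) hn g B'
    (h L K' C d' s' hS hdeg Ω' g M B') N' hi

/-- **(R9) Doubling the degree over function fields: the solvable step.** -/
theorem solv_double {m : ℕ} (hm : 2 ≤ m) (hEx : ExTF m) (hAb : AbF m) : SolvF (2 * m) := by
  intro k K D _ _ _ _ _ _ _ _ _ _ _ d s hS hdeg Ω _ _ f N B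
  obtain ⟨a, t, ht, ha, had⟩ := hEx k K D d s hS hdeg
  refine solvAtF_of_red (isGlobal_of_gff k) hS hdeg (by omega) f B a
    fun Q H hQ hH hQH hi hN hp hc ⟨T, ε, hε, hQ1⟩ S₀ => ?_
  exact mem_of_ab2 hS ht ha had (by omega) hdeg f B Q hε hQ1
    (hAb k K D d s hS hdeg a t ht ha had Ω f N B Q hQ hi T ε hε hQ1) S₀

/-- **Doubling the degree over function fields.** -/
theorem mpf_double {m : ℕ} (hm : 2 ≤ m) (hEx : ExTF m) (hAb : AbF m) : MPF (2 * m) :=
  mpf_of_solv (by omega) (solv_double hm hEx hAb)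

end Vale.Agent.P011.H974.R8
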