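import Vale.Agent.P011.H359.Frm2
import Vale.Agent.P011.H872.PickB1
import Vale.Agent.P011.H14.Diag

/-!
An antisymmetric element anticommuting with a symmetric square root, whose square generates a
cubic extension of the base field, with coefficients in general position.
-/

open NumberField IsDedekindDomain Module Polynomial

set_option linter.unusedSectionVars false

namespace Vale.Agent.P011.H974

open Vale.Agent.P011.Arith Vale.Agent.P011.Even Vale.Agent.P011.Two Vale.Agent.P011.One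
open Vale.Agent.P011.Pow hiding exists_x2 nrd_near exists_numbers
open Vale.Agent.P011.H775 (Cub)
open Vale.Agent.P011.H359

section wt

variable {D : Type} [DivisionRing D] [StarRing D] {t : D}

theorem wt_inv {w : D} (hw : Wt t w) : Wt t w⁻¹ := by
  by_cases hw0 : w = 0
  · rw [hw0, inv_zero, ← hw0]
    exact hw
  · exact ⟨by rw [star_inv₀, hw.st, inv_neg], inv_anti hw0 hw.an⟩

end wt

section frm

variable {k K D L K' C : Type} [Field k] [NumberField k] [Field K] [NumberField K] [StarRing K]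
  [DivisionRing D] [StarRing D] [Algebra k K] [Algebra k D] [Algebra K D] [IsScalarTower k K D]
  [Field L] [NumberField L] [Algebra k L] [Field K'] [StarRing K'] [NumberField K']
  [Algebra K K'] [DivisionRing C] [StarRing C] [Algebra L K'] [Algebra L C] [Algebra K' C]
  [IsScalarTower L K' C] {d : kˣ} {s : K} {a : kˣ} {t : D} {T : L} {ι : C →+* D}

theorem iota_kk (h : IsCent k K D L K' C t a T ι) (c : k) :
    ι (algebraMap K' C (kk k K K' c)) = algebraMap k D c := by
  rw [kk, RingHom.comp_apply, h.jK, ← IsScalarTower.algebraMap_apply]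

theorem iota_smul (h : IsCent k K D L K' C t a T ι) (c : k) (x : C) :
    ι (kk k K K' c • x) = c • ι x := by
  rw [Algebra.smul_def, map_mul, iota_kk h, Algebra.smul_def]

/-- **(G2')** -/
theorem not_center (h : IsCent k K D L K' C t a T ι) {CC : Cub K' C} {w : D} {γ : C}
    {e1 e2 e3 : k} (he : HasE k K CC ι w γ e1 e2 e3) (hw : ∀ c : k, algebraMap k D c ≠ w * w) :
    ∀ c : K', algebraMap K' C c ≠ γ := by
  intro c hc
  have hc0 : CharZero K' := charZero_of_injective_algebraMap (algebraMap K K').injective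
  have h1 := he.T
  rw [← hc, Algebra.algebraMap_eq_smul_one, map_smul, CC.T_one, smul_eq_mul] at h1
  have h2 : c = kk k K K' (e1 / 3) := by
    rw [map_div₀, map_ofNat, ← h1, mul_div_cancel_right₀ _ three_ne_zero]
  refine hw (e1 / 3) ?_
  rw [← he.sq, ← hc, h2, iota_kk h]

/-- The Cayley equation of the square. -/
theorem cay (h : IsCent k K D L K' C t a T ι) {CC : Cub K' C} {w : D} {γ : C} {e1 e2 e3 : k}
    (he : HasE k K CC ι w γ e1 e2 e3) :
    (w ^ 2) ^ 3 = e1 • (w ^ 2) ^ 2 - e2 • w ^ 2 + e3 • (1 : D) := by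
  have h1 := congrArg ι (CC.cayley γ)
  rw [map_sub, map_add, map_sub, map_zero] at h1
  have hT := he.T
  have hSs := he.S
  have hN := he.N
  rw [hT, hSs, hN, iota_smul h, iota_smul h, iota_smul h, map_one, map_mul, map_mul,
    he.sq] at h1
  have e0' : w * w = w ^ 2 := (pow_two _).symm
  have e1' : w ^ 2 * w ^ 2 * w ^ 2 = (w ^ 2) ^ 3 := by
    rw [pow_succ (w ^ 2) 2, pow_two (w ^ 2)]
  have e2' : w ^ 2 * w ^ 2 = (w ^ 2) ^ 2 := (pow_two _).symm
  rw [e0', e1', e2'] at h1
  have h2 := sub_eq_zero.mp h1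
  rw [← h2]
  abel

/-- Independence of the powers of the square. -/
theorem indep (h : IsCent k K D L K' C t a T ι) [FiniteDimensional K' C]
    (hdC : finrank K' C = 3 ^ 2) {w : D} {γ : C} (hγ : ι γ = w * w)
    (hc : ∀ c : K', algebraMap K' C c ≠ γ) (x y z : k)
    (h0 : x • (1 : D) + y • w ^ 2 + z • (w ^ 2) ^ 2 = 0) : x = 0 ∧ y = 0 ∧ z = 0 := by
  have h1 : kk k K K' z • (γ * γ) + kk k K K' y • γ + kk k K K' x • (1 : C) = 0 := by
    apply h.inj
    rw [map_add, map_add, iota_smul h, iota_smul h, iota_smul h, map_mul, map_one, map_zero, hγ,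
      ← h0, pow_two (w ^ 2), pow_two w]
    abel
  obtain ⟨g1, g2, g3⟩ := H521.no_quad hdC (fun hr => by
    obtain ⟨c, hc'⟩ := hr
    exact hc c hc') h1
  exact ⟨(_root_.map_eq_zero _).mp g3, (_root_.map_eq_zero _).mp g2, (_root_.map_eq_zero _).mp g1⟩

variable (hS : Setting k K D d s) (hSC : Setting L K' C (inc k L d) (algebraMap K K' s))
  (h : IsCent k K D L K' C t a T ι) (hdC : finrank K' C = 3 ^ 2) (ht : t ∈ Xa D a)
  (CC : Cub K' C)

include hS hSC h hdC ht

/-- **(G2)** -/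
theorem exists_base (hw : ∃ w : D, star w = -w ∧ w * t = -(t * w) ∧
    ∀ c : k, algebraMap k D c ≠ w * w) :
    ∃ (j : D) (γ : C) (e1 e2 e3 : k), j ≠ 0 ∧ Wt t j ∧ HasE k K CC ι j γ e1 e2 e3 ∧
      e1 ^ 2 ≠ 4 * e2 ∧ ∀ c : k, algebraMap k D c ≠ j * j := by
  have i3 := hSC.fin
  obtain ⟨w, hws, hwt, hwk⟩ := hw
  have hw0 : w ≠ 0 := by
    rintro rfl
    exact hwk 0 (by rw [map_zero, mul_zero])
  have hW : Wt t w := ⟨hws, hwt⟩
  obtain ⟨γ, e1, e2, e3, he⟩ := exists_E hS hSC h hdC ht CC hw0 hW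
  have hnc := not_center h he hwk
  obtain ⟨p, hp, f1, f2, f3, hf, hpk, hne⟩ := H872.pick_b1 (cay h he)
    (indep h hdC he.sq hnc)
  have hpW : Wt t p := by
    rcases hp with rfl | rfl | rfl
    · exact hW
    · exact wt_inv hW
    · have e : (1 + w ^ 2) * w = w + w ^ 3 := by rw [add_mul, one_mul, ← pow_succ]
      rw [e]
      exact hW.add hW.cube
  have hpk' : ∀ c : k, algebraMap k D c ≠ p * p := fun c => by
    rw [← pow_two]
    exact hpk c
  have hp0 : p ≠ 0 := by
    rintro rfl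
    exact hpk' 0 (by rw [map_zero, mul_zero])
  obtain ⟨γ', g1, g2, g3, hg⟩ := exists_E hS hSC h hdC ht CC hp0 hpW
  refine ⟨p, γ', g1, g2, g3, hp0, hpW, hg, ?_, hpk'⟩
  have hnc' := not_center h hg hpk'
  have h1 := cay h hg
  have h2 : (f3 - g3) • (1 : D) + -(f2 - g2) • p ^ 2 + (f1 - g1) • (p ^ 2) ^ 2 = 0 := by
    have h3 : f1 • (p ^ 2) ^ 2 - f2 • p ^ 2 + f3 • (1 : D) -
        (g1 • (p ^ 2) ^ 2 - g2 • p ^ 2 + g3 • (1 : D)) = 0 := by
      rw [← hf, ← h1, sub_self]
    rw [← h3, sub_smul, neg_smul, sub_smul, sub_smul]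
    abel
  obtain ⟨-, h4, h5⟩ := indep h hdC hg.sq hnc' _ _ _ h2
  have h6 : f1 = g1 := sub_eq_zero.mp h5
  have h7 : f2 = g2 := sub_eq_zero.mp (neg_eq_zero.mp h4)
  rw [← h6, ← h7]
  exact hne

end frm

end Vale.Agent.P011.H974
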