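import Vale.Agent.P011.H974.Base
import Vale.Agent.P011.H872.CopDeg

/-!
The pencil `(j, 4 j³)` is nondegenerate when `j` anticommutes with a symmetric square root and
its square has degree three, with coefficients in general position.
-/

open NumberField IsDedekindDomain Module Polynomial

set_option linter.unusedSectionVars false

namespace Vale.Agent.P011.H974

open Vale.Agent.P011.Arith Vale.Agent.P011.Even Vale.Agent.P011.Two Vale.Agent.P011.One
open Vale.Agent.P011.Pow hiding exists_x2 nrd_near exists_numbers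
open Vale.Agent.P011.H775 (Cub)
open Vale.Agent.P011.H359

/-- Three different roots of a cubic polynomial determine its coefficients. -/
theorem vieta {Ω : Type} [Field Ω] {a1 a2 a3 r0 r1 r2 : Ω} (h01 : r0 ≠ r1) (h02 : r0 ≠ r2)
    (h12 : r1 ≠ r2) (g0 : r0 ^ 3 - a1 * r0 ^ 2 + a2 * r0 - a3 = 0)
    (g1 : r1 ^ 3 - a1 * r1 ^ 2 + a2 * r1 - a3 = 0)
    (g2 : r2 ^ 3 - a1 * r2 ^ 2 + a2 * r2 - a3 = 0) :
    a1 = r0 + r1 + r2 ∧ a2 = r0 * r1 + r0 * r2 + r1 * r2 ∧ a3 = r0 * r1 * r2 := by
  have q1 : r0 ^ 2 + r0 * r1 + r1 ^ 2 - a1 * (r0 + r1) + a2 = 0 := by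
    refine (mul_eq_zero.mp ?_).resolve_left (sub_ne_zero.mpr h01)
    linear_combination g0 - g1
  have q2 : r0 ^ 2 + r0 * r2 + r2 ^ 2 - a1 * (r0 + r2) + a2 = 0 := by
    refine (mul_eq_zero.mp ?_).resolve_left (sub_ne_zero.mpr h02)
    linear_combination g0 - g2
  have q3 : r0 + r1 + r2 - a1 = 0 := by
    refine (mul_eq_zero.mp ?_).resolve_left (sub_ne_zero.mpr h12)
    linear_combination q1 - q2
  have e1 : a1 = r0 + r1 + r2 := by linear_combination -q3
  have e2 : a2 = r0 * r1 + r0 * r2 + r1 * r2 := by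
    rw [e1] at q1
    linear_combination q1
  refine ⟨e1, e2, ?_⟩
  rw [e1, e2] at g0
  linear_combination -g0

/-- A separable cubic polynomial has three different roots in an algebraically closed field. -/
theorem three_roots {k Ω : Type} [Field k] [Field Ω] [IsAlgClosed Ω] [Algebra k Ω] {P : k[X]}
    (hP : P.Separable) (hd : P.natDegree = 3) :
    ∃ r0 r1 r2 : Ω, r0 ≠ r1 ∧ r0 ≠ r2 ∧ r1 ≠ r2 ∧ aeval r0 P = 0 ∧ aeval r1 P = 0 ∧
      aeval r2 P = 0 := by
  classical
  have hcard : Fintype.card (P.rootSet Ω) = 3 := by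
    rw [Polynomial.card_rootSet_eq_natDegree hP (IsAlgClosed.splits _), hd]
  let ee : Fin 3 ≃ (P.rootSet Ω) := (Fintype.equivFinOfCardEq hcard).symm
  have hne : ∀ i j, i ≠ j → (ee i : Ω) ≠ ee j := fun i j hij h =>
    hij (ee.injective (Subtype.ext h))
  exact ⟨ee 0, ee 1, ee 2, hne _ _ (by decide), hne _ _ (by decide), hne _ _ (by decide),
    (Polynomial.mem_rootSet.mp (ee 0).2).2, (Polynomial.mem_rootSet.mp (ee 1).2).2,
    (Polynomial.mem_rootSet.mp (ee 2).2).2⟩

section frm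

variable {k K D L K' C : Type} [Field k] [NumberField k] [Field K] [NumberField K] [StarRing K]
  [DivisionRing D] [StarRing D] [Algebra k K] [Algebra k D] [Algebra K D] [IsScalarTower k K D]
  [Field L] [NumberField L] [Algebra k L] [Field K'] [StarRing K'] [NumberField K']
  [Algebra K K'] [DivisionRing C] [StarRing C] [Algebra L K'] [Algebra L C] [Algebra K' C]
  [IsScalarTower L K' C] {d : kˣ} {s : K} {a : kˣ} {t : D} {T : L} {ι : C →+* D}

/-- **(G3)** -/
theorem cop_base (h : IsCent k K D L K' C t a T ι) [FiniteDimensional K' C]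
    (hdC : finrank K' C = 3 ^ 2) (CC : Cub K' C) {tr : D →ₗ[k] k}
    (htr : ∀ (x : C) (e : k), CC.T x = kk k K K' e → tr (ι x) = e) {j : D} {γ : C}
    {e1 e2 e3 : k} (he : HasE k K CC ι j γ e1 e2 e3) (hne : e1 ^ 2 ≠ 4 * e2)
    (hjk : ∀ c : k, algebraMap k D c ≠ j * j) : Cop tr j ((4 : k) • j ^ 3) := by
  have hc0 : CharZero K' := charZero_of_injective_algebraMap (algebraMap K K').injective
  have hnc := not_center h he hjk
  have hnr : γ ∉ Set.range (algebraMap K' C) := fun ⟨c, hc⟩ => hnc c hc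
  -- the polynomial
  obtain ⟨P, hPd⟩ : ∃ P : k[X], P = X ^ 3 - Polynomial.C e1 * X ^ 2 + Polynomial.C e2 * X -
    Polynomial.C e3 := ⟨_, rfl⟩
  have hPm : P.map (kk k K K') = H14.rcp CC γ := by
    rw [hPd, H14.rcp, he.T, he.S, he.N]
    simp only [Polynomial.map_sub, Polynomial.map_add, Polynomial.map_mul, Polynomial.map_pow,
      Polynomial.map_X, Polynomial.map_C]
  have hsep : P.Separable := by
    rw [← Polynomial.separable_map (kk k K K'), hPm]
    exact H14.rcp_separable CC hdC three_ne_zero hnr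
  have hdeg : P.natDegree = 3 := by
    rw [← Polynomial.natDegree_map (kk k K K'), hPm, H14.rcp_natDegree]
  -- the roots
  obtain ⟨r0, r1, r2, h01, h02, h12, g0, g1, g2⟩ :=
    three_roots (Ω := AlgebraicClosure k) hsep hdeg
  have hr : ∀ r : AlgebraicClosure k, aeval r P = 0 → r ^ 3 - algebraMap k _ e1 * r ^ 2 +
      algebraMap k _ e2 * r - algebraMap k _ e3 = 0 := by
    intro r hr
    rw [← hr, hPd]
    simp only [map_sub, map_add, map_mul, map_pow, aeval_X, aeval_C]
  obtain ⟨v1, v2, v3⟩ := vieta h01 h02 h12 (hr r0 g0) (hr r1 g1) (hr r2 g2)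
  have he3 : e3 ≠ 0 := by
    intro h0
    have h1 := he.N
    rw [h0, map_zero] at h1
    have h2 : γ = 0 := CC.N_eq_zero.mp h1
    exact hnc 0 (by rw [map_zero, h2])
  have hprod : r0 * r1 * r2 ≠ 0 := by
    rw [← v3]
    exact (_root_.map_ne_zero _).mpr he3
  have hr0 : r0 ≠ 0 := fun h0 => hprod (by rw [h0, zero_mul, zero_mul])
  have hr1 : r1 ≠ 0 := fun h0 => hprod (by rw [h0, mul_zero, zero_mul])
  have hr2 : r2 ≠ 0 := fun h0 => hprod (by rw [h0, mul_zero])
  refine H872.cop_deg (Ω := AlgebraicClosure k) h01 h02 h12 hr0 hr1 hr2 ?_ tr j fun n => ?_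
  · rw [← v1, ← v2]
    intro h0
    apply hne
    apply (algebraMap k (AlgebraicClosure k)).injective
    rw [map_pow, map_mul, h0, map_ofNat]
  · obtain ⟨c, hc1, hc2⟩ := pow_T CC he (algebraMap k (AlgebraicClosure k)) v1 v2 v3 n
    rw [← hc2]
    congr 1
    have e : j ^ (2 * n) = ι (γ ^ n) := by
      rw [map_pow, he.sq, pow_mul, pow_two]
    rw [e]
    exact htr _ _ hc1

end frm

end Vale.Agent.P011.H974
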