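import Vale.Agent.P011.Arith.LocalB
import Vale.Agent.P011.Arith.Quad
import Vale.Agent.P011.Even.Defs

/-!
Roots of cubic polynomials whose norm is a norm from a quadratic extension, up to a unit, are
locally norms from this extension, at the places where the polynomial does not degenerate.
-/

open NumberField IsDedekindDomain

namespace Vale.Agent.P011.H974

open Vale.Agent.P011.Arith Vale.Agent.P011.Even

section val

variable {F : Type} [Field F] (w : Valuation F Z0)

/-- A root of a monic cubic polynomial with integral coefficients is integral. -/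
theorem root_le {β e1 e2 e3 : F} (he1 : w e1 ≤ 1) (he2 : w e2 ≤ 1) (he3 : w e3 ≤ 1)
    (hβ : β ^ 3 - e1 * β ^ 2 + e2 * β - e3 = 0) : w β ≤ 1 := by
  by_contra hcon
  have h1 : 1 < w β := not_le.mp hcon
  have h0 : β ^ 3 = e1 * β ^ 2 - e2 * β + e3 := by linear_combination hβ
  have hb0 : 0 < w β := lt_trans zero_lt_one h1
  have hb2 : 1 < w β ^ 2 := one_lt_pow₀ h1 two_ne_zero
  have h2 : w (e1 * β ^ 2 - e2 * β + e3) ≤ w β ^ 2 := by
    refine w.map_add_le (w.map_sub_le ?_ ?_) ?_
    · rw [map_mul, map_pow]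
      exact mul_le_of_le_one_left' he1
    · rw [map_mul]
      refine (mul_le_of_le_one_left' he2).trans ?_
      rw [pow_two]
      exact le_mul_of_one_le_left' h1.le
    · exact he3.trans hb2.le
  rw [← h0, map_pow, pow_succ] at h2
  have h3 : w β ^ 2 * 1 < w β ^ 2 * w β := mul_lt_mul_of_pos_left h1 (pow_pos hb0 2)
  rw [mul_one] at h3
  exact absurd h2 (not_le.mpr h3)

/-- A small root, when the last two coefficients are not both small: the last but one is a unit
and the root has the size of the last one. -/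
theorem root_eq {β e1 e2 e3 : F} (he1 : w e1 ≤ 1) (he2 : w e2 = 1) (hb : w β < 1)
    (hβ : β ^ 3 - e1 * β ^ 2 + e2 * β - e3 = 0) : w β = w e3 := by
  have h0 : e3 = β * (e2 + (β ^ 2 - e1 * β)) := by linear_combination -hβ
  have h1 : w (β ^ 2 - e1 * β) < 1 := by
    refine w.map_sub_lt ?_ ?_
    · rw [map_pow]
      exact pow_lt_one₀ zero_le hb two_ne_zero
    · rw [map_mul]
      exact (mul_le_of_le_one_left' he1).trans_lt hb
  have h2 : w (e2 + (β ^ 2 - e1 * β)) = 1 := by
    rw [w.map_add_eq_of_lt_left (by rw [he2]; exact h1), he2]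
  rw [h0, map_mul, h2, mul_one]

end val

variable {k F : Type} [Field k] [NumberField k] [Field F] [NumberField F] [Algebra k F]

/-- **(G4)** -/
theorem ram_out (δ : kˣ) (β : Fˣ) {v : HeightOneSpectrum (𝓞 k)} (h2 : v.valuation k 2 = 1)
    (hδ : v.valuation k (δ : k) = 1) {e1 e2 e3 g p q : k} (h1i : v.valuation k e1 ≤ 1)
    (h2i : v.valuation k e2 ≤ 1) (h3i : v.valuation k e3 ≤ 1)
    (hnc : ¬ (v.valuation k e2 < 1 ∧ v.valuation k e3 < 1))
    (hβ : (β : F) ^ 3 - algebraMap k F e1 * (β : F) ^ 2 + algebraMap k F e2 * (β : F) -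
      algebraMap k F e3 = 0)
    (he3 : e3 = (p ^ 2 - δ * q ^ 2) * g) (hpq : p ^ 2 - δ * q ^ 2 ≠ 0)
    (hg : v.valuation k g = 1) {ω : HeightOneSpectrum (𝓞 F)}
    (hω : Ideal.comap (algebraMap (𝓞 k) (𝓞 F)) ω.asIdeal = v.asIdeal) :
    β ∈ NF (inc k F δ) ⊔ LS (ω.valuation F) := by
  have w2 : ω.valuation F 2 = 1 := by
    have h := (val_eq_one_iff hω (2 : k)).mpr h2
    rwa [map_ofNat] at h
  have wδ : ω.valuation F ((inc k F δ : Fˣ) : F) = 1 := (val_eq_one_iff hω (δ : k)).mpr hδ
  have w1i := (val_le_one_iff hω e1).mpr h1i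
  have w2i := (val_le_one_iff hω e2).mpr h2i
  have w3i := (val_le_one_iff hω e3).mpr h3i
  rcases lt_or_eq_of_le (root_le _ w1i w2i w3i hβ) with hlt | heq
  · -- the root is small
    have hw3 : ω.valuation F (algebraMap k F e3) < 1 := by
      have h0 : algebraMap k F e3 = (β : F) * ((β : F) ^ 2 - algebraMap k F e1 * β +
          algebraMap k F e2) := by linear_combination -hβ
      rw [h0, map_mul]
      refine lt_of_le_of_lt (mul_le_of_le_one_right' ?_) hlt
      refine (ω.valuation F).map_add_le ((ω.valuation F).map_sub_le ?_ ?_) w2i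
      · rw [map_pow]
        exact pow_le_one₀ zero_le hlt.le
      · rw [map_mul]
        exact mul_le_one' w1i hlt.le
    have hv3 : v.valuation k e3 < 1 := (val_lt_one_iff hω e3).mp hw3
    have hv2 : v.valuation k e2 = 1 := le_antisymm h2i (not_lt.mp fun h => hnc ⟨h, hv3⟩)
    have hw2 : ω.valuation F (algebraMap k F e2) = 1 := (val_eq_one_iff hω e2).mpr hv2
    have hwb := root_eq _ w1i hw2 hlt hβ
    have hwg : ω.valuation F (algebraMap k F g) = 1 := (val_eq_one_iff hω g).mpr hg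
    have hn0 : algebraMap k F (p ^ 2 - δ * q ^ 2) ≠ 0 := (map_ne_zero _).mpr hpq
    have hb0 : (β : F) ≠ 0 := β.ne_zero
    have hub : ω.valuation F ((β * (Units.mk0 _ hn0)⁻¹ : Fˣ) : F) = 1 := by
      rw [Units.val_mul, Units.val_inv_eq_inv_val, Units.val_mk0, map_mul, map_inv₀, hwb, he3,
        map_mul, map_mul, hwg, mul_one]
      exact mul_inv_cancel₀ ((Valuation.ne_zero_iff _).mpr hn0)
    have h3 := unit_norm ω w2 (inc k F δ) _ wδ hub
    have h4 : Units.mk0 _ hn0 ∈ NF (inc k F δ) ⊔ LS (ω.valuation F) := by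
      refine Subgroup.mem_sup_left ⟨algebraMap k F p, algebraMap k F q, ?_⟩
      rw [Units.val_mk0, map_sub, map_mul, map_pow, map_pow]
      rfl
    have h5 := mul_mem h3 h4
    rwa [inv_mul_cancel_right] at h5
  · exact unit_norm ω w2 (inc k F δ) β wδ heq

/-- At a place where `p + u √δ` is not integral, `δ` is a local square. -/
theorem mem_LS_of_split (δ : kˣ) {v : HeightOneSpectrum (𝓞 k)} (h2 : v.valuation k 2 = 1)
    (hδ : v.valuation k (δ : k) = 1) {p u : k} (hpu : p ^ 2 - δ * u ^ 2 = 1)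
    (hu : 1 < v.valuation k u) : δ ∈ LS (v.valuation k) := by
  have hu0 : u ≠ 0 := by
    rintro rfl
    rw [map_zero] at hu
    exact absurd hu (not_lt.mpr zero_le)
  have hu2 : 1 < v.valuation k (u ^ 2) := by
    rw [map_pow]
    exact one_lt_pow₀ hu two_ne_zero
  have hp2 : v.valuation k (p ^ 2) = v.valuation k (u ^ 2) := by
    have h0 : p ^ 2 = 1 + δ * u ^ 2 := by linear_combination hpu
    have h1 : v.valuation k (δ * u ^ 2) = v.valuation k (u ^ 2) := by rw [map_mul, hδ, one_mul]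
    rw [h0, Valuation.map_add_eq_of_lt_right _ (by rw [h1, map_one]; exact hu2), h1]
  have hp0 : p ≠ 0 := by
    rintro rfl
    rw [zero_pow two_ne_zero, map_zero] at hp2
    rw [← hp2] at hu2
    exact absurd hu2 (not_lt.mpr zero_le)
  refine ⟨Units.mk0 (p / u) (div_ne_zero hp0 hu0), ?_⟩
  have h4 : v.valuation k (4 : k) = 1 := by rw [val_four_eq, h2, one_pow]
  have h5 : (δ : k) / ((Units.mk0 (p / u) (div_ne_zero hp0 hu0) : kˣ) : k) ^ 2 - 1 =
      -(1 / p ^ 2) := by
    rw [Units.val_mk0]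
    field_simp
    linear_combination -hpu
  rw [h5, h4, Valuation.map_neg, map_div₀, map_one, hp2]
  rw [one_div]
  exact inv_lt_one_of_one_lt₀ hu2

/-- **(G4')** -/
theorem ram_split (δ : kˣ) {v : HeightOneSpectrum (𝓞 k)} (h2 : v.valuation k 2 = 1)
    (hδ : v.valuation k (δ : k) = 1) {p u : k} (hpu : p ^ 2 - δ * u ^ 2 = 1)
    (hu : 1 < v.valuation k u) {ω : HeightOneSpectrum (𝓞 F)}
    (hω : Ideal.comap (algebraMap (𝓞 k) (𝓞 F)) ω.asIdeal = v.asIdeal) (β : Fˣ) :
    β ∈ NF (inc k F δ) ⊔ LS (ω.valuation F) := by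
  have h1 : inc k F δ ∈ LS (ω.valuation F) := LS_map hω (mem_LS_of_split δ h2 hδ hpu hu)
  rw [NF_sup_of_mem' _ h1]
  exact Subgroup.mem_top _

end Vale.Agent.P011.H974
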