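import Vale.Agent.P011.H929.FFq
import Vale.Agent.P011.Hey.Ops

/-!
Local solvability for the abelian congruence theorem of the norm one group of a quaternion
algebra over a global function field: parity of the absolute value in the completion, norms from
unramified quadratic extensions, and the choice of the local trace.
-/

open Module Polynomial

set_option linter.unusedSectionVars false

namespace Vale.Agent.P011.H974.R6

open Vale.Agent.P011.H738 Vale.Agent.P011.H271 Vale.Agent.P011.Hey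

section loc

variable {F : Type} [Field F] [GFF F] (h2 : (2 : F) ≠ 0) (v : Place F)

theorem norm_add_of_lt {x y : v.comp} (h : ‖y‖ < ‖x‖) : ‖x + y‖ = ‖x‖ := by
  rw [IsUltrametricDist.norm_add_eq_max_of_norm_ne_norm h.ne', max_eq_left h.le]

theorem norm_sub_of_lt {x y : v.comp} (h : ‖y‖ < ‖x‖) : ‖x - y‖ = ‖x‖ := by
  rw [sub_eq_add_neg]
  exact norm_add_of_lt v (by rwa [norm_neg])

/-- Every nonzero element of the completion has the size of a power of the uniformizer. -/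
theorem exists_zpow {x : v.comp} (hx : x ≠ 0) :
    ∃ n : ℤ, ‖x‖ = ‖algebraMap F v.comp (unif v)‖ ^ n := by
  obtain ⟨c, hc⟩ := dense_alg v x (norm_pos_iff.mpr hx)
  have h1 : ‖algebraMap F v.comp c‖ = ‖x‖ := by
    have h3 : algebraMap F v.comp c = x - (x - algebraMap F v.comp c) := by ring
    rw [h3]
    exact norm_sub_of_lt v hc
  have hc0 : c ≠ 0 := by
    rintro rfl
    rw [map_zero, norm_zero] at h1
    exact hx (norm_eq_zero.mp h1.symm)
  obtain ⟨m, hm⟩ := exists_eq_zpow v hc0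
  refine ⟨-m, ?_⟩
  rw [← h1, norm_alg, norm_alg, abv_unif, hm, inv_zpow, zpow_neg, inv_inv]

theorem unif_pos : 0 < ‖algebraMap F v.comp (unif v)‖ := by
  rw [norm_alg, abv_unif]
  exact inv_pos.mpr (qq_pos v)

theorem unif_lt : ‖algebraMap F v.comp (unif v)‖ < 1 := by
  rw [norm_alg, abv_unif]
  exact inv_lt_one_of_one_lt₀ (one_lt_qq' v)

/-- Even valuation. -/
def Ev (x : v.comp) : Prop := ∃ c : v.comp, c ≠ 0 ∧ ‖x‖ = ‖c‖ ^ 2

variable {v}

theorem Ev.mul {x y : v.comp} (hx : Ev v x) (hy : Ev v y) : Ev v (x * y) := by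
  obtain ⟨c, hc, h⟩ := hx
  obtain ⟨e, he, h'⟩ := hy
  exact ⟨c * e, mul_ne_zero hc he, by rw [norm_mul, norm_mul, h, h']; ring⟩

theorem Ev.div {x y : v.comp} (hx : Ev v x) (hy : Ev v y) : Ev v (x / y) := by
  obtain ⟨c, hc, h⟩ := hx
  obtain ⟨e, he, h'⟩ := hy
  exact ⟨c / e, div_ne_zero hc he, by rw [norm_div, norm_div, h, h', div_pow]⟩

theorem Ev.ne_zero {x : v.comp} (hx : Ev v x) : x ≠ 0 := by
  obtain ⟨c, hc, h⟩ := hx
  rintro rfl
  rw [norm_zero] at h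
  exact (pow_pos (norm_pos_iff.mpr hc) 2).ne h

theorem ev_of_norm {x : v.comp} (h : ‖x‖ = 1) : Ev v x :=
  ⟨1, one_ne_zero, by rw [h, norm_one, one_pow]⟩

theorem ev_sq {x : v.comp} (hx : x ≠ 0) : Ev v (x ^ 2) := ⟨x, hx, norm_pow x 2⟩

/-- The decomposition of an element of even valuation. -/
theorem Ev.unit {x : v.comp} (hx : Ev v x) :
    ∃ u c : v.comp, ‖u‖ = 1 ∧ c ≠ 0 ∧ x = u * c ^ 2 := by
  obtain ⟨c, hc, h⟩ := hx
  refine ⟨x / c ^ 2, c, ?_, hc, by rw [div_mul_cancel₀ _ (pow_ne_zero 2 hc)]⟩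
  rw [norm_div, norm_pow, h, div_self (pow_ne_zero 2 (norm_ne_zero_iff.mpr hc))]

/-- The uniformizer has odd valuation. -/
theorem not_ev_unif : ¬ Ev v (algebraMap F v.comp (unif v)) := by
  rintro ⟨c, hc, h⟩
  obtain ⟨n, hn⟩ := exists_zpow v hc
  rw [hn, ← zpow_natCast, ← zpow_mul] at h
  have h1 := zpow_right_injective₀ (unif_pos v) (unif_lt v).ne
    (show ‖algebraMap F v.comp (unif v)‖ ^ (1 : ℤ) =
      ‖algebraMap F v.comp (unif v)‖ ^ (n * ((2 : ℕ) : ℤ)) by rw [zpow_one]; exact h)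
  push_cast at h1
  omega

theorem ev_or {x : v.comp} (hx : x ≠ 0) :
    Ev v x ∨ Ev v (x * algebraMap F v.comp (unif v)) := by
  obtain ⟨n, hn⟩ := exists_zpow v hx
  have h0 : algebraMap F v.comp (unif v) ≠ 0 := norm_pos_iff.mp (unif_pos v)
  rcases Int.even_or_odd' n with ⟨m, rfl | rfl⟩
  · left
    refine ⟨algebraMap F v.comp (unif v) ^ m, zpow_ne_zero _ h0, ?_⟩
    rw [hn, norm_zpow, mul_comm, zpow_mul, zpow_ofNat]
  · right
    refine ⟨algebraMap F v.comp (unif v) ^ (m + 1), zpow_ne_zero _ h0, ?_⟩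
    rw [norm_mul, hn, norm_zpow, ← zpow_natCast (‖_‖ ^ (m + 1)), ← zpow_mul,
      ← zpow_add_one₀ (unif_pos v).ne']
    congr 1
    push_cast
    ring

/-- The product of two elements of odd valuation. -/
theorem ev_mul_of_not {x y : v.comp} (hx : x ≠ 0) (hy : y ≠ 0) (h1 : ¬ Ev v x) (h2 : ¬ Ev v y) :
    Ev v (x * y) := by
  have h0 : algebraMap F v.comp (unif v) ≠ 0 := norm_pos_iff.mp (unif_pos v)
  have h3 := ((ev_or hx).resolve_left h1).mul ((ev_or hy).resolve_left h2)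
  have h4 := h3.div (ev_sq h0)
  have e : x * algebraMap F v.comp (unif v) * (y * algebraMap F v.comp (unif v)) /
      algebraMap F v.comp (unif v) ^ 2 = x * y := by
    field_simp
  rwa [e] at h4

theorem ev_div_of_not {x y : v.comp} (hx : x ≠ 0) (hy : y ≠ 0) (h1 : ¬ Ev v x) (h2 : ¬ Ev v y) :
    Ev v (x / y) := by
  have h3 := (ev_mul_of_not hx hy h1 h2).div (ev_sq hy)
  have e : x * y / y ^ 2 = x / y := by
    field_simp
  rwa [e] at h3

/-- Small elements of even valuation are smaller than the uniformizer. -/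
theorem Ev.lt_unif {x : v.comp} (hx : Ev v x) (h : ‖x‖ < 1) :
    ‖x‖ < ‖algebraMap F v.comp (unif v)‖ := by
  obtain ⟨n, hn⟩ := exists_zpow v hx.ne_zero
  rw [hn]
  have hq : (1 : ℤ) < n := by
    by_contra hcon
    rcases lt_or_eq_of_le (not_lt.mp hcon) with h1 | h1
    · have h3 : (1 : ℝ) ≤ ‖algebraMap F v.comp (unif v)‖ ^ n := by
        have := zpow_le_zpow_right_of_le_one₀ (unif_pos v) (unif_lt v).le
          (show n ≤ 0 by omega)
        rwa [zpow_zero] at this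
      rw [← hn] at h3
      exact absurd h (not_lt.mpr h3)
    · apply not_ev_unif (v := v)
      obtain ⟨c, hc, h4⟩ := hx
      refine ⟨c, hc, ?_⟩
      rw [← h4, hn, h1, zpow_one]
  have := zpow_lt_zpow_right_of_lt_one₀ (unif_pos v) (unif_lt v) hq
  rwa [zpow_one] at this

include h2

theorem norm_two : ‖(2 : v.comp)‖ = 1 := by
  rw [← map_ofNat (algebraMap F v.comp) 2, norm_alg, H929.FF.abv_two h2]

theorem two_ne' : (2 : v.comp) ≠ 0 := by
  intro h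
  have := norm_two h2 (v := v)
  rw [h, norm_zero] at this
  exact zero_ne_one this

theorem norm_four : ‖(4 : v.comp)‖ = 1 := by
  have e : (4 : v.comp) = 2 * 2 := by norm_num
  rw [e, norm_mul, norm_two h2, one_mul]

theorem four_ne' : (4 : v.comp) ≠ 0 := by
  have e : (4 : v.comp) = 2 * 2 := by norm_num
  rw [e]
  exact mul_ne_zero (two_ne' h2) (two_ne' h2)

/-- Elements close to one are squares. -/
theorem sqrt_near {x : v.comp} (hx : ‖x - 1‖ < 1) : ∃ β : v.comp, β ^ 2 = x ∧ ‖β‖ = 1 := by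
  have hx1 : ‖(1 : v.comp) - x‖ < 1 := by
    rw [← norm_neg, neg_sub]
    exact hx
  let a0 : H63.OK v.comp := ⟨1 - x, hx1.le⟩
  obtain ⟨z, -, hz⟩ := H63.hensel (K := v.comp) (X ^ 2 + C 2 * X + C a0) (by
    have e : (X ^ 2 + C 2 * X + C a0 : (H63.OK v.comp)[X]).coeff 0 = a0 := by simp
    rw [e]
    exact hx1) (by
    have e : (X ^ 2 + C 2 * X + C a0 : (H63.OK v.comp)[X]).coeff 1 = 2 := by
      simp [coeff_C, coeff_X_pow]
    rw [e]
    exact norm_two h2)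
  have h3 := congrArg (fun y : H63.OK v.comp => (y : v.comp)) hz
  simp only [eval_add, eval_pow, eval_X, eval_mul, eval_C] at h3
  have h4 : ((z : v.comp)) ^ 2 + 2 * z + (1 - x) = 0 := h3
  have h5 : (1 + (z : v.comp)) ^ 2 = x := by linear_combination h4
  refine ⟨1 + z, h5, ?_⟩
  have h6 : ‖x‖ = 1 := by
    have e : x = 1 + (x - 1) := by ring
    rw [e, norm_add_of_lt v (by rw [norm_one]; exact hx), norm_one]
  have h7 : ‖1 + (z : v.comp)‖ ^ 2 = 1 := by rw [← norm_pow, h5, h6]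
  exact (pow_eq_one_iff_of_nonneg (norm_nonneg _) two_ne_zero).mp h7

omit h2 in
/-- In a finite field of odd characteristic the form `x² - a y²` represents everything. -/
theorem ff_norm {κ : Type} [Field κ] [Finite κ] (h2 : (2 : κ) ≠ 0) (a b : κ) (ha : a ≠ 0) :
    ∃ x y : κ, x ^ 2 - a * y ^ 2 = b := by
  classical
  let _ : Fintype κ := Fintype.ofFinite κ
  have hchar : ringChar κ ≠ 2 := by
    intro h
    apply h2
    have := ringChar.Nat.cast_ringChar (R := κ)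
    rw [h] at this
    exact_mod_cast this
  obtain ⟨x, y, hxy⟩ := FiniteField.exists_root_sum_quadratic
    (f := (X ^ 2 - C b : κ[X])) (g := (C (-a) * X ^ 2 : κ[X]))
    (degree_X_pow_sub_C (by norm_num) b) (degree_C_mul_X_pow 2 (neg_ne_zero.mpr ha))
    (FiniteField.odd_card_of_char_ne_two hchar)
  refine ⟨x, y, ?_⟩
  simp only [eval_sub, eval_pow, eval_X, eval_C, eval_mul] at hxy
  linear_combination hxy

/-- **Units are norms** from unramified quadratic extensions. -/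
theorem unit_nrm {a u : v.comp} (ha : ‖a‖ = 1) (hu : ‖u‖ = 1) :
    ∃ x y : v.comp, x ^ 2 - a * y ^ 2 = u := by
  obtain ⟨a0, ha0⟩ := dense_alg v a one_pos
  obtain ⟨u0, hu0⟩ := dense_alg v u one_pos
  have na : v.abv a0 = 1 := by
    rw [← norm_alg]
    have e : algebraMap F v.comp a0 = a - (a - algebraMap F v.comp a0) := by ring
    rw [e, norm_sub_of_lt v (by rw [ha]; exact ha0), ha]
  have nu : v.abv u0 = 1 := by
    rw [← norm_alg]
    have e : algebraMap F v.comp u0 = u - (u - algebraMap F v.comp u0) := by ring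
    rw [e, norm_sub_of_lt v (by rw [hu]; exact hu0), hu]
  -- the residue field
  have hfin : Finite (integers v.abv v.nonarch ⧸ maxIdeal v.abv v.nonarch) := v.normalized.1
  let O := integers v.abv v.nonarch
  let m : Ideal O := maxIdeal v.abv v.nonarch
  have hne1 : m ≠ ⊤ := by
    intro h
    have h1 : (1 : O) ∈ m := by rw [h]; trivial
    have h3 : v.abv ((1 : O) : F) < 1 := h1
    rw [OneMemClass.coe_one, map_one] at h3
    exact lt_irrefl _ h3
  have hmax : m.IsMaximal := by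
    rw [Ideal.isMaximal_iff]
    refine ⟨fun h => hne1 ((Ideal.eq_top_iff_one m).mpr h), fun J x hmJ hx hxJ => ?_⟩
    have hx1 : v.abv (x : F) = 1 := le_antisymm x.2 (not_lt.mp fun h => hx h)
    have hx0 : (x : F) ≠ 0 := by
      intro h
      rw [h, map_zero] at hx1
      exact zero_ne_one hx1
    let xi : O := ⟨(x : F)⁻¹, by
      change v.abv (x : F)⁻¹ ≤ 1
      rw [map_inv₀, hx1, inv_one]⟩
    have h1 : xi * x = 1 := by
      ext
      exact inv_mul_cancel₀ hx0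
    rw [← h1]
    exact J.mul_mem_left _ hxJ
  let _ : Field (O ⧸ m) := Ideal.Quotient.field m
  have h2' : (2 : O ⧸ m) ≠ 0 := by
    intro h
    have h1 : Ideal.Quotient.mk m (2 : O) = 0 := by rw [map_ofNat]; exact h
    rw [Ideal.Quotient.eq_zero_iff_mem] at h1
    have h3 : v.abv ((2 : O) : F) < 1 := h1
    have e : ((2 : O) : F) = 2 := rfl
    rw [e, H929.FF.abv_two h2] at h3
    exact lt_irrefl _ h3
  let a1 : O := ⟨a0, na.le⟩
  let u1 : O := ⟨u0, nu.le⟩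
  have ha1 : Ideal.Quotient.mk m a1 ≠ 0 := by
    intro h
    rw [Ideal.Quotient.eq_zero_iff_mem] at h
    have h3 : v.abv a0 < 1 := h
    rw [na] at h3
    exact lt_irrefl _ h3
  obtain ⟨x, y, hxy⟩ := ff_norm h2' (Ideal.Quotient.mk m a1) (Ideal.Quotient.mk m u1) ha1
  obtain ⟨x, rfl⟩ := Ideal.Quotient.mk_surjective x
  obtain ⟨y, rfl⟩ := Ideal.Quotient.mk_surjective y
  rw [← sub_eq_zero, ← map_pow, ← map_pow, ← map_mul, ← map_sub, ← map_sub,
    Ideal.Quotient.eq_zero_iff_mem] at hxy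
  have h3 : v.abv ((x : F) ^ 2 - a0 * (y : F) ^ 2 - u0) < 1 := hxy
  rw [← norm_alg] at h3
  have hy1 : ‖algebraMap F v.comp (y : F)‖ ≤ 1 := by
    rw [norm_alg]
    exact y.2
  set X' : v.comp := algebraMap F v.comp (x : F) with hX
  set Y' : v.comp := algebraMap F v.comp (y : F) with hY
  have h4 : ‖X' ^ 2 - a * Y' ^ 2 - u‖ < 1 := by
    have e : X' ^ 2 - a * Y' ^ 2 - u =
        algebraMap F v.comp ((x : F) ^ 2 - a0 * (y : F) ^ 2 - u0) +
          (-((a - algebraMap F v.comp a0) * Y' ^ 2) + -(u - algebraMap F v.comp u0)) := by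
      rw [map_sub, map_sub, map_mul, map_pow, map_pow, ← hX, ← hY]
      ring
    rw [e]
    refine (IsUltrametricDist.norm_add_le_max _ _).trans_lt (max_lt h3 ?_)
    refine (IsUltrametricDist.norm_add_le_max _ _).trans_lt (max_lt ?_ ?_)
    · rw [norm_neg, norm_mul, norm_pow]
      calc ‖a - algebraMap F v.comp a0‖ * ‖Y'‖ ^ 2 ≤ ‖a - algebraMap F v.comp a0‖ * 1 :=
            mul_le_mul_of_nonneg_left (pow_le_one₀ (norm_nonneg _) hy1) (norm_nonneg _)
        _ < 1 := by rw [mul_one]; exact ha0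
    · rw [norm_neg]
      exact hu0
  have hu0' : u ≠ 0 := by
    rintro rfl
    rw [norm_zero] at hu
    exact zero_ne_one hu
  obtain ⟨β, hβ, hβ1⟩ := sqrt_near h2 (v := v) (x := (X' ^ 2 - a * Y' ^ 2) / u) (by
    rw [div_sub_one hu0', norm_div, hu, div_one]
    exact h4)
  have hβ0 : β ≠ 0 := by
    rintro rfl
    rw [norm_zero] at hβ1
    exact zero_ne_one hβ1
  refine ⟨X' / β, Y' / β, ?_⟩
  have h5 : X' ^ 2 - a * Y' ^ 2 = β ^ 2 * u := by
    rw [hβ, div_mul_cancel₀ _ hu0']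
  field_simp
  linear_combination h5

/-- Elements of even valuation are norms from unramified quadratic extensions. -/
theorem ev_nrm {a b : v.comp} (ha : Ev v a) (hb : Ev v b) :
    ∃ x y : v.comp, x ^ 2 - a * y ^ 2 = b := by
  obtain ⟨α, c, hα, hc, rfl⟩ := ha.unit
  obtain ⟨u, g, hu, hg, rfl⟩ := hb.unit
  obtain ⟨x, y, hxy⟩ := unit_nrm h2 hα hu
  refine ⟨g * x, g * y / c, ?_⟩
  rw [← hxy]
  field_simp

/-- If `b` is a norm: large traces. -/
theorem case_norm {δ b r : v.comp} (hδ4 : δ + 4 ≠ 0) (hb : b ≠ 0)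
    (h : ∃ x y : v.comp, x ^ 2 - δ * (δ + 4) / 4 * y ^ 2 = b) :
    ∃ s f1 f2 : v.comp, s ^ 2 * (δ * (δ + 4) / 4) +
      b * (f1 ^ 2 - δ * (δ + 4) / 4 * f2 ^ 2) = δ ∧ ∃ η : ℝ, 0 < η ∧ ∀ T : v.comp,
        ‖T - s * (δ + 4) / 2‖ < η → ∃ x y z w : v.comp, x ^ 2 - δ * (δ + 4) / 4 * y ^ 2 ≠ 0 ∧
          r * (x ^ 2 - δ * (δ + 4) / 4 * y ^ 2) = z ^ 2 - (T ^ 2 - 4) * w ^ 2 := by
  have h2' := two_ne' h2 (v := v)
  have h4' := four_ne' h2 (v := v)
  obtain ⟨x, y, hxy⟩ := h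
  -- the large trace
  obtain ⟨T, hT1, hTδ⟩ : ∃ T : v.comp, 1 < ‖T‖ ∧ ‖δ + 4‖ < ‖T‖ ^ 2 := by
    have hp := unif_pos v
    have h1 : 1 < ‖(algebraMap F v.comp (unif v))⁻¹‖ := by
      rw [norm_inv]
      exact (one_lt_inv₀ hp).mpr (unif_lt v)
    obtain ⟨n, hn⟩ := pow_unbounded_of_one_lt (‖δ + 4‖ + 1) h1
    refine ⟨(algebraMap F v.comp (unif v))⁻¹ ^ n, ?_, ?_⟩
    · rw [norm_pow]
      linarith [norm_nonneg (δ + 4)]
    · rw [norm_pow]
      nlinarith [norm_nonneg (δ + 4)]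
  have hT0 : T ≠ 0 := norm_pos_iff.mp (one_pos.trans hT1)
  obtain ⟨β, hβ, -⟩ := sqrt_near h2 (v := v) (x := 1 - (δ + 4) / T ^ 2) (by
    have e : 1 - (δ + 4) / T ^ 2 - 1 = -((δ + 4) / T ^ 2) := by ring
    rw [e, norm_neg, norm_div, norm_pow, div_lt_one (pow_pos (one_pos.trans hT1) 2)]
    exact hTδ)
  have hβT : (T * β) ^ 2 = T ^ 2 - (δ + 4) := by
    rw [mul_pow, hβ]
    field_simp
  refine ⟨2 * T / (δ + 4), 2 * (T * β) / (δ + 4) * (δ * (δ + 4) / 4) * y / b,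
    2 * (T * β) / (δ + 4) * x / b, ?_, 1, one_pos, fun T' hT' => ?_⟩
  · have e1 : (2 * (T * β) / (δ + 4) * (δ * (δ + 4) / 4) * y / b) ^ 2 -
        δ * (δ + 4) / 4 * (2 * (T * β) / (δ + 4) * x / b) ^ 2 =
        -(δ * (δ + 4) / 4) * (2 * (T * β) / (δ + 4)) ^ 2 *
          (x ^ 2 - δ * (δ + 4) / 4 * y ^ 2) / b ^ 2 := by
      ring
    have e2 : -(δ * (δ + 4) / 4) * (2 * (T * β) / (δ + 4)) ^ 2 * b / b ^ 2 =
        -δ * (T * β) ^ 2 / ((δ + 4) * b) := by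
      field_simp
      ring
    rw [e1, hxy, e2, hβT]
    field_simp
    ring
  · have e3 : 2 * T / (δ + 4) * (δ + 4) / 2 = T := by field_simp
    rw [e3] at hT'
    have hT'n : ‖T'‖ = ‖T‖ := by
      have e : T' = T + (T' - T) := by ring
      rw [e]
      exact norm_add_of_lt v (hT'.trans hT1)
    have hT'0 : T' ≠ 0 := norm_pos_iff.mp (by rw [hT'n]; exact one_pos.trans hT1)
    obtain ⟨e, he, he1⟩ := sqrt_near h2 (v := v) (x := 1 - 4 / T' ^ 2) (by
      have e' : 1 - 4 / T' ^ 2 - 1 = -(4 / T' ^ 2) := by ring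
      rw [e', norm_neg, norm_div, norm_pow, norm_four h2, hT'n, div_lt_one (by positivity)]
      exact one_lt_pow₀ hT1 two_ne_zero)
    have he0 : e ≠ 0 := by
      rintro rfl
      rw [norm_zero] at he1
      exact zero_ne_one he1
    have heT : T' ^ 2 - 4 = (T' * e) ^ 2 := by
      rw [mul_pow, he]
      field_simp
    have hTe : T' * e ≠ 0 := mul_ne_zero hT'0 he0
    refine ⟨1, 0, (r + 1) / 2, (r - 1) / (2 * (T' * e)), ?_, ?_⟩
    · rw [zero_pow two_ne_zero, mul_zero, sub_zero, one_pow]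
      exact one_ne_zero
    · rw [heT]
      field_simp
      ring

/-- If `b` is not a norm and `a` has odd valuation: the trace is a unit. -/
theorem case_odd {δ b r : v.comp} (hr : r ≠ 0) (hδ0 : δ ≠ 0) (hδ : ‖δ‖ < 1) (hb : b ≠ 0)
    (h : ¬ ∃ x y : v.comp, x ^ 2 - δ * (δ + 4) / 4 * y ^ 2 = b)
    (ha : ¬ Ev v (δ * (δ + 4) / 4)) :
    ∃ s f1 f2 : v.comp, s ^ 2 * (δ * (δ + 4) / 4) +
      b * (f1 ^ 2 - δ * (δ + 4) / 4 * f2 ^ 2) = δ ∧ ∃ η : ℝ, 0 < η ∧ ∀ T : v.comp,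
        ‖T - s * (δ + 4) / 2‖ < η → ∃ x y z w : v.comp, x ^ 2 - δ * (δ + 4) / 4 * y ^ 2 ≠ 0 ∧
          r * (x ^ 2 - δ * (δ + 4) / 4 * y ^ 2) = z ^ 2 - (T ^ 2 - 4) * w ^ 2 := by
  have h2' := two_ne' h2 (v := v)
  have h4' := four_ne' h2 (v := v)
  have n4 := norm_four h2 (v := v)
  have hδ4n : ‖δ + 4‖ = 1 := by
    rw [add_comm, norm_add_of_lt v (by rw [n4]; exact hδ), n4]
  have hδ4 : δ + 4 ≠ 0 := norm_ne_zero_iff.mp (by rw [hδ4n]; exact one_ne_zero)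
  obtain ⟨a, ha'⟩ : ∃ a : v.comp, a = δ * (δ + 4) / 4 := ⟨_, rfl⟩
  have ha0 : a ≠ 0 := by
    rw [ha']
    exact div_ne_zero (mul_ne_zero hδ0 hδ4) h4'
  have hδa : δ = 4 * a / (δ + 4) := by
    rw [ha']
    field_simp
  rw [← ha'] at h ha ⊢
  have hna : ¬ Ev v (-a) := by
    rintro ⟨c, hc, h1⟩
    exact ha ⟨c, hc, by rw [← h1, norm_neg]⟩
  -- a nonsquare unit
  obtain ⟨n, c, hn1, hc, hnc⟩ : ∃ n c : v.comp, ‖n‖ = 1 ∧ c ≠ 0 ∧
      (b = n * c ^ 2 ∨ -a * b = n * c ^ 2) := by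
    by_cases hbE : Ev v b
    · obtain ⟨n, c, h1, h3, h4⟩ := hbE.unit
      exact ⟨n, c, h1, h3, Or.inl h4⟩
    · obtain ⟨n, c, h1, h3, h4⟩ := (ev_mul_of_not (neg_ne_zero.mpr ha0) hb hna hbE).unit
      exact ⟨n, c, h1, h3, Or.inr h4⟩
  have hnsq : ∀ m : v.comp, m ^ 2 ≠ n := by
    intro m hm
    apply h
    rcases hnc with h1 | h1
    · exact ⟨m * c, 0, by rw [h1, ← hm]; ring⟩
    · refine ⟨0, m * c / a, ?_⟩
      have h5 : b = n * c ^ 2 / -a := by
        rw [← h1]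
        field_simp
      rw [h5, ← hm]
      field_simp
      ring
  have hn0 : n ≠ 0 := norm_ne_zero_iff.mp (by rw [hn1]; exact one_ne_zero)
  have h1n : ‖1 - n‖ = 1 := by
    have hle : ‖1 - n‖ ≤ 1 := by
      rw [sub_eq_add_neg]
      refine (IsUltrametricDist.norm_add_le_max _ _).trans (max_le (by rw [norm_one]) ?_)
      rw [norm_neg, hn1]
    rcases lt_or_eq_of_le hle with h1 | h1
    · obtain ⟨m, hm, -⟩ := sqrt_near h2 (v := v) (x := n) (by rw [← norm_neg, neg_sub]; exact h1)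
      exact absurd hm (hnsq m)
    · exact h1
  have h1n0 : 1 - n ≠ 0 := norm_ne_zero_iff.mp (by rw [h1n]; exact one_ne_zero)
  -- the trace
  obtain ⟨T, hTd⟩ : ∃ T : v.comp, T = 2 * (1 + n) / (1 - n) := ⟨_, rfl⟩
  have hT4 : T ^ 2 - 4 = 16 * n / (1 - n) ^ 2 := by
    rw [hTd]
    field_simp
    ring
  have hTn : ‖T‖ ≤ 1 := by
    rw [hTd, norm_div, norm_mul, norm_two h2, one_mul, h1n, div_one]
    refine (IsUltrametricDist.norm_add_le_max _ _).trans (max_le (by rw [norm_one]) hn1.le)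
  have n16 : ‖(16 : v.comp)‖ = 1 := by
    have e : (16 : v.comp) = 4 * 4 := by norm_num
    rw [e, norm_mul, n4, one_mul]
  have hεn : ‖T ^ 2 - 4‖ = 1 := by
    rw [hT4, norm_div, norm_mul, norm_pow, n16, hn1, h1n]
    norm_num
  have hε0 : T ^ 2 - 4 ≠ 0 := norm_ne_zero_iff.mp (by rw [hεn]; exact one_ne_zero)
  obtain ⟨κ, hκ, -⟩ := sqrt_near h2 (v := v) (x := 1 - δ / (T ^ 2 - 4)) (by
    have e : 1 - δ / (T ^ 2 - 4) - 1 = -(δ / (T ^ 2 - 4)) := by ring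
    rw [e, norm_neg, norm_div, hεn, div_one]
    exact hδ)
  have hP : T ^ 2 - 4 - δ = n * (4 * κ / (1 - n)) ^ 2 := by
    have h1 : (T ^ 2 - 4) * κ ^ 2 = T ^ 2 - 4 - δ := by
      rw [hκ]
      field_simp
    rw [← h1, hT4]
    field_simp
    ring
  -- the identity
  have hkey : ∀ f1 f2 : v.comp, b * (f1 ^ 2 - a * f2 ^ 2) =
      -a * n * (8 * κ / ((1 - n) * (δ + 4))) ^ 2 →
      (2 * T / (δ + 4)) ^ 2 * a + b * (f1 ^ 2 - a * f2 ^ 2) = δ := by
    intro f1 f2 hf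
    have h1 : -a * n * (8 * κ / ((1 - n) * (δ + 4))) ^ 2 =
        -a * (T ^ 2 - 4 - δ) * (2 / (δ + 4)) ^ 2 := by
      rw [hP]
      field_simp
      ring
    rw [hf, h1]
    have h3 : (2 * T / (δ + 4)) ^ 2 * a + -a * (T ^ 2 - 4 - δ) * (2 / (δ + 4)) ^ 2 =
        4 * a / (δ + 4) := by
      field_simp
      ring
    rw [h3]
    exact hδa.symm
  have hex : ∃ f1 f2 : v.comp, b * (f1 ^ 2 - a * f2 ^ 2) =
      -a * n * (8 * κ / ((1 - n) * (δ + 4))) ^ 2 := by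
    rcases hnc with h1 | h1
    · refine ⟨0, 8 * κ / ((1 - n) * (δ + 4)) / c, ?_⟩
      rw [h1]
      field_simp
      ring
    · refine ⟨a * (8 * κ / ((1 - n) * (δ + 4))) / c, 0, ?_⟩
      have h5 : b = n * c ^ 2 / -a := by
        rw [← h1]
        field_simp
      rw [h5]
      field_simp
      ring
  obtain ⟨f1, f2, hf⟩ := hex
  refine ⟨2 * T / (δ + 4), f1, f2, hkey f1 f2 hf, 1, one_pos, fun T' hT' => ?_⟩
  have e3 : 2 * T / (δ + 4) * (δ + 4) / 2 = T := by field_simp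
  rw [e3] at hT'
  have hT'n : ‖T'‖ ≤ 1 := by
    have e : T' = T + (T' - T) := by ring
    rw [e]
    exact (IsUltrametricDist.norm_add_le_max _ _).trans (max_le hTn hT'.le)
  have hε' : ‖T' ^ 2 - 4‖ = 1 := by
    have e : T' ^ 2 - 4 = (T ^ 2 - 4) + (T' - T) * (T' + T) := by ring
    have h1 : ‖(T' - T) * (T' + T)‖ < 1 := by
      rw [norm_mul]
      calc ‖T' - T‖ * ‖T' + T‖ ≤ ‖T' - T‖ * 1 := mul_le_mul_of_nonneg_left
            ((IsUltrametricDist.norm_add_le_max _ _).trans (max_le hT'n hTn)) (norm_nonneg _)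
        _ < 1 := by rw [mul_one]; exact hT'
    rw [e, norm_add_of_lt v (by rw [hεn]; exact h1), hεn]
  by_cases hrE : Ev v r
  · obtain ⟨z, w, hzw⟩ := ev_nrm h2 (ev_of_norm hε') hrE
    refine ⟨1, 0, z, w, ?_, ?_⟩
    · rw [zero_pow two_ne_zero, mul_zero, sub_zero, one_pow]
      exact one_ne_zero
    · rw [hzw]
      ring
  · obtain ⟨z, w, hzw⟩ := ev_nrm h2 (ev_of_norm hε')
      (ev_mul_of_not hr (neg_ne_zero.mpr ha0) hrE hna)
    refine ⟨0, 1, z, w, ?_, ?_⟩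
    · rw [zero_pow two_ne_zero, one_pow, mul_one, zero_sub]
      exact neg_ne_zero.mpr ha0
    · rw [hzw]
      ring

/-- If `b` is not a norm and `a` has even valuation: the trace is close to two. -/
theorem case_even {δ b r : v.comp} (hr : r ≠ 0) (hδ0 : δ ≠ 0) (hδ : ‖δ‖ < 1) (hb : b ≠ 0)
    (h : ¬ ∃ x y : v.comp, x ^ 2 - δ * (δ + 4) / 4 * y ^ 2 = b)
    (ha : Ev v (δ * (δ + 4) / 4)) :
    ∃ s f1 f2 : v.comp, s ^ 2 * (δ * (δ + 4) / 4) +
      b * (f1 ^ 2 - δ * (δ + 4) / 4 * f2 ^ 2) = δ ∧ ∃ η : ℝ, 0 < η ∧ ∀ T : v.comp,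
        ‖T - s * (δ + 4) / 2‖ < η → ∃ x y z w : v.comp, x ^ 2 - δ * (δ + 4) / 4 * y ^ 2 ≠ 0 ∧
          r * (x ^ 2 - δ * (δ + 4) / 4 * y ^ 2) = z ^ 2 - (T ^ 2 - 4) * w ^ 2 := by
  have h2' := two_ne' h2 (v := v)
  have h4' := four_ne' h2 (v := v)
  have n4 := norm_four h2 (v := v)
  have hδ4n : ‖δ + 4‖ = 1 := by
    rw [add_comm, norm_add_of_lt v (by rw [n4]; exact hδ), n4]
  have hδ4 : δ + 4 ≠ 0 := norm_ne_zero_iff.mp (by rw [hδ4n]; exact one_ne_zero)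
  have hδE : Ev v δ := by
    have e : δ = δ * (δ + 4) / 4 / ((δ + 4) / 4) := by field_simp
    rw [e]
    exact ha.div (ev_of_norm (by rw [norm_div, hδ4n, n4, div_one]))
  obtain ⟨a, ha'⟩ : ∃ a : v.comp, a = δ * (δ + 4) / 4 := ⟨_, rfl⟩
  have ha0 : a ≠ 0 := by
    rw [ha']
    exact div_ne_zero (mul_ne_zero hδ0 hδ4) h4'
  have hδa : δ = 4 * a / (δ + 4) := by
    rw [ha']
    field_simp
  rw [← ha'] at h ha ⊢
  have hbE : ¬ Ev v b := fun hbE => h (ev_nrm h2 ha hbE)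
  -- the trace
  obtain ⟨π, hπ⟩ : ∃ π : v.comp, π = algebraMap F v.comp (unif v) := ⟨_, rfl⟩
  have hπpos : 0 < ‖π‖ := by rw [hπ]; exact unif_pos v
  have hπlt : ‖π‖ < 1 := by rw [hπ]; exact unif_lt v
  have hπE : ∀ x : v.comp, ‖x‖ = ‖π‖ → ¬ Ev v x := by
    rintro x hx ⟨c, hc, h1⟩
    exact not_ev_unif (v := v) ⟨c, hc, by rw [← h1, hx, hπ]⟩
  have hδπ : ‖δ‖ < ‖π‖ := by rw [hπ]; exact hδE.lt_unif hδ
  obtain ⟨T, hTd⟩ : ∃ T : v.comp, T = 2 + π := ⟨_, rfl⟩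
  have hPn : ‖δ + 4 - T ^ 2‖ = ‖π‖ := by
    have e : δ + 4 - T ^ 2 = -(4 * π) + (δ - π ^ 2) := by
      rw [hTd]
      ring
    have h1 : ‖-(4 * π)‖ = ‖π‖ := by rw [norm_neg, norm_mul, n4, one_mul]
    have h3 : ‖δ - π ^ 2‖ < ‖π‖ := by
      rw [sub_eq_add_neg]
      refine (IsUltrametricDist.norm_add_le_max _ _).trans_lt (max_lt hδπ ?_)
      rw [norm_neg, norm_pow]
      nlinarith
    rw [e, norm_add_of_lt v (by rw [h1]; exact h3), h1]
  have hP0 : δ + 4 - T ^ 2 ≠ 0 := norm_pos_iff.mp (by rw [hPn]; exact hπpos)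
  have hPE : ¬ Ev v (δ + 4 - T ^ 2) := hπE _ hPn
  have hq : Ev v (4 * a / (δ + 4) ^ 2 * ((δ + 4 - T ^ 2) / b)) := by
    refine (((ev_of_norm n4).mul ha).div (ev_sq hδ4)).mul ?_
    exact ev_div_of_not hP0 hb hPE hbE
  obtain ⟨f1, f2, hf⟩ := ev_nrm h2 ha hq
  refine ⟨2 * T / (δ + 4), f1, f2, ?_, ‖π‖, hπpos, fun T' hT' => ?_⟩
  · rw [hf]
    have h3 : (2 * T / (δ + 4)) ^ 2 * a + b * (4 * a / (δ + 4) ^ 2 * ((δ + 4 - T ^ 2) / b)) =
        4 * a / (δ + 4) := by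
      field_simp
      ring
    rw [h3]
    exact hδa.symm
  have e3 : 2 * T / (δ + 4) * (δ + 4) / 2 = T := by field_simp
  rw [e3] at hT'
  have hm2 : ‖T' - 2‖ = ‖π‖ := by
    have e : T' - 2 = π + (T' - T) := by
      rw [hTd]
      ring
    rw [e]
    exact norm_add_of_lt v hT'
  have hp2 : ‖T' + 2‖ = 1 := by
    have e : T' + 2 = 4 + (T' - 2) := by ring
    rw [e, norm_add_of_lt v (by rw [n4, hm2]; exact hπlt), n4]
  have hε' : ‖T' ^ 2 - 4‖ = ‖π‖ := by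
    have e : T' ^ 2 - 4 = (T' - 2) * (T' + 2) := by ring
    rw [e, norm_mul, hm2, hp2, mul_one]
  have hε0 : T' ^ 2 - 4 ≠ 0 := norm_pos_iff.mp (by rw [hε']; exact hπpos)
  by_cases hrE : Ev v r
  · obtain ⟨x, y, hxy⟩ := ev_nrm h2 ha (hrE.div (ev_sq hr))
    refine ⟨x, y, 1, 0, ?_, ?_⟩
    · rw [hxy]
      exact div_ne_zero hr (pow_ne_zero 2 hr)
    · rw [hxy]
      field_simp
      ring
  · obtain ⟨x, y, hxy⟩ := ev_nrm h2 ha (ev_div_of_not (neg_ne_zero.mpr hε0) hr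
      (hπE _ (by rw [norm_neg, hε'])) hrE)
    refine ⟨x, y, 0, 1, ?_, ?_⟩
    · rw [hxy]
      exact div_ne_zero (neg_ne_zero.mpr hε0) hr
    · rw [hxy]
      field_simp
      ring

omit h2 in
theorem map_a (δ : F) : algebraMap F v.comp (δ * (δ + 4) / 4) =
    algebraMap F v.comp δ * (algebraMap F v.comp δ + 4) / 4 := by
  rw [map_div₀, map_mul, map_add, map_ofNat]

end loc

section final

variable {F : Type} [Field F] [GFF F] (h2 : (2 : F) ≠ 0) (v : Place F)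

include h2

/-- **(D) The choice of the local trace.** -/
theorem loc_T {δ b r : F} (hδ : δ ≠ 0) (hδ4 : δ + 4 ≠ 0) (hb : b ≠ 0) (hr : r ≠ 0)
    (hv : v.abv δ < 1 ∨ ∃ x y : v.comp,
      x ^ 2 - algebraMap F v.comp (δ * (δ + 4) / 4) * y ^ 2 = algebraMap F v.comp b) :
    ∃ s f1 f2 : v.comp, s ^ 2 * algebraMap F v.comp (δ * (δ + 4) / 4) +
      algebraMap F v.comp b * (f1 ^ 2 - algebraMap F v.comp (δ * (δ + 4) / 4) * f2 ^ 2) =
        algebraMap F v.comp δ ∧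
      ∃ η : ℝ, 0 < η ∧ ∀ T : v.comp, ‖T - s * (algebraMap F v.comp δ + 4) / 2‖ < η →
        ∃ x y z w : v.comp, x ^ 2 - algebraMap F v.comp (δ * (δ + 4) / 4) * y ^ 2 ≠ 0 ∧
          algebraMap F v.comp r * (x ^ 2 - algebraMap F v.comp (δ * (δ + 4) / 4) * y ^ 2) =
            z ^ 2 - (T ^ 2 - 4) * w ^ 2 := by
  have hr' : algebraMap F v.comp r ≠ 0 := (_root_.map_ne_zero _).mpr hr
  have hb' : algebraMap F v.comp b ≠ 0 := (_root_.map_ne_zero _).mpr hb
  have hδ' : algebraMap F v.comp δ ≠ 0 := (_root_.map_ne_zero _).mpr hδ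
  have hδ4' : algebraMap F v.comp δ + 4 ≠ 0 := by
    rw [← map_ofNat (algebraMap F v.comp) 4, ← map_add]
    exact (_root_.map_ne_zero _).mpr hδ4
  rw [map_a (v := v)] at hv ⊢
  by_cases h : ∃ x y : v.comp, x ^ 2 - algebraMap F v.comp δ * (algebraMap F v.comp δ + 4) / 4 *
      y ^ 2 = algebraMap F v.comp b
  · exact case_norm h2 hδ4' hb' h
  · have hδ1 : ‖algebraMap F v.comp δ‖ < 1 := by
      rw [norm_alg]
      exact hv.resolve_right h
    by_cases ha : Ev v (algebraMap F v.comp δ * (algebraMap F v.comp δ + 4) / 4)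
    · exact case_even h2 hr' hδ' hδ1 hb' h ha
    · exact case_odd h2 hr' hδ' hδ1 hb' h ha

/-- **(D')** The trace of the inverse square root. -/
theorem loc_half {δ : F} (hδ : v.abv δ < 1) :
    ∃ s : v.comp, s ^ 2 * algebraMap F v.comp (δ * (δ + 4) / 4) = algebraMap F v.comp δ ∧
      ‖s * (algebraMap F v.comp δ + 4) / 2 - 2‖ < 1 := by
  have h2' := two_ne' h2 (v := v)
  have h4' := four_ne' h2 (v := v)
  have n4 := norm_four h2 (v := v)
  have hδ1 : ‖algebraMap F v.comp δ‖ < 1 := by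
    rw [norm_alg]
    exact hδ
  rw [map_a (v := v)]
  obtain ⟨δ', hδ'⟩ : ∃ δ' : v.comp, δ' = algebraMap F v.comp δ := ⟨_, rfl⟩
  rw [← hδ'] at hδ1 ⊢
  obtain ⟨β, hβ, hβ1⟩ := sqrt_near h2 (v := v) (x := 1 + δ' / 4) (by
    rw [add_sub_cancel_left, norm_div, n4, div_one]
    exact hδ1)
  have hβ0 : β ≠ 0 := by
    rintro rfl
    rw [norm_zero] at hβ1
    exact zero_ne_one hβ1
  have h4β : δ' + 4 = 4 * β ^ 2 := by
    rw [hβ]
    field_simp
    ring
  -- the sign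
  have hprod : (β - 1) * (β + 1) = δ' / 4 := by
    have : β ^ 2 - 1 = δ' / 4 := by
      rw [hβ]
      ring
    rw [← this]
    ring
  have hpn : ‖β - 1‖ * ‖β + 1‖ < 1 := by
    rw [← norm_mul, hprod, norm_div, n4, div_one]
    exact hδ1
  have hcase : ‖β - 1‖ < 1 ∨ ‖-β - 1‖ < 1 := by
    by_contra hcon
    push Not at hcon
    obtain ⟨h1, h3⟩ := hcon
    have h5 : ‖-β - 1‖ = ‖β + 1‖ := by
      rw [← norm_neg]
      congr 1
      ring
    rw [h5] at h3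
    nlinarith [norm_nonneg (β - 1), norm_nonneg (β + 1)]
  have hmain : ∀ γ : v.comp, γ ≠ 0 → ‖γ - 1‖ < 1 → δ' + 4 = 4 * γ ^ 2 →
      ∃ s : v.comp, s ^ 2 * (δ' * (δ' + 4) / 4) = δ' ∧ ‖s * (δ' + 4) / 2 - 2‖ < 1 := by
    intro γ hγ0 hγ1 hγ
    refine ⟨1 / γ, ?_, ?_⟩
    · rw [hγ]
      field_simp
    · have e : 1 / γ * (δ' + 4) / 2 - 2 = 2 * (γ - 1) := by
        rw [hγ]
        field_simp
        ring
      rw [e, norm_mul, norm_two h2, one_mul]
      exact hγ1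
  rcases hcase with h1 | h1
  · exact hmain β hβ0 h1 h4β
  · exact hmain (-β) (neg_ne_zero.mpr hβ0) h1 (by rw [h4β]; ring)

end final

end Vale.Agent.P011.H974.R6
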