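import Vale.Agent.P011.H974.R6D

/-!
The choice of the local trace close to two.
-/

open Module Polynomial

set_option linter.unusedSectionVars false

namespace Vale.Agent.P011.H974.R6

open Vale.Agent.P011.H738 Vale.Agent.P011.H271 Vale.Agent.P011.Hey

section loc

variable {F : Type} [Field F] [GFF F] (h2 : (2 : F) ≠ 0) {v : Place F}

include h2

/-- Odd valuation: a trace close to two. -/
theorem near_odd {δ b r m : v.comp} (hr : r ≠ 0) (hδ0 : δ ≠ 0) (hb : b ≠ 0) (hm0 : m ≠ 0)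
    (hm1 : ‖m‖ < 1) (hδm : ‖δ‖ < ‖m‖ ^ 2)
    (h : ¬ ∃ x y : v.comp, x ^ 2 - δ * (δ + 4) / 4 * y ^ 2 = b)
    (ha : ¬ Ev v (δ * (δ + 4) / 4)) :
    ∃ s f1 f2 : v.comp, s ^ 2 * (δ * (δ + 4) / 4) +
      b * (f1 ^ 2 - δ * (δ + 4) / 4 * f2 ^ 2) = δ ∧ ‖s * (δ + 4) / 2 - 2‖ ≤ ‖m‖ ^ 2 ∧
      ∃ η : ℝ, 0 < η ∧ ∀ T : v.comp,
        ‖T - s * (δ + 4) / 2‖ < η → ∃ x y z w : v.comp, x ^ 2 - δ * (δ + 4) / 4 * y ^ 2 ≠ 0 ∧
          r * (x ^ 2 - δ * (δ + 4) / 4 * y ^ 2) = z ^ 2 - (T ^ 2 - 4) * w ^ 2 := by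
  have h2' := two_ne' h2 (v := v)
  have h4' := four_ne' h2 (v := v)
  have n4 := norm_four h2 (v := v)
  have hmpos : 0 < ‖m‖ := norm_pos_iff.mpr hm0
  have hm2 : ‖m‖ ^ 2 < 1 := pow_lt_one₀ hmpos.le hm1 two_ne_zero
  have hδ : ‖δ‖ < 1 := hδm.trans hm2
  have hδ4n : ‖δ + 4‖ = 1 := by
    rw [add_comm, norm_add_of_lt v (by rw [n4]; exact hδ), n4]
  have hδ4 : δ + 4 ≠ 0 := norm_ne_zero_iff.mp (by rw [hδ4n]; exact one_ne_zero)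
  obtain ⟨a, ha'⟩ : ∃ a : v.comp, a = δ * (δ + 4) / 4 := ⟨_, rfl⟩
  have ha0 : a ≠ 0 := by
    rw [ha']
    exact div_ne_zero (mul_ne_zero hδ0 hδ4) h4'
  have hδa : δ = 4 * a / (δ + 4) := by
    rw [ha']
    field_simp
  rw [← ha'] at h ha ⊢
  have hna : ¬ Ev v (-a) := by
    rintro ⟨c, hc, h1⟩
    exact ha ⟨c, hc, by rw [← h1, norm_neg]⟩
  obtain ⟨n, c, hn1, hc, hnc⟩ : ∃ n c : v.comp, ‖n‖ = 1 ∧ c ≠ 0 ∧
      (b = n * c ^ 2 ∨ -a * b = n * c ^ 2) := by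
    by_cases hbE : Ev v b
    · obtain ⟨n, c, h1, h3, h4⟩ := hbE.unit
      exact ⟨n, c, h1, h3, Or.inl h4⟩
    · obtain ⟨n, c, h1, h3, h4⟩ := (ev_mul_of_not (neg_ne_zero.mpr ha0) hb hna hbE).unit
      exact ⟨n, c, h1, h3, Or.inr h4⟩
  have hn0 : n ≠ 0 := norm_ne_zero_iff.mp (by rw [hn1]; exact one_ne_zero)
  have hnm : ‖n * m ^ 2‖ = ‖m‖ ^ 2 := by rw [norm_mul, hn1, one_mul, norm_pow]
  have h1n : ‖1 - n * m ^ 2‖ = 1 := by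
    rw [norm_sub_of_lt v (by rw [norm_one, hnm]; exact hm2), norm_one]
  have h1n0 : 1 - n * m ^ 2 ≠ 0 := norm_ne_zero_iff.mp (by rw [h1n]; exact one_ne_zero)
  -- the trace
  obtain ⟨T, hTd⟩ : ∃ T : v.comp, T = 2 * (1 + n * m ^ 2) / (1 - n * m ^ 2) := ⟨_, rfl⟩
  have hT2 : T - 2 = 4 * (n * m ^ 2) / (1 - n * m ^ 2) := by
    rw [hTd]
    field_simp
    ring
  have hT4 : T ^ 2 - 4 = 16 * n * m ^ 2 / (1 - n * m ^ 2) ^ 2 := by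
    rw [hTd]
    field_simp
    ring
  have n16 : ‖(16 : v.comp)‖ = 1 := by
    have e : (16 : v.comp) = 4 * 4 := by norm_num
    rw [e, norm_mul, n4, one_mul]
  have hTn2 : ‖T - 2‖ = ‖m‖ ^ 2 := by
    rw [hT2, norm_div, norm_mul, n4, one_mul, hnm, h1n, div_one]
  have hTn : ‖T‖ ≤ 1 := by
    have e : T = 2 + (T - 2) := by ring
    rw [e]
    refine (IsUltrametricDist.norm_add_le_max _ _).trans (max_le (norm_two h2).le ?_)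
    rw [hTn2]
    exact hm2.le
  have hεn : ‖T ^ 2 - 4‖ = ‖m‖ ^ 2 := by
    rw [hT4, norm_div, norm_mul, norm_mul, norm_pow, norm_pow, n16, hn1, h1n]
    norm_num
  have hm2pos : 0 < ‖m‖ ^ 2 := pow_pos hmpos 2
  have hε0 : T ^ 2 - 4 ≠ 0 := norm_pos_iff.mp (by rw [hεn]; exact hm2pos)
  obtain ⟨κ, hκ, -⟩ := sqrt_near h2 (v := v) (x := 1 - δ / (T ^ 2 - 4)) (by
    have e : 1 - δ / (T ^ 2 - 4) - 1 = -(δ / (T ^ 2 - 4)) := by ring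
    rw [e, norm_neg, norm_div, hεn, div_lt_one hm2pos]
    exact hδm)
  have hP : T ^ 2 - 4 - δ = n * (4 * m * κ / (1 - n * m ^ 2)) ^ 2 := by
    have h1 : (T ^ 2 - 4) * κ ^ 2 = T ^ 2 - 4 - δ := by
      rw [hκ]
      field_simp
    rw [← h1, hT4]
    field_simp
    ring
  have hkey : ∀ f1 f2 : v.comp, b * (f1 ^ 2 - a * f2 ^ 2) =
      -a * n * (8 * m * κ / ((1 - n * m ^ 2) * (δ + 4))) ^ 2 →
      (2 * T / (δ + 4)) ^ 2 * a + b * (f1 ^ 2 - a * f2 ^ 2) = δ := by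
    intro f1 f2 hf
    have h1 : -a * n * (8 * m * κ / ((1 - n * m ^ 2) * (δ + 4))) ^ 2 =
        -a * (T ^ 2 - 4 - δ) * (2 / (δ + 4)) ^ 2 := by
      rw [hP]
      field_simp
      ring
    rw [hf, h1]
    have h3 : (2 * T / (δ + 4)) ^ 2 * a + -a * (T ^ 2 - 4 - δ) * (2 / (δ + 4)) ^ 2 =
        4 * a / (δ + 4) := by
      field_simp
      ring
    rw [h3]
    exact hδa.symm
  have hex : ∃ f1 f2 : v.comp, b * (f1 ^ 2 - a * f2 ^ 2) =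
      -a * n * (8 * m * κ / ((1 - n * m ^ 2) * (δ + 4))) ^ 2 := by
    rcases hnc with h1 | h1
    · refine ⟨0, 8 * m * κ / ((1 - n * m ^ 2) * (δ + 4)) / c, ?_⟩
      rw [h1]
      field_simp
      ring
    · refine ⟨a * (8 * m * κ / ((1 - n * m ^ 2) * (δ + 4))) / c, 0, ?_⟩
      have h5 : b = n * c ^ 2 / -a := by
        rw [← h1]
        field_simp
      rw [h5]
      field_simp
      ring
  obtain ⟨f1, f2, hf⟩ := hex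
  have e3 : 2 * T / (δ + 4) * (δ + 4) / 2 = T := by field_simp
  refine ⟨2 * T / (δ + 4), f1, f2, hkey f1 f2 hf, by rw [e3, hTn2], ‖m‖ ^ 2, hm2pos,
    fun T' hT' => ?_⟩
  rw [e3] at hT'
  have hT'n : ‖T'‖ ≤ 1 := by
    have e : T' = T + (T' - T) := by ring
    rw [e]
    exact (IsUltrametricDist.norm_add_le_max _ _).trans (max_le hTn (hT'.trans hm2).le)
  have hε' : ‖T' ^ 2 - 4‖ = ‖m‖ ^ 2 := by
    have e : T' ^ 2 - 4 = (T ^ 2 - 4) + (T' - T) * (T' + T) := by ring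
    have h1 : ‖(T' - T) * (T' + T)‖ < ‖m‖ ^ 2 := by
      rw [norm_mul]
      calc ‖T' - T‖ * ‖T' + T‖ ≤ ‖T' - T‖ * 1 := mul_le_mul_of_nonneg_left
            ((IsUltrametricDist.norm_add_le_max _ _).trans (max_le hT'n hTn)) (norm_nonneg _)
        _ < ‖m‖ ^ 2 := by rw [mul_one]; exact hT'
    rw [e, norm_add_of_lt v (by rw [hεn]; exact h1), hεn]
  have hεE : Ev v (T' ^ 2 - 4) := ⟨m, hm0, hε'⟩
  by_cases hrE : Ev v r
  · obtain ⟨z, w, hzw⟩ := ev_nrm h2 hεE hrE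
    refine ⟨1, 0, z, w, ?_, ?_⟩
    · rw [zero_pow two_ne_zero, mul_zero, sub_zero, one_pow]
      exact one_ne_zero
    · rw [hzw]
      ring
  · obtain ⟨z, w, hzw⟩ := ev_nrm h2 hεE
      (ev_mul_of_not hr (neg_ne_zero.mpr ha0) hrE hna)
    refine ⟨0, 1, z, w, ?_, ?_⟩
    · rw [zero_pow two_ne_zero, one_pow, mul_one, zero_sub]
      exact neg_ne_zero.mpr ha0
    · rw [hzw]
      ring

/-- Even valuation: a trace close to two. -/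
theorem near_even {δ b r m : v.comp} (hr : r ≠ 0) (hδ0 : δ ≠ 0) (hb : b ≠ 0) (hm0 : m ≠ 0)
    (hm1 : ‖m‖ < 1) (hδm : ‖δ‖ < ‖algebraMap F v.comp (unif v)‖ * ‖m‖ ^ 2)
    (h : ¬ ∃ x y : v.comp, x ^ 2 - δ * (δ + 4) / 4 * y ^ 2 = b)
    (ha : Ev v (δ * (δ + 4) / 4)) :
    ∃ s f1 f2 : v.comp, s ^ 2 * (δ * (δ + 4) / 4) +
      b * (f1 ^ 2 - δ * (δ + 4) / 4 * f2 ^ 2) = δ ∧ ‖s * (δ + 4) / 2 - 2‖ ≤ ‖m‖ ^ 2 ∧
      ∃ η : ℝ, 0 < η ∧ ∀ T : v.comp,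
        ‖T - s * (δ + 4) / 2‖ < η → ∃ x y z w : v.comp, x ^ 2 - δ * (δ + 4) / 4 * y ^ 2 ≠ 0 ∧
          r * (x ^ 2 - δ * (δ + 4) / 4 * y ^ 2) = z ^ 2 - (T ^ 2 - 4) * w ^ 2 := by
  have h2' := two_ne' h2 (v := v)
  have h4' := four_ne' h2 (v := v)
  have n4 := norm_four h2 (v := v)
  obtain ⟨p, hp⟩ : ∃ p : v.comp, p = algebraMap F v.comp (unif v) := ⟨_, rfl⟩
  rw [← hp] at hδm
  have hppos : 0 < ‖p‖ := by rw [hp]; exact unif_pos v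
  have hplt : ‖p‖ < 1 := by rw [hp]; exact unif_lt v
  have hmpos : 0 < ‖m‖ := norm_pos_iff.mpr hm0
  have hm2pos : 0 < ‖m‖ ^ 2 := pow_pos hmpos 2
  have hm2 : ‖m‖ ^ 2 < 1 := pow_lt_one₀ hmpos.le hm1 two_ne_zero
  obtain ⟨π, hπ⟩ : ∃ π : v.comp, π = p * m ^ 2 := ⟨_, rfl⟩
  have hπn : ‖π‖ = ‖p‖ * ‖m‖ ^ 2 := by rw [hπ, norm_mul, norm_pow]
  have hπpos : 0 < ‖π‖ := by rw [hπn]; exact mul_pos hppos hm2pos
  have hπm : ‖π‖ ≤ ‖m‖ ^ 2 := by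
    rw [hπn]
    exact mul_le_of_le_one_left hm2pos.le hplt.le
  have hπlt : ‖π‖ < 1 := hπm.trans_lt hm2
  have hδπ : ‖δ‖ < ‖π‖ := by rw [hπn]; exact hδm
  have hδ : ‖δ‖ < 1 := hδπ.trans hπlt
  have hδ4n : ‖δ + 4‖ = 1 := by
    rw [add_comm, norm_add_of_lt v (by rw [n4]; exact hδ), n4]
  have hδ4 : δ + 4 ≠ 0 := norm_ne_zero_iff.mp (by rw [hδ4n]; exact one_ne_zero)
  obtain ⟨a, ha'⟩ : ∃ a : v.comp, a = δ * (δ + 4) / 4 := ⟨_, rfl⟩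
  have ha0 : a ≠ 0 := by
    rw [ha']
    exact div_ne_zero (mul_ne_zero hδ0 hδ4) h4'
  have hδa : δ = 4 * a / (δ + 4) := by
    rw [ha']
    field_simp
  rw [← ha'] at h ha ⊢
  have hbE : ¬ Ev v b := fun hbE => h (ev_nrm h2 ha hbE)
  have hπE : ∀ x : v.comp, ‖x‖ = ‖π‖ → ¬ Ev v x := by
    rintro x hx ⟨c, hc, h1⟩
    refine not_ev_unif (v := v) ⟨c / m, div_ne_zero hc hm0, ?_⟩
    rw [norm_div, div_pow, ← h1, hx, hπn, ← hp, mul_div_cancel_right₀ _ hm2pos.ne']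
  obtain ⟨T, hTd⟩ : ∃ T : v.comp, T = 2 + π := ⟨_, rfl⟩
  have hPn : ‖δ + 4 - T ^ 2‖ = ‖π‖ := by
    have e : δ + 4 - T ^ 2 = -(4 * π) + (δ - π ^ 2) := by
      rw [hTd]
      ring
    have h1 : ‖-(4 * π)‖ = ‖π‖ := by rw [norm_neg, norm_mul, n4, one_mul]
    have h3 : ‖δ - π ^ 2‖ < ‖π‖ := by
      rw [sub_eq_add_neg]
      refine (IsUltrametricDist.norm_add_le_max _ _).trans_lt (max_lt hδπ ?_)
      rw [norm_neg, norm_pow]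
      nlinarith
    rw [e, norm_add_of_lt v (by rw [h1]; exact h3), h1]
  have hP0 : δ + 4 - T ^ 2 ≠ 0 := norm_pos_iff.mp (by rw [hPn]; exact hπpos)
  have hPE : ¬ Ev v (δ + 4 - T ^ 2) := hπE _ hPn
  have hq : Ev v (4 * a / (δ + 4) ^ 2 * ((δ + 4 - T ^ 2) / b)) := by
    refine (((ev_of_norm n4).mul ha).div (ev_sq hδ4)).mul ?_
    exact ev_div_of_not hP0 hb hPE hbE
  obtain ⟨f1, f2, hf⟩ := ev_nrm h2 ha hq
  have e3 : 2 * T / (δ + 4) * (δ + 4) / 2 = T := by field_simp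
  refine ⟨2 * T / (δ + 4), f1, f2, ?_, ?_, ‖π‖, hπpos, fun T' hT' => ?_⟩
  · rw [hf]
    have h3 : (2 * T / (δ + 4)) ^ 2 * a + b * (4 * a / (δ + 4) ^ 2 * ((δ + 4 - T ^ 2) / b)) =
        4 * a / (δ + 4) := by
      field_simp
      ring
    rw [h3]
    exact hδa.symm
  · rw [e3, hTd, add_sub_cancel_left]
    exact hπm
  rw [e3] at hT'
  have hm2' : ‖T' - 2‖ = ‖π‖ := by
    have e : T' - 2 = π + (T' - T) := by
      rw [hTd]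
      ring
    rw [e]
    exact norm_add_of_lt v hT'
  have hp2 : ‖T' + 2‖ = 1 := by
    have e : T' + 2 = 4 + (T' - 2) := by ring
    rw [e, norm_add_of_lt v (by rw [n4, hm2']; exact hπlt), n4]
  have hε' : ‖T' ^ 2 - 4‖ = ‖π‖ := by
    have e : T' ^ 2 - 4 = (T' - 2) * (T' + 2) := by ring
    rw [e, norm_mul, hm2', hp2, mul_one]
  have hε0 : T' ^ 2 - 4 ≠ 0 := norm_pos_iff.mp (by rw [hε']; exact hπpos)
  by_cases hrE : Ev v r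
  · obtain ⟨x, y, hxy⟩ := ev_nrm h2 ha (hrE.div (ev_sq hr))
    refine ⟨x, y, 1, 0, ?_, ?_⟩
    · rw [hxy]
      exact div_ne_zero hr (pow_ne_zero 2 hr)
    · rw [hxy]
      field_simp
      ring
  · obtain ⟨x, y, hxy⟩ := ev_nrm h2 ha (ev_div_of_not (neg_ne_zero.mpr hε0) hr
      (hπE _ (by rw [norm_neg, hε'])) hrE)
    refine ⟨x, y, 0, 1, ?_, ?_⟩
    · rw [hxy]
      exact div_ne_zero (neg_ne_zero.mpr hε0) hr
    · rw [hxy]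
      field_simp
      ring

end loc

section final

variable {F : Type} [Field F] [GFF F] (h2 : (2 : F) ≠ 0) (v : Place F)

include h2

/-- **The choice of the local trace close to two**, at a place where `b` is not a norm. -/
theorem loc_T_near {ρ₀ : ℝ} (hρ₀ : 0 < ρ₀) : ∃ ρ₁ : ℝ, 0 < ρ₁ ∧ ρ₁ < 1 ∧
    ∀ {δ b r : F}, δ ≠ 0 → b ≠ 0 → r ≠ 0 → v.abv δ < ρ₁ →
    (¬ ∃ x y : v.comp,
      x ^ 2 - algebraMap F v.comp (δ * (δ + 4) / 4) * y ^ 2 = algebraMap F v.comp b) →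
    ∃ s f1 f2 : v.comp, s ^ 2 * algebraMap F v.comp (δ * (δ + 4) / 4) +
      algebraMap F v.comp b * (f1 ^ 2 - algebraMap F v.comp (δ * (δ + 4) / 4) * f2 ^ 2) =
        algebraMap F v.comp δ ∧
      ‖s * (algebraMap F v.comp δ + 4) / 2 - 2‖ < ρ₀ ∧
      ∃ η : ℝ, 0 < η ∧ ∀ T : v.comp, ‖T - s * (algebraMap F v.comp δ + 4) / 2‖ < η →
        ∃ x y z w : v.comp, x ^ 2 - algebraMap F v.comp (δ * (δ + 4) / 4) * y ^ 2 ≠ 0 ∧
          algebraMap F v.comp r * (x ^ 2 - algebraMap F v.comp (δ * (δ + 4) / 4) * y ^ 2) =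
            z ^ 2 - (T ^ 2 - 4) * w ^ 2 := by
  obtain ⟨n, hn⟩ := exists_pow_lt_of_lt_one hρ₀ (unif_lt v)
  obtain ⟨m, hm⟩ : ∃ m : v.comp, m = algebraMap F v.comp (unif v) ^ (n + 1) := ⟨_, rfl⟩
  have hu0 : algebraMap F v.comp (unif v) ≠ 0 := norm_pos_iff.mp (unif_pos v)
  have hm0 : m ≠ 0 := by
    rw [hm]
    exact pow_ne_zero _ hu0
  have hm1 : ‖m‖ < 1 := by
    rw [hm, norm_pow]
    exact pow_lt_one₀ (norm_nonneg _) (unif_lt v) (Nat.succ_ne_zero n)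
  have hmpos : 0 < ‖m‖ := norm_pos_iff.mpr hm0
  have hmρ : ‖m‖ ^ 2 < ρ₀ := by
    have h1 : ‖m‖ ^ 2 ≤ ‖m‖ := by
      rw [pow_two]
      exact mul_le_of_le_one_left hmpos.le hm1.le
    have h3 : ‖m‖ ≤ ‖algebraMap F v.comp (unif v)‖ ^ n := by
      rw [hm, norm_pow]
      exact pow_le_pow_of_le_one (norm_nonneg _) (unif_lt v).le (Nat.le_succ n)
    exact (h1.trans h3).trans_lt hn
  have hm2pos : 0 < ‖m‖ ^ 2 := pow_pos hmpos 2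
  have hm2 : ‖m‖ ^ 2 < 1 := pow_lt_one₀ hmpos.le hm1 two_ne_zero
  have hlt : ‖algebraMap F v.comp (unif v)‖ * ‖m‖ ^ 2 < ‖m‖ ^ 2 :=
    mul_lt_of_lt_one_left hm2pos (unif_lt v)
  refine ⟨‖algebraMap F v.comp (unif v)‖ * ‖m‖ ^ 2, mul_pos (unif_pos v) hm2pos,
    hlt.trans hm2, ?_⟩
  intro δ b r hδ hb hr hδρ h
  have hr' : algebraMap F v.comp r ≠ 0 := (_root_.map_ne_zero _).mpr hr
  have hb' : algebraMap F v.comp b ≠ 0 := (_root_.map_ne_zero _).mpr hb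
  have hδ' : algebraMap F v.comp δ ≠ 0 := (_root_.map_ne_zero _).mpr hδ
  rw [map_a (v := v)] at h ⊢
  have hδn : ‖algebraMap F v.comp δ‖ < ‖algebraMap F v.comp (unif v)‖ * ‖m‖ ^ 2 := by
    rw [norm_alg]
    exact hδρ
  by_cases ha : Ev v (algebraMap F v.comp δ * (algebraMap F v.comp δ + 4) / 4)
  · obtain ⟨s, f1, f2, g1, g2, g3⟩ := near_even h2 hr' hδ' hb' hm0 hm1 hδn h ha
    exact ⟨s, f1, f2, g1, g2.trans_lt hmρ, g3⟩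
  · obtain ⟨s, f1, f2, g1, g2, g3⟩ := near_odd h2 hr' hδ' hb' hm0 hm1 (hδn.trans hlt) h ha
    exact ⟨s, f1, f2, g1, g2.trans_lt hmρ, g3⟩

end final

end Vale.Agent.P011.H974.R6
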