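import Vale.Agent.P011.H167.CnB

/-!
# The reduced norm of the component of a unitary element in the centralizer of a square root

The complementary minor of the inverse.
-/

open Module

set_option linter.unusedSectionVars false

namespace Vale.Agent.P011.H974.Jac

open Vale.Agent.P011.H305
open Vale.Agent.P011.H63.FB (incF)
open Vale.Agent.P011.H872.FF (XaF IsCentF om kk star_kk star_om om_sq two_neK)
open Vale.Agent.P011.W (HasNrd hasNrd_iff)
open Vale.Agent.P011.H505.Wang (hasNrd_of_det)

section idem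

variable {Ω : Type} [Field Ω] {n r : ℕ}

/-- The factorization of an idempotent matrix. -/
theorem idem_factor (e : Matrix (Fin n) (Fin n) Ω) (he : e * e = e) (hr : e.rank = r) :
    ∃ (P : Matrix (Fin n) (Fin r) Ω) (P' : Matrix (Fin r) (Fin n) Ω), P' * P = 1 ∧ P * P' = e := by
  obtain ⟨W, hW⟩ : ∃ W, W = LinearMap.range e.mulVecLin := ⟨_, rfl⟩
  subst hW
  let b : Basis (Fin r) Ω (LinearMap.range e.mulVecLin) := Module.finBasisOfFinrankEq _ _ hr
  refine ⟨LinearMap.toMatrix' ((LinearMap.range e.mulVecLin).subtype ∘ₗ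
    (b.equivFun.symm : (Fin r → Ω) →ₗ[Ω] _)),
    LinearMap.toMatrix' ((b.equivFun : _ →ₗ[Ω] (Fin r → Ω)) ∘ₗ e.mulVecLin.rangeRestrict), ?_, ?_⟩
  · rw [← LinearMap.toMatrix'_comp, ← LinearMap.toMatrix'_id]
    congr 1
    refine LinearMap.ext fun x => ?_
    obtain ⟨y, hy⟩ := (b.equivFun.symm x).2
    have h1 : e.mulVecLin.rangeRestrict ((b.equivFun.symm x : _) : Fin n → Ω) =
        b.equivFun.symm x := by
      apply Subtype.ext
      rw [LinearMap.codRestrict_apply, ← hy, Matrix.mulVecLin_apply, Matrix.mulVecLin_apply,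
        Matrix.mulVec_mulVec, he]
    change b.equivFun (e.mulVecLin.rangeRestrict ((b.equivFun.symm x : _) : Fin n → Ω)) = x
    rw [h1, LinearEquiv.apply_symm_apply]
  · rw [← LinearMap.toMatrix'_comp]
    have h1 : ((LinearMap.range e.mulVecLin).subtype ∘ₗ
        (b.equivFun.symm : (Fin r → Ω) →ₗ[Ω] _)) ∘ₗ
        ((b.equivFun : _ →ₗ[Ω] (Fin r → Ω)) ∘ₗ e.mulVecLin.rangeRestrict) = e.mulVecLin := by
      refine LinearMap.ext fun x => ?_
      change ((b.equivFun.symm (b.equivFun (e.mulVecLin.rangeRestrict x)) :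
        LinearMap.range e.mulVecLin) : Fin n → Ω) = _
      rw [LinearEquiv.symm_apply_apply]
      rfl
    rw [h1, ← Matrix.toLin'_apply', LinearMap.toMatrix'_toLin']

/-- The ranks of complementary idempotents. -/
theorem rank_idem (e : Matrix (Fin n) (Fin n) Ω) (he : e * e = e) :
    e.rank + (1 - e).rank = n := by
  have h1 := LinearMap.finrank_range_add_finrank_ker e.mulVecLin
  have h2 : LinearMap.ker e.mulVecLin = LinearMap.range (1 - e).mulVecLin := by
    ext x
    rw [LinearMap.mem_ker, LinearMap.mem_range]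
    constructor
    · intro h
      refine ⟨x, ?_⟩
      rw [Matrix.mulVecLin_apply, Matrix.sub_mulVec, Matrix.one_mulVec]
      rw [Matrix.mulVecLin_apply] at h
      rw [h, sub_zero]
    · rintro ⟨y, rfl⟩
      rw [Matrix.mulVecLin_apply, Matrix.mulVecLin_apply, Matrix.mulVec_mulVec, mul_sub, mul_one,
        he, sub_self, Matrix.zero_mulVec]
  rw [h2] at h1
  rw [Module.finrank_fin_fun] at h1
  exact h1

/-- The determinant depends only on the corner. -/
theorem det_corner (e X Y : Matrix (Fin n) (Fin n) Ω) (he : e * e = e)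
    (h : e * X * e = e * Y) :
    (e * X + (1 - e)).det = (e * Y + (1 - e)).det := by
  have h0 : (1 - e) * e = 0 := by rw [sub_mul, one_mul, he, sub_self]
  have h00 : e * (1 - e) = 0 := by rw [mul_sub, mul_one, he, sub_self]
  have h1 : (1 + e * X * (1 - e)) * (e * Y + (1 - e)) = e * X + (1 - e) := by
    have h2 : e * X * (1 - e) * (e * Y) = 0 := by
      rw [mul_assoc, ← mul_assoc (1 - e), h0, zero_mul, mul_zero]
    have h3 : (1 - e) * (1 - e) = 1 - e := by rw [mul_sub, mul_one, h0, sub_zero]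
    have h4 : e * X * (1 - e) * (1 - e) = e * X * (1 - e) := by rw [mul_assoc, h3]
    rw [add_mul, one_mul, mul_add, h2, h4, zero_add, mul_sub, mul_one, h]
    abel
  rw [← h1, Matrix.det_mul, mul_assoc, Matrix.det_one_add_mul_comm]
  have h5 : X * (1 - e) * e = 0 := by rw [mul_assoc, h0, mul_zero]
  rw [h5, add_zero, Matrix.det_one, one_mul]

end idem

section letters

variable {k K D L K' C : Type} [Field k] [Field K] [StarRing K]
    [DivisionRing D] [StarRing D] [Algebra k K] [Algebra k D] [Algebra K D] [IsScalarTower k K D]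
    [Field L] [Algebra k L] [Field K'] [StarRing K']
    [Algebra K K'] [DivisionRing C] [StarRing C] [Algebra L K'] [Algebra L C] [Algebra K' C]
    [IsScalarTower L K' C] {d : kˣ} {s : K} {t : D} {a : kˣ} {T : L} {j : C →+* D}

theorem sqT' (h : IsCentF k K D L K' C t a T j) :
    algebraMap L K' T * algebraMap L K' T = algebraMap K K' (algebraMap k K a) := by
  rw [← map_mul, h.sqT, h.comp]

/-- The square root is not in `K`. -/
theorem T_not_mem (h : IsCentF k K D L K' C t a T j) (c : K) :
    algebraMap K K' c ≠ algebraMap L K' T := by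
  intro hc
  have h1 : Function.Surjective (algebraMap K K') := by
    intro z
    obtain ⟨u, v, rfl⟩ := h.repK z
    exact ⟨u + v * c, by rw [map_add, map_mul, hc]⟩
  have h2 : finrank K K' = 1 := by
    have h3 : Function.Bijective (algebraMap K K') := ⟨(algebraMap K K').injective, h1⟩
    let E : K ≃ₗ[K] K' := LinearEquiv.ofBijective (Algebra.linearMap K K') h3
    rw [← E.finrank_eq, finrank_self]
  rw [h.rkK] at h2
  omega

theorem rep_unique (h : IsCentF k K D L K' C t a T j) {u v u' v' : K}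
    (he : algebraMap K K' u + algebraMap K K' v * algebraMap L K' T =
      algebraMap K K' u' + algebraMap K K' v' * algebraMap L K' T) : u = u' ∧ v = v' := by
  have h1 : v = v' := by
    by_contra hne
    have h2 : algebraMap K K' (v - v') ≠ 0 := (_root_.map_ne_zero _).mpr (sub_ne_zero.mpr hne)
    refine T_not_mem h ((u' - u) / (v - v')) ?_
    rw [map_div₀, div_eq_iff h2, map_sub, map_sub]
    linear_combination -he
  refine ⟨?_, h1⟩
  rw [h1] at he
  exact (algebraMap K K').injective (add_right_cancel he)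

/-- The conjugation of `K'` over `K`. -/
theorem exists_tau (h : IsCentF k K D L K' C t a T j) :
    ∃ τ : K' →+* K', (∀ c : K, τ (algebraMap K K' c) = algebraMap K K' c) ∧
      τ (algebraMap L K' T) = -algebraMap L K' T := by
  choose U V hUV using h.repK
  have hu : ∀ u v : K, U (algebraMap K K' u + algebraMap K K' v * algebraMap L K' T) = u ∧
      V (algebraMap K K' u + algebraMap K K' v * algebraMap L K' T) = v := fun u v =>
    rep_unique h (hUV _).symm
  have hc : ∀ c : K, U (algebraMap K K' c) = c ∧ V (algebraMap K K' c) = 0 := by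
    intro c
    have h1 := hu c 0
    rwa [map_zero, zero_mul, add_zero] at h1
  have hT : U (algebraMap L K' T) = 0 ∧ V (algebraMap L K' T) = 1 := by
    have h1 := hu 0 1
    rwa [map_zero, map_one, zero_add, one_mul] at h1
  have hTT := sqT' h
  let τ : K' →+* K' :=
    { toFun := fun z => algebraMap K K' (U z) - algebraMap K K' (V z) * algebraMap L K' T
      map_one' := by
        have h1 := hc 1
        rw [map_one] at h1
        rw [h1.1, h1.2, map_one, map_zero, zero_mul, sub_zero]
      map_zero' := by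
        have h1 := hc 0
        rw [map_zero] at h1
        rw [h1.1, h1.2, map_zero, zero_mul, sub_zero]
      map_add' := by
        intro z w
        have h1 := hu (U z + U w) (V z + V w)
        rw [show algebraMap K K' (U z + U w) + algebraMap K K' (V z + V w) * algebraMap L K' T =
          z + w by
            conv_rhs => rw [hUV z, hUV w]
            rw [map_add, map_add]
            ring] at h1
        rw [h1.1, h1.2, map_add, map_add]
        ring
      map_mul' := by
        intro z w
        have h1 := hu (U z * U w + V z * V w * algebraMap k K a) (U z * V w + V z * U w)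
        rw [show algebraMap K K' (U z * U w + V z * V w * algebraMap k K a) +
            algebraMap K K' (U z * V w + V z * U w) * algebraMap L K' T = z * w by
            conv_rhs => rw [hUV z, hUV w]
            simp only [map_add, map_mul]
            rw [← hTT]
            ring] at h1
        rw [h1.1, h1.2]
        simp only [map_add, map_mul]
        rw [← hTT]
        ring }
  refine ⟨τ, fun c => ?_, ?_⟩
  · change algebraMap K K' (U _) - algebraMap K K' (V _) * algebraMap L K' T = _
    rw [(hc c).1, (hc c).2, map_zero, zero_mul, sub_zero]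
  · change algebraMap K K' (U _) - algebraMap K K' (V _) * algebraMap L K' T = _
    rw [hT.1, hT.2, map_zero, map_one, one_mul, zero_sub]

/-- An element which anticommutes with `t`. -/
theorem exists_anti [Algebra.IsCentral K D] (h : IsCentF k K D L K' C t a T j) :
    ∃ w : D, w ≠ 0 ∧ w * t = -(t * w) := by
  have h1 : ∃ y : D, y * t ≠ t * y := by
    by_contra hcon
    push Not at hcon
    have h2 : t ∈ Subalgebra.center K D := by
      rw [Subalgebra.mem_center_iff]
      exact hcon
    rw [Algebra.IsCentral.center_eq_bot, Algebra.mem_bot] at h2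
    obtain ⟨c, hc⟩ := h2
    refine T_not_mem h c ?_
    apply (algebraMap K' C).injective
    apply h.inj
    rw [h.jK, hc, ← IsScalarTower.algebraMap_apply L K' C, h.jT]
  obtain ⟨y, hy⟩ := h1
  refine ⟨y * t - t * y, sub_ne_zero.mpr hy, ?_⟩
  have h2 := h.sq
  have h3 : y * (t * t) = (t * t) * y := by rw [h2]; exact (Algebra.commutes _ _).symm
  calc (y * t - t * y) * t = y * (t * t) - t * y * t := by noncomm_ring
    _ = (t * t) * y - t * y * t := by rw [h3]
    _ = -(t * (y * t - t * y)) := by noncomm_ring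

/-! ### The idempotent -/

variable {Ω : Type} [Field Ω] {n m : ℕ}

/-- The projection on the eigenspace of `Φ t` for the eigenvalue `σ T`. -/
def eT (σ : K' →+* Ω) (Φ : D →+* Matrix (Fin n) (Fin n) Ω) (t : D) (T : L) :
    Matrix (Fin n) (Fin n) Ω :=
  (2 : Ω)⁻¹ • (1 + (σ (algebraMap L K' T))⁻¹ • Φ t)

theorem two_neO (hS : SetF k K D d s) (σ : K' →+* Ω) : (2 : Ω) ≠ 0 := by
  have h2 : (2 : K) ≠ 0 := two_neK hS
  rw [← map_ofNat σ 2, ← map_ofNat (algebraMap K K') 2]
  exact (_root_.map_ne_zero _).mpr ((_root_.map_ne_zero _).mpr h2)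

theorem th_ne (h : IsCentF k K D L K' C t a T j) (σ : K' →+* Ω) :
    σ (algebraMap L K' T) ≠ 0 := by
  refine (_root_.map_ne_zero _).mpr fun h0 => ?_
  have h1 := sqT' h
  rw [h0, zero_mul] at h1
  exact (_root_.map_ne_zero _).mpr ((_root_.map_ne_zero _).mpr a.ne_zero) h1.symm

theorem Phi_sq (h : IsCentF k K D L K' C t a T j) {σ : K' →+* Ω}
    {Φ : D →+* Matrix (Fin n) (Fin n) Ω}
    (hΦ : ∀ c : K, Φ (algebraMap K D c) = Matrix.scalar (Fin n) (σ (algebraMap K K' c))) :
    Φ t * Φ t = (σ (algebraMap L K' T) * σ (algebraMap L K' T)) • 1 := by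
  rw [← map_mul, h.sq, IsScalarTower.algebraMap_apply k K D, hΦ, ← map_mul, sqT' h,
    Matrix.smul_one_eq_diagonal]
  rfl

variable {σ : K' →+* Ω} {Φ : D →+* Matrix (Fin n) (Fin n) Ω}

theorem Phi_eT (hS : SetF k K D d s) (h : IsCentF k K D L K' C t a T j)
    (hΦ : ∀ c : K, Φ (algebraMap K D c) = Matrix.scalar (Fin n) (σ (algebraMap K K' c))) :
    Φ t * eT σ Φ t T = σ (algebraMap L K' T) • eT σ Φ t T := by
  have h1 := Phi_sq h hΦ
  have h0 := th_ne h σ
  have h2 := two_neO hS σ
  rw [eT, mul_smul_comm, mul_add, mul_one, mul_smul_comm, h1]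
  match_scalars <;> field_simp

theorem eT_comm {z : D} (hz : z * t = t * z) : eT σ Φ t T * Φ z = Φ z * eT σ Φ t T := by
  rw [eT, mul_smul_comm, smul_mul_assoc, mul_add, add_mul, mul_one, one_mul, mul_smul_comm,
    smul_mul_assoc, ← map_mul, ← map_mul, hz]

theorem eT_anti (hS : SetF k K D d s) {w : D} (hw : w * t = -(t * w)) :
    Φ w * eT σ Φ t T = (1 - eT σ Φ t T) * Φ w := by
  have h2 := two_neO hS σ
  have h3 : Φ w * Φ t = -(Φ t * Φ w) := by rw [← map_mul, hw, map_neg, map_mul]
  have h4 : (1 : Matrix (Fin n) (Fin n) Ω) = (2 : Ω)⁻¹ • (1 + 1) := by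
    rw [← two_smul Ω (1 : Matrix (Fin n) (Fin n) Ω), smul_smul, inv_mul_cancel₀ h2, one_smul]
  have h5 : (1 - eT σ Φ t T) = (2 : Ω)⁻¹ • (1 - (σ (algebraMap L K' T))⁻¹ • Φ t) := by
    conv_lhs => rw [h4]
    rw [eT, ← smul_sub]
    congr 1
    abel
  rw [h5, eT, mul_smul_comm, smul_mul_assoc, mul_add, sub_mul, mul_one, one_mul, mul_smul_comm,
    smul_mul_assoc, h3, smul_neg, sub_eq_add_neg]

theorem eT_idem (hS : SetF k K D d s) (h : IsCentF k K D L K' C t a T j)
    (hΦ : ∀ c : K, Φ (algebraMap K D c) = Matrix.scalar (Fin n) (σ (algebraMap K K' c))) :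
    eT σ Φ t T * eT σ Φ t T = eT σ Φ t T := by
  have h2 := two_neO hS σ
  have h0 := th_ne h σ
  conv_lhs =>
    rw [eT]
  rw [smul_mul_assoc, add_mul, one_mul, smul_mul_assoc]
  change (2 : Ω)⁻¹ • (eT σ Φ t T + (σ (algebraMap L K' T))⁻¹ • (Φ t * eT σ Φ t T)) = _
  rw [Phi_eT hS h hΦ, smul_smul, inv_mul_cancel₀ h0, one_smul, ← two_smul Ω, smul_smul,
    inv_mul_cancel₀ h2, one_smul]

/-- The rank of the idempotent. -/
theorem eT_rank [Algebra.IsCentral K D] (hS : SetF k K D d s)
    (h : IsCentF k K D L K' C t a T j) (hn : n = 2 * m)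
    (hΦ : ∀ c : K, Φ (algebraMap K D c) = Matrix.scalar (Fin n) (σ (algebraMap K K' c))) :
    (eT σ Φ t T).rank = m := by
  obtain ⟨w, hw0, hw⟩ := exists_anti h
  have h1 := rank_idem _ (eT_idem hS h hΦ)
  have hu : IsUnit (Φ w) := (hw0.isUnit).map Φ
  have hu' : IsUnit (Φ w).det := (Matrix.isUnit_iff_isUnit_det _).mp hu
  have h2 := congrArg Matrix.rank (eT_anti (σ := σ) (Φ := Φ) (T := T) hS hw)
  rw [Matrix.rank_mul_eq_right_of_isUnit_det _ _ hu',
    Matrix.rank_mul_eq_left_of_isUnit_det _ _ hu'] at h2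
  omega

/-- The determinant of a corner on the centralizer is the reduced norm of the centralizer. -/
theorem nrd_det_cent [Algebra.IsCentral K D] (hS : SetF k K D d s)
    (h : IsCentF k K D L K' C t a T j) (hn : n = 2 * m)
    (hΦ : ∀ c : K, Φ (algebraMap K D c) = Matrix.scalar (Fin n) (σ (algebraMap K K' c)))
    {c : C} {ν : K'} (hν : HasNrd K' m c ν) :
    (eT σ Φ t T * Φ (j c) + (1 - eT σ Φ t T)).det = σ ν := by
  obtain ⟨e, he⟩ : ∃ e, e = eT σ Φ t T := ⟨_, rfl⟩
  have hee := eT_idem hS h hΦ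
  have hr := eT_rank hS h hn hΦ
  have hte := Phi_eT hS h hΦ
  have hce : ∀ x : C, e * Φ (j x) = Φ (j x) * e := fun x => by
    rw [he]
    exact eT_comm (h.comm x)
  rw [← he] at hee hr hte ⊢
  obtain ⟨P, P', h1, h2⟩ := idem_factor e hee hr
  have heP : e * P = P := by rw [← h2, Matrix.mul_assoc, h1, Matrix.mul_one]
  have hPe : P' * e = P' := by rw [← h2, ← Matrix.mul_assoc, h1, Matrix.one_mul]
  let g : C →+* Matrix (Fin m) (Fin m) Ω :=
    { toFun := fun x => P' * Φ (j x) * P
      map_one' := by rw [map_one, map_one, Matrix.mul_one, h1]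
      map_zero' := by rw [map_zero, map_zero, Matrix.mul_zero, Matrix.zero_mul]
      map_add' := fun x y => by rw [map_add, map_add, Matrix.mul_add, Matrix.add_mul]
      map_mul' := fun x y => by
        have h3 : P' * Φ (j x) * P * (P' * Φ (j y) * P) =
            P' * (Φ (j x) * e * Φ (j y)) * P := by
          rw [← h2]
          simp only [Matrix.mul_assoc]
        have h4 : P' * (Φ (j x) * e * Φ (j y)) = P' * (Φ (j x) * Φ (j y)) := by
          rw [← hce x, Matrix.mul_assoc e, ← Matrix.mul_assoc P', hPe]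
        rw [h3, map_mul, map_mul, h4] }
  have hg : ∀ z : K', g (algebraMap K' C z) = Matrix.scalar (Fin m) (σ z) := by
    intro z
    obtain ⟨u, v, rfl⟩ := h.repK z
    have h3 : ∀ w : K, g (algebraMap K' C (algebraMap K K' w)) =
        Matrix.scalar (Fin m) (σ (algebraMap K K' w)) := by
      intro w
      change P' * Φ (j _) * P = _
      rw [h.jK, hΦ]
      have h4 : P' * Matrix.scalar (Fin n) (σ (algebraMap K K' w)) =
          σ (algebraMap K K' w) • P' := by
        rw [Matrix.scalar_apply, ← Matrix.smul_one_eq_diagonal, Matrix.mul_smul, Matrix.mul_one]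
      rw [h4, Matrix.smul_mul, h1, Matrix.smul_one_eq_diagonal, Matrix.scalar_apply]
    have h5 : g (algebraMap K' C (algebraMap L K' T)) =
        Matrix.scalar (Fin m) (σ (algebraMap L K' T)) := by
      change P' * Φ (j _) * P = _
      rw [← IsScalarTower.algebraMap_apply L K' C, h.jT]
      have h4 : P' * Φ t * P = P' * (Φ t * e) * P := by
        rw [Matrix.mul_assoc, Matrix.mul_assoc, Matrix.mul_assoc, heP]
      rw [h4, hte, Matrix.mul_smul, hPe, Matrix.smul_mul, h1, Matrix.smul_one_eq_diagonal,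
        Matrix.scalar_apply]
    rw [map_add, map_mul, map_add g, map_mul g, h3, h3, h5, map_add σ, map_mul σ, map_add, map_mul]
  have h6 := (hasNrd_iff.mp hν) Ω σ g hg
  rw [← h6]
  change _ = (P' * Φ (j c) * P).det
  have h7 : e * Φ (j c) + (1 - e) = 1 + P * (P' * (Φ (j c) - 1)) := by
    rw [← Matrix.mul_assoc, h2, Matrix.mul_sub, Matrix.mul_one]
    abel
  rw [h7, Matrix.det_one_add_mul_comm]
  congr 1
  rw [Matrix.mul_sub, Matrix.mul_one, Matrix.sub_mul, h1]
  abel

/-- **The determinant of the corner** is the reduced norm of the component in the centralizer. -/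
theorem nrd_det [Algebra.IsCentral K D] (hS : SetF k K D d s)
    (h : IsCentF k K D L K' C t a T j) (hn : n = 2 * m)
    (hΦ : ∀ c : K, Φ (algebraMap K D c) = Matrix.scalar (Fin n) (σ (algebraMap K K' c)))
    {y : D} {c : C} (hc : 2 * j c * t = y * t + t * y) {ν : K'} (hν : HasNrd K' m c ν) :
    (eT σ Φ t T * Φ y + (1 - eT σ Φ t T)).det = σ ν := by
  rw [← nrd_det_cent hS h hn hΦ hν]
  refine det_corner _ _ _ (eT_idem hS h hΦ) ?_
  have h1 : (y - j c) * t = -(t * (y - j c)) := by
    have h2 := h.comm c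
    have h3 : 2 * j c * t = j c * t + t * j c := by rw [h2, two_mul, add_mul, h2]
    rw [h3] at hc
    rw [sub_mul, mul_sub, neg_sub, sub_eq_sub_iff_add_eq_add, add_comm (t * j c), ← hc]
  have h2 := eT_anti (σ := σ) (Φ := Φ) (T := T) hS h1
  have hee := eT_idem hS h hΦ
  have h3 : Φ y = Φ (j c) + Φ (y - j c) := by rw [← map_add, add_sub_cancel]
  rw [h3, mul_add, add_mul, mul_assoc (eT σ Φ t T) (Φ (y - j c)), h2, ← mul_assoc, mul_sub,
    mul_one, hee, sub_self, zero_mul, add_zero, eT_comm (h.comm c), mul_assoc, hee]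

/-- **Jacobi**: the reduced norm of the component in the centralizer of a unitary similitude. -/
theorem jac_pu [Infinite K] [FiniteDimensional K D] [Algebra.IsCentral K D]
    [FiniteDimensional K' C] [Algebra.IsCentral K' C] (hS : SetF k K D d s)
    (hSC : SetF L K' C (incF k L d) (algebraMap K K' s))
    (h : IsCentF k K D L K' C t a T j) (hts : star t = t) (hn : n = 2 * m)
    (hdeg : finrank K D = n ^ 2) (hC : finrank K' C = m ^ 2) {Ω₀ : Type} [Field Ω₀]
    [Algebra K Ω₀] (f : D →ₐ[K] Matrix (Fin n) (Fin n) Ω₀) {x : D} {ρ : k}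
    (hρ : ρ ≠ 0) (hx : x * star x = algebraMap k D ρ)
    (hdet : (f x).det = algebraMap K Ω₀ (algebraMap k K ρ) ^ m) {c : C}
    (hc : 2 * j c * t = x * t + t * x) :
    ∃ p u : k, HasNrd K' m c (kk k K K' p + kk k K K' u * om K' s T) := by
  obtain ⟨ν, hν, -⟩ := Vale.Agent.P011.H167.Cn.exists_nrd_cent hdeg hC (by rw [h.rkK, hn]) j h.jK c
  obtain ⟨τ, hτ, hτT⟩ := exists_tau h
  have h2' : (2 : K') ≠ 0 := two_neK hSC
  have hν' : HasNrd K' m (star c) (star ν) :=
    W.HasNrd.star (fun c => Vale.Agent.P011.H167.Cn.star_algK hSC c) hν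
  -- a splitting
  obtain ⟨g⟩ := Vale.Agent.P011S.exists_split (K := K) (D := D) hdeg (AlgebraicClosure K')
  obtain ⟨σ, hσ⟩ : ∃ σ, σ = algebraMap K' (AlgebraicClosure K') := ⟨_, rfl⟩
  obtain ⟨Φ, hΦe⟩ : ∃ Φ : D →+* Matrix (Fin n) (Fin n) (AlgebraicClosure K'),
    Φ = (g : D →+* _) := ⟨_, rfl⟩
  have hΦ : ∀ c : K, Φ (algebraMap K D c) = Matrix.scalar (Fin n)
      (σ (algebraMap K K' c)) := fun c => by
    rw [hΦe, hσ]
    change g _ = _
    rw [g.commutes, ← IsScalarTower.algebraMap_apply]
    rfl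
  have hΦ' : ∀ c : K, Φ (algebraMap K D c) = Matrix.scalar (Fin n)
      ((σ.comp τ) (algebraMap K K' c)) := fun c => by
    rw [RingHom.comp_apply, hτ, hΦ]
  have he' : eT (σ.comp τ) Φ t T = 1 - eT σ Φ t T := by
    have h2 := two_neO hS σ
    have h4 : (1 : Matrix (Fin n) (Fin n) (AlgebraicClosure K')) =
        (2 : AlgebraicClosure K')⁻¹ • (1 + 1) := by
      rw [← two_smul (AlgebraicClosure K') (1 : Matrix (Fin n) (Fin n) (AlgebraicClosure K')),
        smul_smul, inv_mul_cancel₀ h2, one_smul]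
    conv_rhs => rw [h4]
    rw [eT, eT, ← smul_sub, RingHom.comp_apply, hτT, map_neg, inv_neg, neg_smul]
    congr 1
    abel
  have hX : (Φ x).det = σ (kk k K K' ρ) ^ m := by
    have h1 := (hasNrd_iff.mp (hasNrd_of_det hdeg f (t := x) (y := algebraMap k K ρ ^ m)
      (by rw [hdet, map_pow]))) (AlgebraicClosure K') (σ.comp (algebraMap K K')) Φ hΦ
    rw [h1, RingHom.comp_apply, map_pow, map_pow]
    rfl
  have hA := nrd_det hS h hn hΦ hc hν
  have hct := h.comm c
  have hc' : 2 * j (star c) * t = star x * t + t * star x := by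
    have h1 := congrArg star hc
    rw [star_mul, star_mul, star_add, star_mul, star_mul, hts, star_ofNat, ← h.star] at h1
    have h3 := h.comm (star c)
    calc 2 * j (star c) * t = j (star c) * t + j (star c) * t := by rw [two_mul, add_mul]
      _ = t * j (star c) + t * j (star c) := by rw [h3]
      _ = t * (j (star c) * 2) := by rw [mul_two, mul_add]
      _ = _ := by rw [h1, add_comm]
  have hB := nrd_det hS h hn hΦ' hc' hν'
  have hR := nrd_det_cent hS h hn hΦ' (HasNrd.algMap (F := K') (D := C) (d := m) (kk k K K' ρ))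
  rw [he'] at hB hR
  have hee := eT_idem hS h hΦ
  obtain ⟨e, he⟩ : ∃ e, e = eT σ Φ t T := ⟨_, rfl⟩
  rw [← he] at hA hB hR hee
  have hjr : j (algebraMap K' C (kk k K K' ρ)) = algebraMap k D ρ := by
    change j (algebraMap K' C (algebraMap K K' (algebraMap k K ρ))) = _
    rw [h.jK, ← IsScalarTower.algebraMap_apply]
  rw [hjr] at hR
  have hx' : star x * x = algebraMap k D ρ := by
    have hρD : algebraMap k D ρ ≠ 0 := (_root_.map_ne_zero _).mpr hρ
    have hx0 : x ≠ 0 := by
      rintro rfl
      rw [zero_mul] at hx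
      exact hρD hx.symm
    have h1 : x * (star x * x) = x * algebraMap k D ρ := by
      rw [← mul_assoc, hx]
      exact Algebra.commutes _ _
    exact mul_left_cancel₀ hx0 h1
  obtain ⟨R, hRe⟩ : ∃ R, R = Φ (algebraMap k D ρ) := ⟨_, rfl⟩
  rw [← hRe] at hR
  have hYX : Φ (star x) * Φ x = R := by rw [← map_mul, hx', hRe]
  have hRc : ∀ Z : Matrix (Fin n) (Fin n) (AlgebraicClosure K'), R * Z = Z * R := by
    intro Z
    rw [hRe, IsScalarTower.algebraMap_apply k K D, hΦ]
    exact (Matrix.scalar_commute _ (fun r => Commute.all _ _) _)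
  have h0 : (1 - e) * e = 0 := by rw [sub_mul, one_mul, hee, sub_self]
  have h00 : e * (1 - e) = 0 := by rw [mul_sub, mul_one, hee, sub_self]
  have h11 : (1 - e) * (1 - e) = 1 - e := by rw [mul_sub, mul_one, h0, sub_zero]
  have i1 : ((1 - e) * Φ (star x) + (1 - (1 - e))) * Φ x = (1 - e) * R + e * Φ x := by
    rw [add_mul, mul_assoc, hYX, sub_sub_cancel]
  have i2 : ((1 - e) * R + (1 - (1 - e))) * (e * Φ x + (1 - e)) = (1 - e) * R + e * Φ x := by
    rw [sub_sub_cancel, add_mul, mul_add, mul_add, h00, add_zero, ← mul_assoc e e, hee,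
      mul_assoc (1 - e) R (e * Φ x), hRc, ← mul_assoc (1 - e), ← mul_assoc (1 - e), h0, zero_mul,
      zero_mul, zero_add, mul_assoc (1 - e) R (1 - e), hRc, ← mul_assoc, h11]
  have i3 := congrArg Matrix.det (i1.trans i2.symm)
  rw [Matrix.det_mul, Matrix.det_mul, hB, hR, hX, hA, RingHom.comp_apply, RingHom.comp_apply,
    map_pow, map_pow] at i3
  have hkρ : τ (kk k K K' ρ) = kk k K K' ρ := hτ _
  rw [hkρ, mul_comm] at i3
  have hρσ : σ (kk k K K' ρ) ^ m ≠ 0 :=
    pow_ne_zero _ ((_root_.map_ne_zero _).mpr ((_root_.map_ne_zero _).mpr hρ))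
  have i4 : τ (star ν) = ν := σ.injective (mul_left_cancel₀ hρσ i3)
  -- coordinates
  obtain ⟨x₀, y₀, hxy⟩ := h.repK ν
  have hsT : star (algebraMap L K' T) = algebraMap L K' T := (hSC.fix _).mpr ⟨T, rfl⟩
  have hsK : ∀ c : K, star (algebraMap K K' c) = algebraMap K K' (star c) := by
    intro c
    obtain ⟨p, q, rfl⟩ := Vale.Agent.P011.H167.Cn.span_F hS c
    have h1 : ∀ r : k, star (algebraMap K K' (algebraMap k K r)) =
        algebraMap K K' (algebraMap k K r) := star_kk hSC h
    rw [map_add, map_mul, star_add, star_mul, h1, h1, hSC.star_s, star_add, star_mul, hS.star_s,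
      hS.star_algebraMap, hS.star_algebraMap, map_add, map_mul, map_neg]
  have i5 : algebraMap K K' (star x₀) + algebraMap K K' (-star y₀) * algebraMap L K' T =
      algebraMap K K' x₀ + algebraMap K K' y₀ * algebraMap L K' T := by
    rw [← hxy]
    conv_rhs => rw [← i4, hxy]
    rw [star_add, star_mul, hsT, hsK, hsK, map_add, map_mul, hτ, hτ, hτT, map_neg]
    ring
  obtain ⟨i6, i7⟩ := rep_unique h i5
  obtain ⟨p, hp⟩ := (hS.fix _).mp i6
  obtain ⟨r, u, hu⟩ := Vale.Agent.P011.H167.Cn.span_F hS y₀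
  have hr : r = 0 := by
    rw [hu, star_add, star_mul, hS.star_s, hS.star_algebraMap, hS.star_algebraMap] at i7
    have h2K : (2 : K) ≠ 0 := two_neK hS
    have h1 : 2 * algebraMap k K r = 0 := by linear_combination -i7
    exact (_root_.map_eq_zero _).mp ((mul_eq_zero.mp h1).resolve_left h2K)
  refine ⟨p, u, ?_⟩
  have hν2 : ν = kk k K K' p + kk k K K' u * om K' s T := by
    rw [hxy, ← hp, hu, hr, map_zero, zero_add, map_mul, om, kk, RingHom.comp_apply,
      RingHom.comp_apply]
    ring
  rw [← hν2]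
  exact hν

end letters

end Vale.Agent.P011.H974.Jac
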