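import Vale.Agent.P011.H974.AbPF
import Vale.Agent.P011.H511.AbAll
import Vale.Agent.P011.H872.GF.GoodE
import Vale.Agent.P011.H872.FF.MPThree

/-!
Function fields of characteristic not two: the solvable step in every even degree, from the odd
degrees.
-/

open Module Polynomial

set_option linter.unusedSectionVars false

namespace Vale.Agent.P011.H974.R8

open Vale.Agent.P011.H305 Vale.Agent.P011.H738 Vale.Agent.P011.H271 Vale.Agent.P011.H271.S3
open Vale.Agent.P011.H872.FF
open Vale.Agent.P011.H732D (AbAtF ImF)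
open Vale.Agent.P011.H511.Ab (GoodE exists_y exTF)

/-- Good skew elements exist. -/
theorem goodE {m : ℕ} (hm : 0 < m) : GoodE m := by
  intro k K D _ _ _ _ _ _ _ _ _ _ d s a t hS hdeg ht ha had
  exact H872.GF.exists_goodE hS hm hdeg ht ha had

/-- **The elements of the centralizers**, from the elements of reduced norm one. -/
theorem abF_cpf {m : ℕ} (hm : 0 < m) (hC : CPF m) : AbF m := by
  intro k K D _ _ _ _ _ _ _ _ _ _ d s hS hdeg a t ht ha had Ω _ _ f N B Q hQn hi T0 ε0 hε0 hQ
  classical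
  obtain ⟨L, _, _, _, K', _, _, _, _, C, _, _, _, _, _, _, T, jC, hSC, hdC, h⟩ :=
    H167.Cn.exists_isCentF hS ha had (m := m) hdeg ht
  have i5 : StarModule K' C := hSC.starModule
  have hd : ∀ x ∈ ImF Q, ∀ y ∈ ImF Q, x * y⁻¹ ∈ ImF Q := H872.FF.imF_div Q
  have h1Q : (1 : D) ∈ ImF Q := ⟨1, Q.one_mem, rfl⟩
  have hQi : ∀ x ∈ ImF Q, x⁻¹ ∈ ImF Q := fun x hx => by
    have := hd 1 h1Q x hx
    rwa [one_mul] at this
  have hQm : ∀ x ∈ ImF Q, ∀ y ∈ ImF Q, x * y ∈ ImF Q := fun x hx y hy => by
    have := hd x hx _ (hQi y hy)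
    rwa [inv_inv] at this
  exact abAt_of_pfF hS hdeg hSC hdC h f B Q
    (hC k K D d s hS hdeg L K' C hSC hdC t a T jC h Ω f N B Q hQn hi T0 ε0 hε0 hQ)
    fun ε hε S0 =>
      exists_y (goodE hm) hS hdeg hSC h hdC ht ha had B h1Q hQm hQi hε0 hQ hε S0

/-- **Degree four of the algebra**: the elements of the centralizers. -/
theorem abF_two : AbF 2 := abF_cpf (by norm_num) cpf_two

/-- **The elements of the centralizers in every degree**, from the odd degrees. -/
theorem abF_of_odd (hodd : ∀ n, 3 ≤ n → Odd n → SolvF n) : ∀ m, 2 ≤ m → AbF m :=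
  abF_all hodd (fun _ hm => exTF (by omega)) fun _ hm hC => abF_cpf (by omega) hC

/-- **The solvable step in every degree** over global function fields of characteristic not two,
from the odd degrees. -/
theorem solvF_of_odd (hodd : ∀ n, 3 ≤ n → Odd n → SolvF n) {n : ℕ} (hn : 3 ≤ n) : SolvF n := by
  rcases Nat.even_or_odd n with he | ho
  · obtain ⟨m, rfl⟩ := he
    rw [← two_mul]
    exact solv_double (by omega) (exTF (by omega)) (abF_of_odd hodd m (by omega))
  · exact hodd n hn ho

/-- **The statement in every degree** over global function fields of characteristic not two, from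
the odd degrees. -/
theorem mpf_of_odd (hodd : ∀ n, 3 ≤ n → Odd n → SolvF n) {n : ℕ} (hn : 3 ≤ n) : MPF n :=
  mpf_of_solv hn (solvF_of_odd hodd hn)

/-- **Doubling**, no hypothesis left. -/
theorem solvF_double {m : ℕ} (hm : 3 ≤ m) (h : MPF m) : SolvF (2 * m) :=
  solv_double (by omega) (exTF (by omega)) (abF_cpf (by omega) (cpf_of_mpf h))

/-- **Degree four.** -/
theorem solvF_four : SolvF 4 := solv_double (m := 2) le_rfl (exTF (by norm_num)) abF_two

/-- Doubling several times. -/
theorem solvF_mul_pow {m : ℕ} (hm : 3 ≤ m) (h : SolvF m) (e : ℕ) : SolvF (m * 2 ^ e) := by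
  induction e with
  | zero => rwa [pow_zero, mul_one]
  | succ e ih =>
    have h1 : 3 ≤ m * 2 ^ e := hm.trans (Nat.le_mul_of_pos_right m (by positivity))
    have h2 : m * 2 ^ (e + 1) = 2 * (m * 2 ^ e) := by ring
    rw [h2]
    exact solvF_double h1 (mpf_of_solv h1 ih)

/-- **The powers of two.** -/
theorem solvF_two_pow {e : ℕ} (he : 2 ≤ e) : SolvF (2 ^ e) := by
  obtain ⟨r, rfl⟩ := Nat.exists_eq_add_of_le he
  rw [pow_add]
  exact solvF_mul_pow (by norm_num) solvF_four r

/-- **Degree three.** -/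
theorem solvF_three : SolvF 3 := by
  intro L K' C _ _ _ _ _ _ _ _ _ _ _ d' s' hS hdeg Ω' _ _ g M B'
  exact H74.solvAtF_threeU (isGlobal_of_gff L) (hS.anis hdeg) hS.two_ne g B'

/-- **The degrees `3 * 2 ^ e`.** -/
theorem solvF_three_mul (e : ℕ) : SolvF (3 * 2 ^ e) := solvF_mul_pow le_rfl solvF_three e

end Vale.Agent.P011.H974.R8
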