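import Vale.Agent.P011.H974.R6D
import Vale.Agent.P011.H63.FBase

/-!
Function field form of `RamOut`: roots of cubic polynomials whose norm is a norm from a quadratic
extension, up to a unit, are locally norms from this extension, at the places where the
polynomial does not degenerate.
-/

open Module

set_option linter.unusedSectionVars false

namespace Vale.Agent.P011.H974

open Vale.Agent.P011.H738 Vale.Agent.P011.H271 Vale.Agent.P011.H271.S3 Vale.Agent.P011.H63.FB
open Vale.Agent.P011.Arith (NF)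
open Vale.Agent.P011.Even (LN)

section abv

variable {F : Type} [Field F] (v : Place F)

theorem abv_add_le {x y : F} {c : ℝ} (hx : v.abv x ≤ c) (hy : v.abv y ≤ c) :
    v.abv (x + y) ≤ c := (v.nonarch x y).trans (max_le hx hy)

theorem abv_sub_le {x y : F} {c : ℝ} (hx : v.abv x ≤ c) (hy : v.abv y ≤ c) :
    v.abv (x - y) ≤ c := by
  rw [sub_eq_add_neg]
  exact abv_add_le v hx (by rwa [v.abv.map_neg])

theorem abv_add_eq {x y : F} (h : v.abv y < v.abv x) : v.abv (x + y) = v.abv x := by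
  refine le_antisymm (abv_add_le v le_rfl h.le) ?_
  by_contra hcon
  have h1 : v.abv x ≤ max (v.abv (x + y)) (v.abv (-y)) := by
    have := v.nonarch (x + y) (-y)
    rwa [add_neg_cancel_right] at this
  rw [v.abv.map_neg] at h1
  rcases le_max_iff.mp h1 with h3 | h3
  · exact hcon h3
  · exact absurd h (not_lt.mpr h3)

/-- A root of a monic cubic polynomial with integral coefficients is integral. -/
theorem root_leF {β e1 e2 e3 : F} (he1 : v.abv e1 ≤ 1) (he2 : v.abv e2 ≤ 1) (he3 : v.abv e3 ≤ 1)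
    (hβ : β ^ 3 - e1 * β ^ 2 + e2 * β - e3 = 0) : v.abv β ≤ 1 := by
  by_contra hcon
  have h1 : 1 < v.abv β := not_le.mp hcon
  have h0 : β ^ 3 = e1 * β ^ 2 - e2 * β + e3 := by linear_combination hβ
  have hb0 : 0 < v.abv β := one_pos.trans h1
  have hb2 : 1 < v.abv β ^ 2 := one_lt_pow₀ h1 two_ne_zero
  have h2 : v.abv (e1 * β ^ 2 - e2 * β + e3) ≤ v.abv β ^ 2 := by
    refine abv_add_le v (abv_sub_le v ?_ ?_) ?_
    · rw [map_mul, map_pow]
      exact mul_le_of_le_one_left (by positivity) he1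
    · rw [map_mul]
      refine (mul_le_of_le_one_left hb0.le he2).trans ?_
      rw [pow_two]
      exact le_mul_of_one_le_left hb0.le h1.le
    · exact he3.trans hb2.le
  rw [← h0, map_pow] at h2
  have h3 : v.abv β ^ 2 < v.abv β ^ 3 := pow_lt_pow_right₀ h1 (by norm_num)
  exact absurd h2 (not_le.mpr h3)

/-- A small root has the size of the last coefficient if the last but one is a unit. -/
theorem root_eqF {β e1 e2 e3 : F} (he1 : v.abv e1 ≤ 1) (he2 : v.abv e2 = 1) (hb : v.abv β < 1)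
    (hβ : β ^ 3 - e1 * β ^ 2 + e2 * β - e3 = 0) : v.abv β = v.abv e3 := by
  have h0 : e3 = β * (e2 + (β ^ 2 - e1 * β)) := by linear_combination -hβ
  have h1 : v.abv (β ^ 2 - e1 * β) < 1 := by
    refine lt_of_le_of_lt (abv_sub_le v (c := v.abv β) ?_ ?_) hb
    · rw [map_pow, pow_two]
      exact mul_le_of_le_one_left (v.abv.nonneg _) hb.le
    · rw [map_mul]
      exact mul_le_of_le_one_left (v.abv.nonneg _) he1
  have h2 : v.abv (e2 + (β ^ 2 - e1 * β)) = 1 := by
    rw [abv_add_eq v (by rw [he2]; exact h1), he2]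
  rw [h0, map_mul, h2, mul_one]

variable [GFF F] (h2 : (2 : F) ≠ 0)

include h2

/-- Units are local norms at the places where `a` is a unit. -/
theorem unit_normF {a b : Fˣ} (ha : v.abv (a : F) = 1) (hb : v.abv (b : F) = 1) :
    b ∈ NF a ⊔ LSF v := by
  rw [← mem_LN_iff v h2]
  obtain ⟨x, y, h⟩ := R6.unit_nrm h2 (v := v) (a := algebraMap F v.comp (a : F))
    (u := algebraMap F v.comp (b : F)) (by rw [norm_alg, ha]) (by rw [norm_alg, hb])
  exact ⟨x, y, by rw [iuF_val, iuF_val, h]⟩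

/-- If `a` is a local square, everything is a local norm. -/
theorem normF_of_mem {a : Fˣ} (ha : a ∈ LSF v) (b : Fˣ) : b ∈ NF a ⊔ LSF v := by
  rw [← mem_LN_iff v h2]
  obtain ⟨s, hs⟩ := ha
  have h2' : (2 : v.comp) ≠ 0 := R6.two_ne' h2
  have hs0 : s ≠ 0 := by
    rintro rfl
    rw [mul_zero] at hs
    exact isUnit_alg v a.ne_zero hs
  refine ⟨(algebraMap F v.comp (b : F) + 1) / 2, (algebraMap F v.comp (b : F) - 1) / (2 * s), ?_⟩
  rw [iuF_val, iuF_val, hs]
  field_simp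
  ring

end abv

variable {k F : Type} [Field k] [GFF k] [Field F] [GFF F] [Algebra k F]

theorem Ab_one_iff {ω : Place F} {v : Place k} (hω : Ab ω v) {x : k} :
    ω.abv (algebraMap k F x) = 1 ↔ v.abv x = 1 := by
  constructor
  · intro h
    refine le_antisymm (hω.le_one_iff.mp h.le) (not_lt.mp fun h1 => ?_)
    exact absurd h (hω.lt_one h1).ne
  · intro h
    exact le_antisymm (hω.le_one h.le) (hω.one_le h.ge)

/-- **(G4)F** -/
theorem ram_outF (h2 : (2 : k) ≠ 0) (δ : kˣ) (β : Fˣ) {v : Place k}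
    (hδ : v.abv (δ : k) = 1) {e1 e2 e3 g p q : k} (h1i : v.abv e1 ≤ 1)
    (h2i : v.abv e2 ≤ 1) (h3i : v.abv e3 ≤ 1)
    (hnc : ¬ (v.abv e2 < 1 ∧ v.abv e3 < 1))
    (hβ : (β : F) ^ 3 - algebraMap k F e1 * (β : F) ^ 2 + algebraMap k F e2 * (β : F) -
      algebraMap k F e3 = 0)
    (he3 : e3 = (p ^ 2 - δ * q ^ 2) * g) (hpq : p ^ 2 - δ * q ^ 2 ≠ 0)
    (hg : v.abv g = 1) {ω : Place F} (hω : Ab ω v) :
    β ∈ NF (incF k F δ) ⊔ LSF ω := by
  have h2F : (2 : F) ≠ 0 := by
    rw [← map_ofNat (algebraMap k F) 2]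
    exact (map_ne_zero _).mpr h2
  have wδ : ω.abv ((incF k F δ : Fˣ) : F) = 1 := (Ab_one_iff hω).mpr hδ
  have w1i := hω.le_one h1i
  have w2i := hω.le_one h2i
  have w3i := hω.le_one h3i
  rcases lt_or_eq_of_le (root_leF ω w1i w2i w3i hβ) with hlt | heq
  · have hw3 : ω.abv (algebraMap k F e3) < 1 := by
      have h0 : algebraMap k F e3 = (β : F) * ((β : F) ^ 2 - algebraMap k F e1 * β +
          algebraMap k F e2) := by linear_combination -hβ
      rw [h0, map_mul]
      refine lt_of_le_of_lt (mul_le_of_le_one_right (ω.abv.nonneg _) ?_) hlt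
      refine abv_add_le ω (abv_sub_le ω ?_ ?_) w2i
      · rw [map_pow]
        exact pow_le_one₀ (ω.abv.nonneg _) hlt.le
      · rw [map_mul]
        exact mul_le_one₀ w1i (ω.abv.nonneg _) hlt.le
    have hv3 : v.abv e3 < 1 := by
      refine lt_of_le_of_ne h3i fun h => ?_
      exact absurd ((Ab_one_iff hω).mpr h) hw3.ne
    have hv2 : v.abv e2 = 1 := le_antisymm h2i (not_lt.mp fun h => hnc ⟨h, hv3⟩)
    have hw2 : ω.abv (algebraMap k F e2) = 1 := (Ab_one_iff hω).mpr hv2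
    have hwb := root_eqF ω w1i hw2 hlt hβ
    have hwg : ω.abv (algebraMap k F g) = 1 := (Ab_one_iff hω).mpr hg
    have hn0 : algebraMap k F (p ^ 2 - δ * q ^ 2) ≠ 0 := (map_ne_zero _).mpr hpq
    have hub : ω.abv ((β * (Units.mk0 _ hn0)⁻¹ : Fˣ) : F) = 1 := by
      rw [Units.val_mul, Units.val_inv_eq_inv_val, Units.val_mk0, map_mul, map_inv₀, hwb, he3,
        map_mul, map_mul, hwg, mul_one]
      exact mul_inv_cancel₀ (ω.abv.ne_zero hn0)
    have h3 := unit_normF ω h2F wδ hub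
    have h4 : Units.mk0 _ hn0 ∈ NF (incF k F δ) ⊔ LSF ω := by
      refine Subgroup.mem_sup_left ⟨algebraMap k F p, algebraMap k F q, ?_⟩
      rw [Units.val_mk0, map_sub, map_mul, map_pow, map_pow]
      rfl
    have h5 := mul_mem h3 h4
    rwa [inv_mul_cancel_right] at h5
  · exact unit_normF ω h2F wδ heq

/-- At a place where `p + u √δ` is not integral, `δ` is a local square. -/
theorem mem_LSF_of_split (h2 : (2 : k) ≠ 0) (δ : kˣ) {v : Place k} (hδ : v.abv (δ : k) = 1)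
    {p u : k} (hpu : p ^ 2 - δ * u ^ 2 = 1) (hu : 1 < v.abv u) : δ ∈ LSF v := by
  have hu0 : u ≠ 0 := by
    rintro rfl
    rw [map_zero] at hu
    exact absurd hu (by norm_num)
  have hu2 : 1 < v.abv (u ^ 2) := by
    rw [map_pow]
    exact one_lt_pow₀ hu two_ne_zero
  have hp2 : v.abv (p ^ 2) = v.abv (u ^ 2) := by
    have h0 : p ^ 2 = δ * u ^ 2 + 1 := by linear_combination hpu
    have h1 : v.abv (δ * u ^ 2) = v.abv (u ^ 2) := by rw [map_mul, hδ, one_mul]
    rw [h0, abv_add_eq v (by rw [h1, map_one]; exact hu2), h1]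
  have hp0 : p ≠ 0 := by
    rintro rfl
    rw [zero_pow two_ne_zero, map_zero] at hp2
    rw [← hp2] at hu2
    exact absurd hu2 (by norm_num)
  rw [mem_LSF_iff h2]
  refine ⟨Units.mk0 (p / u) (div_ne_zero hp0 hu0), ?_⟩
  have h5 : (δ : k) / ((Units.mk0 (p / u) (div_ne_zero hp0 hu0) : kˣ) : k) ^ 2 - 1 =
      -(1 / p ^ 2) := by
    rw [Units.val_mk0]
    field_simp
    linear_combination -hpu
  rw [h5, v.abv.map_neg, map_div₀, map_one, hp2, one_div]
  exact inv_lt_one_of_one_lt₀ hu2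

theorem mem_LSF_map {ω : Place F} {v : Place k} (hω : Ab ω v) (h2 : (2 : k) ≠ 0) {x : kˣ}
    (hx : x ∈ LSF v) : incF k F x ∈ LSF ω := by
  have h2F : (2 : F) ≠ 0 := by
    rw [← map_ofNat (algebraMap k F) 2]
    exact (map_ne_zero _).mpr h2
  rw [mem_LSF_iff h2] at hx
  rw [mem_LSF_iff h2F]
  obtain ⟨y, hy⟩ := hx
  refine ⟨incF k F y, ?_⟩
  have e1 : ((incF k F x : Fˣ) : F) / ((incF k F y : Fˣ) : F) ^ 2 - 1 =
      algebraMap k F ((x : k) / (y : k) ^ 2 - 1) := by
    rw [map_sub, map_div₀, map_pow, map_one]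
    rfl
  rw [e1]
  exact hω.lt_one hy

/-- **(G4')F** -/
theorem ram_splitF (h2 : (2 : k) ≠ 0) (δ : kˣ) {v : Place k} (hδ : v.abv (δ : k) = 1)
    {p u : k} (hpu : p ^ 2 - δ * u ^ 2 = 1) (hu : 1 < v.abv u) {ω : Place F} (hω : Ab ω v)
    (β : Fˣ) : β ∈ NF (incF k F δ) ⊔ LSF ω := by
  have h2F : (2 : F) ≠ 0 := by
    rw [← map_ofNat (algebraMap k F) 2]
    exact (map_ne_zero _).mpr h2
  exact normF_of_mem ω h2F (mem_LSF_map hω h2 (mem_LSF_of_split h2 δ hδ hpu hu)) β

end Vale.Agent.P011.H974
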