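import Vale.Agent.P011.H974.QuatC
import Vale.Agent.P011.H974.DblF
import Vale.Agent.P011.H976.FF.AbOfYF

/-!
Function fields: the elements of the centralizer close to one, from the elements of reduced norm
one of the centralizer.  Degree two of the centralizer.
-/

open Module Polynomial

set_option linter.unusedSectionVars false

namespace Vale.Agent.P011.H974.R8

open Vale.Agent.P011.H305 Vale.Agent.P011.H738 Vale.Agent.P011.H271 Vale.Agent.P011.H271.S3
open Vale.Agent.P011.H872.FF Vale.Agent.P011.H182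
open Vale.Agent.P011.Arith (NF)
open Vale.Agent.P011.H63.FB (incF LSF)
open Vale.Agent.P011.W (HasNrd)
open Vale.Agent.P011.H698 (NearA Sm)
open Vale.Agent.P011.H732D (AbAtF ImF)
open Vale.Agent.P011.H976.FF (near_divF na_of_smF QFrF QEltF)

/-- The elements of norm one of the centralizer which are close to one belong to the subgroup. -/
def PFCent {k D : Type} [Field k] [DivisionRing D] [StarRing D] [Algebra k D] {N : ℕ}
    (B : Basis (Fin N) k D) {K' C : Type} [Field K'] [DivisionRing C] [StarRing C] [Algebra K' C]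
    (m : ℕ) (jC : C →+* D) (Q : Set D) : Prop :=
  ∃ (T' : Finset (Place k)) (η : ℝ), 0 < η ∧ ∀ x : C, x * star x = 1 → HasNrd K' m x 1 →
    (∀ v ∈ T', Sm B v η (jC x - 1)) → jC x ∈ Q

section letters

variable {m : ℕ} {k K D L K' C : Type} [Field k] [GFF k] [Field K] [StarRing K]
    [DivisionRing D] [StarRing D] [Algebra k K] [Algebra k D] [Algebra K D] [IsScalarTower k K D]
    [Field L] [GFF L] [Algebra k L] [Field K'] [StarRing K'] [Algebra K K'] [DivisionRing C]
    [StarRing C] [Algebra L K'] [Algebra L C] [Algebra K' C] [IsScalarTower L K' C]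
    [StarModule K' C] {d : kˣ} {s : K} {t : D} {a : kˣ} {T : L} {jC : C →+* D}

/-- **The last step of the doubling**, from the elements of reduced norm one. -/
theorem abAt_of_pfF (hS : SetF k K D d s) (hdeg : finrank K D = (2 * m) ^ 2)
    (hSC : SetF L K' C (incF k L d) (algebraMap K K' s)) (hdC : finrank K' C = m ^ 2)
    (h : IsCentF k K D L K' C t a T jC) {Ω : Type} [Field Ω] [Algebra K Ω]
    (f : D →ₐ[K] Matrix (Fin (2 * m)) (Fin (2 * m)) Ω) {N : ℕ}
    (B : Basis (Fin N) k D) (Q : Subgroup (SUA f))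
    (hPF : PFCent (K' := K') B m jC (ImF Q))
    (hY : ∀ ε : ℝ, 0 < ε → ∀ S0 : Finset (Place k), ∃ S : Finset (Place k), ∃ η : ℝ, 0 < η ∧
      ∀ (x : C) (p u : k), x * star x = 1 →
        HasNrd K' m x (kk k K K' p + kk k K K' u * om K' s T) →
        p ^ 2 - (a * d : k) * u ^ 2 = 1 → (∀ v ∈ S, Sm B v η (jC x - 1)) →
        ∃ y : C, y * star y = 1 ∧ HasNrd K' m y (kk k K K' p + kk k K K' u * om K' s T) ∧
          jC y ∈ ImF Q ∧ ∀ v ∈ S0, Sm B v ε (jC y - 1)) :
    AbAtF B f (ImF Q) t := by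
  classical
  have i1 := hS.fin
  have i2 := hS.cen
  have i3 := hSC.fin
  have i4 := hSC.cen
  have hkinf : Infinite k := Vale.Agent.P011.Hey.gff_infinite k
  have hKinf : Infinite K := Infinite.of_injective _ (algebraMap k K).injective
  obtain ⟨T', η', hη', hPF⟩ := hPF
  choose ε₁ hε₁ hprod using fun v : Place k =>
    near_divF B (fun c x => hS.star_smulk c x) v.abv hη'
  obtain ⟨ε₂, hε₂, hε₂'⟩ := H167.Cn.exists_min_pos T'.finite_toSet (fun v => ε₁ v / (N + 1))
    fun v => div_pos (hε₁ v) (by positivity)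
  obtain ⟨S, η, hη, hy⟩ := hY ε₂ hε₂ T'
  refine ⟨S ∪ T', min η ε₂, lt_min hη hε₂, ?_⟩
  intro e₁ het hestar hedet hnear
  obtain ⟨x, rfl⟩ := (h.range e₁).mp het
  have hx1' : jC x * star (jC x) = 1 := mul_eq_one_comm.mp hestar
  have hx1 : x * star x = 1 := by
    apply h.inj
    rw [map_mul, h.star, map_one]
    exact hx1'
  obtain ⟨p, u, hpux, hpu1⟩ := H167.Cn.exists_pu hS hSC h rfl hdeg hdC f hx1 hedet
  obtain ⟨y, hy1, hy2, hy3, hy4⟩ := hy x p u hx1 hpux hpu1 fun v hv i =>
    (hnear v (Finset.mem_union_left _ hv) i).trans_le (min_le_left _ _)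
  have hy0 : y ≠ 0 := left_ne_zero_of_mul_eq_one hy1
  have hx0 : x ≠ 0 := left_ne_zero_of_mul_eq_one hx1
  have hone : HasNrd K' m (1 : C) 1 := fun Ω _ _ f => by
    rw [map_one, map_one, Matrix.det_one]
  have hν0 : kk k K K' p + kk k K K' u * om K' s T ≠ 0 := by
    intro h0
    rw [h0] at hpux
    have h2 := hpux.mul (hpux.inv hx0)
    rw [mul_inv_cancel₀ hx0, zero_mul] at h2
    exact one_ne_zero (W.HasNrd.unique hdC hone h2)
  have hyi : star y = y⁻¹ := eq_inv_of_mul_eq_one_right hy1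
  have hzG1 : (x * y⁻¹) * star (x * y⁻¹) = 1 := by
    rw [← hyi, star_mul, star_star, mul_assoc, ← mul_assoc (star y), hyi,
      inv_mul_cancel₀ hy0, one_mul, hx1]
  have hzG2 : HasNrd K' m (x * y⁻¹) 1 := by
    have h2 := hpux.mul (hy2.inv hy0)
    rwa [mul_inv_cancel₀ hν0] at h2
  have hyD : jC y * star (jC y) = 1 := by
    rw [← h.star, ← map_mul, hy1, map_one]
  have hz : jC (x * y⁻¹) ∈ ImF Q := by
    refine hPF _ hzG1 hzG2 fun v hv i => ?_
    have h1 : na B v.abv (jC x - 1) < ε₁ v := by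
      refine na_of_smF B (hε₁ v) fun i => ?_
      exact (hnear v (Finset.mem_union_right _ hv) i).trans_le
        ((min_le_right _ _).trans (hε₂' v hv))
    have h2 : na B v.abv (jC y - 1) < ε₁ v := by
      refine na_of_smF B (hε₁ v) fun i => ?_
      exact (hy4 v hv i).trans_le (hε₂' v hv)
    have h3 := hprod v (jC x) (jC y) hyD h1 h2
    rw [map_mul, map_inv₀]
    exact (coord_le_na B v.abv _ i).trans_lt h3
  obtain ⟨gz, hgz, hgze⟩ := hz
  obtain ⟨gy, hgy, hgye⟩ := hy3
  refine ⟨gz * gy, Q.mul_mem hgz hgy, ?_⟩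
  change ((gz : Dˣ) : D) * ((gy : Dˣ) : D) = _
  rw [hgze, hgye, ← map_mul, inv_mul_cancel_right₀ hy0]

/-- The elements of reduced norm one, from the statement in degree `m`. -/
theorem pfCent_of_mpf (hMP : MPF m) (hdeg : finrank K D = (2 * m) ^ 2)
    (hSC : SetF L K' C (incF k L d) (algebraMap K K' s)) (hdC : finrank K' C = m ^ 2)
    (h : IsCentF k K D L K' C t a T jC) {Ω : Type} [Field Ω] [Algebra K Ω]
    (f : D →ₐ[K] Matrix (Fin (2 * m)) (Fin (2 * m)) Ω) {N : ℕ}
    (B : Basis (Fin N) k D) (Q : Subgroup (SUA f)) [Q.Normal] (hi : Q.index ≠ 0)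
    (hS : SetF k K D d s) :
    PFCent (K' := K') B m jC (ImF Q) := by
  classical
  have i1 := hS.fin
  have i2 := hS.cen
  have i3 := hSC.fin
  have i4 := hSC.cen
  have hkinf : Infinite k := Vale.Agent.P011.Hey.gff_infinite k
  have hKinf : Infinite K := Infinite.of_injective _ (algebraMap k K).injective
  have hfL : FiniteDimensional k L := Module.finite_of_finrank_pos (by rw [h.rkL]; norm_num)
  have haL : Algebra.IsAlgebraic k L := Algebra.IsAlgebraic.of_finite k L
  have f1 : FiniteDimensional L K' := FiniteDimensional.of_finrank_pos (by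
    rw [hSC.rank]; norm_num)
  have f2 : FiniteDimensional L C := Module.Finite.trans K' C
  obtain ⟨g⟩ := Vale.Agent.P011S.exists_split (K := K') (D := C) hdC (AlgebraicClosure K')
  let B' := finBasis L C
  obtain ⟨N', hN'n, hN'i, -, hN'⟩ := H167.Cn.exists_trace f g h rfl hdeg hdC Q hi
  obtain ⟨T', -, η', hη', hPF⟩ := hMP L K' C _ _ hSC hdC _ g _ B' N' hN'n hN'i
  choose ηd hηd hdown using fun v : Place k => H167.Cn.near_down h B B' v (ε := fun _ => η')
    fun _ => hη'
  have hbf : {v : Place k | ∃ V ∈ (T' : Set (Place L)), Ab V v}.Finite :=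
    finite_below T'.finite_toSet
  obtain ⟨ε₂, hε₂, hε₂'⟩ := H167.Cn.exists_min_pos hbf (fun v => ηd v / (N + 1))
    fun v => div_pos (hηd v) (by positivity)
  refine ⟨hbf.toFinset, ε₂, hε₂, fun x hx hN hnear => ?_⟩
  have hx0 : x ≠ 0 := left_ne_zero_of_mul_eq_one hx
  have hdet : (g x).det = 1 := by
    have := hN _ g
    rwa [map_one] at this
  have hzN : (⟨Units.mk0 _ hx0, hx, hdet⟩ : SUA g) ∈ N' := by
    refine hPF _ fun w' hw' i => ?_
    obtain ⟨v, hwv⟩ := H511.FF.exists_below_ab (k := k) w'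
    have hv : v ∈ {v : Place k | ∃ V ∈ (T' : Set (Place L)), Ab V v} := ⟨w', hw', hwv⟩
    have h1 : na B v.abv (jC (x - 1)) < ηd v := by
      rw [map_sub, map_one]
      refine na_of_smF B (hηd v) fun i => ?_
      exact (hnear v (hbf.mem_toFinset.mpr hv) i).trans_le (hε₂' v hv)
    exact (coord_le_na B' w'.abv _ i).trans_lt (hdown v _ h1 w' hwv)
  have hzI : x ∈ H167.Cn.ImA N' := ⟨_, hzN, rfl⟩
  exact ((hN' _).mp hzI).2.2

/-- **Degree two**: the elements of reduced norm one of the centralizer belong to a quaternion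
algebra over the symmetric subfield. -/
theorem pfCent_two (hS : SetF k K D d s)
    (hSC : SetF L K' C (incF k L d) (algebraMap K K' s)) (hdC : finrank K' C = 2 ^ 2)
    (h : IsCentF k K D L K' C t a T jC) {N : ℕ} (B : Basis (Fin N) k D) {Q : Set D}
    {T0 : Finset (Place k)} {ε0 : ℝ} (hε0 : 0 < ε0) (hQ : H704.HQ.HQ1F k B T0 ε0 Q) :
    PFCent (K' := K') B 2 jC Q := by
  classical
  have i1 := hS.fin
  have i3 := hSC.fin
  have i4 := hSC.cen
  have hfL : FiniteDimensional k L := Module.finite_of_finrank_pos (by rw [h.rkL]; norm_num)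
  have haL : Algebra.IsAlgebraic k L := Algebra.IsAlgebraic.of_finite k L
  have f1 : FiniteDimensional L K' := FiniteDimensional.of_finrank_pos (by
    rw [hSC.rank]; norm_num)
  have f2 : FiniteDimensional L C := Module.Finite.trans K' C
  let B' := finBasis L C
  obtain ⟨i, j, α, β, hsi, hsj, hii, hjj, hij⟩ := QC.exists_ij hSC hdC
  have hram := H704.R6.ram_finite (F := L) hSC.two_ne α β
  obtain ⟨R, hR⟩ : ∃ R : Set (Place L), R = {ω | β ∉ NF α ⊔ LSF ω} := ⟨_, rfl⟩
  have hRf : R.Finite := by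
    rw [hR]
    exact hram.subset fun ω hω => (H704.R6.ramF_iff hSC.two_ne α β ω).mpr hω
  have hn1 : ∀ ω : Place L, 0 < na B' ω.abv (1 : C) := fun ω => na_pos _ _ one_ne_zero
  choose ηd hηd hdown using fun v : Place k => H167.Cn.near_down h B B' v
    (ε := fun ω => na B' ω.abv (1 : C)) hn1
  obtain ⟨Cc, hC1, hCm, hCs⟩ : ∃ Cc : Place k → ℝ, (∀ v, 1 ≤ Cc v) ∧ True ∧
      ∀ v x, na B v.abv (star x) ≤ Cc v * na B v.abv x := by
    choose Cc h1 h2 h3 using fun v : Place k => na_const B v.abv fun c x => hS.star_smulk c x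
    exact ⟨Cc, h1, trivial, h3⟩
  have hbf : {v : Place k | ∃ V ∈ R, Ab V v}.Finite := finite_below hRf
  obtain ⟨ε₂, hε₂, hε₂'⟩ := H167.Cn.exists_min_pos hbf (fun v => ηd v / (1 + Cc v) / (N + 1))
    fun v => div_pos (div_pos (hηd v) (by linarith [hC1 v])) (by positivity)
  refine ⟨hbf.toFinset ∪ T0, min ε0 ε₂, lt_min hε0 hε₂, fun x hx hN hnear => ?_⟩
  obtain ⟨p₀, p₁, p₂, p₃, hrep, hnrm, htr⟩ := QC.exists_rep hSC hdC hsi hsj hjj hii hij hx hN
  let ι : L →ₐ[k] D :=
    { jC.comp (algebraMap L C) with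
      commutes' := fun c => h.jk c }
  have hιd : ∀ l, ι l = jC (algebraMap L C l) := fun l => rfl
  have hfr : QFrF ι α β (jC i) (jC j) :=
    { sym := fun l => by
        rw [hιd, ← h.star, IsScalarTower.algebraMap_apply L K' C, QC.star_algK hSC,
          hSC.star_algebraMap]
      si := by rw [← h.star, hsi, map_neg]
      sj := by rw [← h.star, hsj, map_neg]
      ii := by rw [← map_mul, hii, hιd]
      jj := by rw [← map_mul, hjj, hιd]
      ij := by rw [← map_mul, hij, map_neg, map_mul]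
      ci := fun l => by rw [hιd, ← map_mul, ← map_mul, Algebra.commutes]
      cj := fun l => by rw [hιd, ← map_mul, ← map_mul, Algebra.commutes] }
  refine hQ L ι α β (jC i) (jC j) p₀ p₁ p₂ p₃ (jC x) ⟨hfr, hnrm, ?_⟩ ?_ fun v hv l =>
    (hnear v (Finset.mem_union_right _ hv) l).trans_le (min_le_left _ _)
  · rw [hrep]
    simp only [map_add, map_mul, hιd]
  · intro ω hω
    obtain ⟨v, hωv⟩ := H511.FF.exists_below_ab (k := k) ω
    have hv : v ∈ {v : Place k | ∃ V ∈ R, Ab V v} := ⟨ω, by rw [hR]; exact hω, hωv⟩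
    have h1 : na B v.abv (jC x - 1) < ηd v / (1 + Cc v) := by
      refine na_of_smF B (div_pos (hηd v) (by linarith [hC1 v])) fun i => ?_
      exact (hnear v (Finset.mem_union_left _ (hbf.mem_toFinset.mpr hv)) i).trans_le
        ((min_le_right _ _).trans (hε₂' v hv))
    have e1 : jC (algebraMap L C (2 - 2 * p₀)) = -((jC x - 1) + star (jC x - 1)) := by
      rw [map_sub, ← htr, map_ofNat, map_sub, map_add, h.star, map_ofNat, star_sub, star_one]
      have : (2 : D) = 1 + 1 := by norm_num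
      rw [this]
      abel
    have h2 : na B v.abv (jC (algebraMap L C (2 - 2 * p₀))) < ηd v := by
      rw [e1, na_neg]
      have h3 := na_add_le B v.abv (jC x - 1) (star (jC x - 1))
      have h4 := hCs v (jC x - 1)
      have h5 : 0 < 1 + Cc v := by linarith [hC1 v]
      have h6 := (lt_div_iff₀ h5).mp h1
      nlinarith
    have h3 := hdown v _ h2 ω hωv
    rw [Algebra.algebraMap_eq_smul_one, na_smul] at h3
    have h4 := hn1 ω
    by_contra hcon
    push Not at hcon
    nlinarith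

end letters

/-- The elements of norm one of the centralizers, in the frame of `AbF`. -/
def CPF (m : ℕ) : Prop :=
  ∀ (k K D : Type) [Field k] [GFF k] [Field K] [StarRing K] [DivisionRing D]
    [StarRing D] [Algebra k K] [Algebra k D] [Algebra K D] [IsScalarTower k K D] (d : kˣ) (s : K)
    (_ : SetF k K D d s) (_ : finrank K D = (2 * m) ^ 2)
    (L K' C : Type) [Field L] [GFF L] [Algebra k L] [Field K'] [StarRing K'] [Algebra K K']
    [DivisionRing C] [StarRing C] [Algebra L K'] [Algebra L C] [Algebra K' C]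
    [IsScalarTower L K' C] [StarModule K' C]
    (_ : SetF L K' C (incF k L d) (algebraMap K K' s)) (_ : finrank K' C = m ^ 2)
    (t : D) (a : kˣ) (T : L) (jC : C →+* D) (_ : IsCentF k K D L K' C t a T jC)
    (Ω : Type) [Field Ω] [Algebra K Ω] (f : D →ₐ[K] Matrix (Fin (2 * m)) (Fin (2 * m)) Ω) (N : ℕ)
    (B : Basis (Fin N) k D) (Q : Subgroup (SUA f)) (_ : Q.Normal) (_ : Q.index ≠ 0)
    (T0 : Finset (Place k)) (ε0 : ℝ) (_ : 0 < ε0) (_ : H704.HQ.HQ1F k B T0 ε0 (ImF Q)),
    PFCent (K' := K') B m jC (ImF Q)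

/-- From the statement in degree `m`. -/
theorem cpf_of_mpf {m : ℕ} (hMP : MPF m) : CPF m := by
  intro k K D _ _ _ _ _ _ _ _ _ _ d s hS hdeg L K' C _ _ _ _ _ _ _ _ _ _ _ _ _ hSC hdC t a T jC
    h Ω _ _ f N B Q hQ hi T0 ε0 hε0 hQ1
  exact pfCent_of_mpf hMP hdeg hSC hdC h f B Q hi hS

/-- **Degree two.** -/
theorem cpf_two : CPF 2 := by
  intro k K D _ _ _ _ _ _ _ _ _ _ d s hS hdeg L K' C _ _ _ _ _ _ _ _ _ _ _ _ _ hSC hdC t a T jC
    h Ω _ _ f N B Q hQ hi T0 ε0 hε0 hQ1
  exact pfCent_two hS hSC hdC h B hε0 hQ1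

/-- **The doubling over function fields**: every degree from the odd degrees and the elements of
the centralizers. -/
theorem abF_all (hodd : ∀ n, 3 ≤ n → Odd n → SolvF n) (hEx : ∀ m, 2 ≤ m → ExTF m)
    (hAb : ∀ m, 2 ≤ m → CPF m → AbF m) : ∀ m, 2 ≤ m → AbF m := by
  intro m
  induction m using Nat.strong_induction_on with
  | _ m ih =>
    intro hm
    refine hAb m hm ?_
    rcases Nat.even_or_odd m with he | ho
    · obtain ⟨r, rfl⟩ := he
      rw [← two_mul]
      rcases Nat.lt_or_ge r 2 with hr | hr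
      · obtain rfl : r = 1 := by omega
        exact cpf_two
      · exact cpf_of_mpf (mpf_double hr (hEx r hr) (ih r (by omega) hr))
    · exact cpf_of_mpf (mpf_of_solv (by obtain ⟨r, rfl⟩ := ho; omega)
        (hodd m (by obtain ⟨r, rfl⟩ := ho; omega) ho))

end Vale.Agent.P011.H974.R8
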