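import Vale.Agent.P011.H974.Proj
import Mathlib.Algebra.Module.Lattice
import Mathlib.RingTheory.DiscreteValuationRing.Basic
import Mathlib.RingTheory.LocalRing.ResidueField.Basic
import Mathlib.RingTheory.SimpleModule.Rank

/-!
Lattices over a discrete valuation ring: the submodules between `ϖ L` and `L`.
-/

open Module Finset IsLocalRing

set_option linter.unusedSectionVars false

namespace Vale.Agent.P011.H974

section red

variable {O k M Q : Type*} [CommRing O] [Field k] [Algebra O k] [AddCommGroup M] [Module O M]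
  [AddCommGroup Q] [Module O Q] [Module k Q] [IsScalarTower O k Q]

/-- The submodule attached to a subspace of the reduction. -/
def toN (L : Submodule O M) (f : L →ₗ[O] Q) (W : Submodule k Q) : Submodule O M :=
  ((W.restrictScalars O).comap f).map L.subtype

/-- The subspace of the reduction attached to a submodule. -/
def toW (hk : Function.Surjective (algebraMap O k)) (L : Submodule O M) (f : L →ₗ[O] Q)
    (N : Submodule O M) : Submodule k Q where
  carrier := {q | ∃ x : L, (x : M) ∈ N ∧ f x = q}
  add_mem' := by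
    rintro _ _ ⟨x, hx, rfl⟩ ⟨y, hy, rfl⟩
    exact ⟨x + y, N.add_mem hx hy, map_add f x y⟩
  zero_mem' := ⟨0, N.zero_mem, map_zero f⟩
  smul_mem' := by
    rintro c _ ⟨x, hx, rfl⟩
    obtain ⟨r, rfl⟩ := hk c
    exact ⟨r • x, N.smul_mem r hx, by rw [map_smul, algebraMap_smul]⟩

variable {hk : Function.Surjective (algebraMap O k)} {L : Submodule O M} {f : L →ₗ[O] Q}

theorem mem_toN {W : Submodule k Q} {x : M} : x ∈ toN L f W ↔ ∃ h : x ∈ L, f ⟨x, h⟩ ∈ W := by
  constructor
  · rintro ⟨y, hy, rfl⟩
    exact ⟨y.2, hy⟩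
  · rintro ⟨h, hx⟩
    exact ⟨⟨x, h⟩, hx, rfl⟩

theorem mem_toW {N : Submodule O M} {q : Q} :
    q ∈ toW hk L f N ↔ ∃ x : L, (x : M) ∈ N ∧ f x = q := Iff.rfl

theorem toN_le (W : Submodule k Q) : toN L f W ≤ L := by
  intro x hx
  exact (mem_toN.mp hx).1

theorem toN_mono {W W' : Submodule k Q} (h : W ≤ W') : toN L f W ≤ toN L f W' := by
  intro x hx
  obtain ⟨h1, h2⟩ := mem_toN.mp hx
  exact mem_toN.mpr ⟨h1, h h2⟩

theorem toW_mono {N N' : Submodule O M} (h : N ≤ N') : toW hk L f N ≤ toW hk L f N' := by
  rintro _ ⟨x, hx, rfl⟩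
  exact ⟨x, h hx, rfl⟩

theorem toW_toN (hf : Function.Surjective f) (W : Submodule k Q) :
    toW hk L f (toN L f W) = W := by
  ext q
  constructor
  · rintro ⟨x, hx, rfl⟩
    exact (mem_toN.mp hx).2
  · intro hq
    obtain ⟨x, rfl⟩ := hf q
    exact ⟨x, mem_toN.mpr ⟨x.2, hq⟩, rfl⟩

theorem toN_toW {N : Submodule O M} (h1 : ∀ x : L, f x = 0 → (x : M) ∈ N) (h2 : N ≤ L) :
    toN L f (toW hk L f N) = N := by
  ext x
  constructor
  · intro hx
    obtain ⟨h3, y, hy, hxy⟩ := mem_toN.mp hx
    have h4 : f (⟨x, h3⟩ - y) = 0 := by rw [map_sub, hxy, sub_self]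
    have h5 := h1 _ h4
    have h6 : x = ((⟨x, h3⟩ - y : L) : M) + y := by
      rw [Submodule.coe_sub, sub_add_cancel]
    rw [h6]
    exact N.add_mem h5 hy
  · intro hx
    exact mem_toN.mpr ⟨h2 hx, ⟨x, h2 hx⟩, hx, rfl⟩

theorem ker_le_toN (W : Submodule k Q) (x : L) (hx : f x = 0) : (x : M) ∈ toN L f W :=
  mem_toN.mpr ⟨x.2, by rw [show (⟨(x : M), x.2⟩ : L) = x from rfl, hx]; exact W.zero_mem⟩

end red

section lat

variable {O : Type*} [CommRing O] [IsDomain O] [IsDiscreteValuationRing O]
variable {F V : Type*} [Field F] [Algebra O F] [IsFractionRing O F] [AddCommGroup V] [Module F V]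
  [Module O V] [IsScalarTower O F V]

variable (F V) in
/-- The multiplication by a nonzero element. -/
noncomputable def dil {a : O} (ha : a ≠ 0) : V ≃ₗ[O] V :=
  LinearEquiv.ofBijective (LinearMap.lsmul O V a) (by
    have h0 : algebraMap O F a ≠ 0 := by
      rw [Ne, map_eq_zero_iff _ (IsFractionRing.injective O F)]
      exact ha
    constructor
    · intro x y hxy
      have h1 : a • x = a • y := hxy
      rw [← algebraMap_smul F a x, ← algebraMap_smul F a y] at h1
      exact smul_right_injective V h0 h1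
    · intro y
      refine ⟨(algebraMap O F a)⁻¹ • y, ?_⟩
      change a • ((algebraMap O F a)⁻¹ • y) = y
      rw [← algebraMap_smul F a, smul_smul, mul_inv_cancel₀ h0, one_smul])

theorem dil_apply {a : O} (ha : a ≠ 0) (x : V) : dil F V ha x = a • x := rfl

variable (F V) in
/-- The multiplication of submodules by a nonzero element, as an automorphism of the ordered set
of submodules. -/
noncomputable def dilS {a : O} (ha : a ≠ 0) : Submodule O V ≃o Submodule O V :=
  Submodule.orderIsoMapComap (dil F V ha)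

theorem mem_dilS {a : O} (ha : a ≠ 0) {L : Submodule O V} {x : V} :
    x ∈ dilS F V ha L ↔ ∃ y ∈ L, a • y = x := by
  change x ∈ L.map (dil F V ha : V →ₗ[O] V) ↔ _
  rw [Submodule.mem_map]
  rfl

theorem dilS_le {a : O} (ha : a ≠ 0) (L : Submodule O V) : dilS F V ha L ≤ L := by
  intro x hx
  obtain ⟨y, hy, rfl⟩ := (mem_dilS ha).mp hx
  exact L.smul_mem a hy

theorem dilS_covBy {a : O} (ha : a ≠ 0) {L L' : Submodule O V} :
    dilS F V ha L ⋖ dilS F V ha L' ↔ L ⋖ L' := by
  exact apply_covBy_apply_iff (dilS F V ha)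

open Submodule in
/-- The reduction of a lattice. -/
theorem exists_red [FiniteDimensional F V] {ϖ : O} (hϖ : Irreducible ϖ) (L : Submodule O V)
    [IsLattice F L] : ∃ f : L →ₗ[O] (Fin (finrank F V) → ResidueField O),
      Function.Surjective f ∧ ∀ x : L, f x = 0 ↔ (x : V) ∈ dilS F V hϖ.ne_zero L := by
  have : Module.IsTorsionFree O F := inferInstance
  have hfree : Module.Free O L := IsLattice.free F L
  have hrank : finrank O L = finrank F V :=
    Module.finrank_eq_of_rank_eq (by rw [IsLattice.rank' F L, Module.finrank_eq_rank])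
  let b : Basis (Fin (finrank F V)) O L := (Module.finBasis O L).reindex (finCongr hrank)
  let f : L →ₗ[O] (Fin (finrank F V) → ResidueField O) :=
    LinearMap.pi fun i => (Algebra.linearMap O (ResidueField O)).comp (b.coord i)
  have hf : ∀ x i, f x i = residue O (b.repr x i) := fun x i => rfl
  refine ⟨f, ?_, fun x => ?_⟩
  · intro q
    choose r hr using fun i => residue_surjective (q i)
    refine ⟨b.equivFun.symm r, ?_⟩
    funext i
    rw [hf, ← hr i, ← Basis.equivFun_apply, LinearEquiv.apply_symm_apply]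
  · have h1 : ∀ r : O, residue O r = 0 ↔ ∃ s, r = ϖ * s := by
      intro r
      rw [residue_eq_zero_iff, hϖ.maximalIdeal_eq, Ideal.mem_span_singleton]
      rfl
    constructor
    · intro hx
      have h2 : ∀ i, ∃ s, b.repr x i = ϖ * s := fun i => by
        rw [← h1, ← hf, hx]
        rfl
      choose s hs using h2
      rw [mem_dilS]
      refine ⟨(b.equivFun.symm s : L), (b.equivFun.symm s).2, ?_⟩
      have h3 : ϖ • b.equivFun.symm s = x := by
        apply b.equivFun.injective
        rw [map_smul, LinearEquiv.apply_symm_apply]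
        funext i
        rw [Basis.equivFun_apply, hs i]
        rfl
      rw [← Submodule.coe_smul, h3]
    · intro hx
      obtain ⟨y, hy, hxy⟩ := (mem_dilS hϖ.ne_zero).mp hx
      have h3 : x = ϖ • (⟨y, hy⟩ : L) := Subtype.ext hxy.symm
      funext i
      rw [hf, h3, map_smul]
      change residue O (ϖ * _) = 0
      exact (h1 _).mpr ⟨_, rfl⟩

end lat

section cov

/-- Coverings of subspaces. -/
theorem covBy_iff_finrank {k Q : Type*} [Field k] [AddCommGroup Q] [Module k Q]
    [FiniteDimensional k Q] {A B : Submodule k Q} (hAB : A ≤ B) :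
    A ⋖ B ↔ finrank k A + 1 = finrank k B := by
  rw [covBy_iff_quot_is_simple hAB, isSimpleModule_iff_finrank_eq_one]
  have h1 := Submodule.finrank_quotient_add_finrank (Submodule.comap B.subtype A)
  have h2 : finrank k (Submodule.comap B.subtype A) = finrank k A :=
    (Submodule.comapSubtypeEquivOfLe hAB).finrank_eq
  omega

variable {O k M Q : Type*} [CommRing O] [Field k] [Algebra O k] [AddCommGroup M] [Module O M]
  [AddCommGroup Q] [Module O Q] [Module k Q] [IsScalarTower O k Q] [FiniteDimensional k Q]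
variable {hk : Function.Surjective (algebraMap O k)} {L : Submodule O M} {f : L →ₗ[O] Q}
  {N N' : Submodule O M}

theorem toW_le_iff (h1 : ∀ x : L, f x = 0 → (x : M) ∈ N') (hN : N ≤ L) (hN' : N' ≤ L)
    (h2 : ∀ x : L, f x = 0 → (x : M) ∈ N) :
    toW hk L f N ≤ toW hk L f N' ↔ N ≤ N' := by
  constructor
  · intro h
    have := toN_mono (L := L) (f := f) h
    rwa [toN_toW h2 hN, toN_toW h1 hN'] at this
  · exact toW_mono

/-- Coverings between `ker f` and `L`. -/
theorem toW_covBy (hf : Function.Surjective f) (h1 : ∀ x : L, f x = 0 → (x : M) ∈ N)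
    (hle : N ≤ N') (hN' : N' ≤ L) :
    N ⋖ N' ↔ finrank k (toW hk L f N) + 1 = finrank k (toW hk L f N') := by
  have h1' : ∀ x : L, f x = 0 → (x : M) ∈ N' := fun x hx => hle (h1 x hx)
  rw [← covBy_iff_finrank (toW_mono hle)]
  constructor
  · intro h
    refine ⟨lt_of_le_of_ne (toW_mono hle) fun he => h.ne ?_, ?_⟩
    · rw [← toN_toW (hk := hk) h1 (hle.trans hN'), he, toN_toW h1' hN']
    · intro W hW1 hW2
      have h3 : N < toN L f W := by
        refine lt_of_le_of_ne ?_ ?_
        · rw [← toN_toW (hk := hk) h1 (hle.trans hN')]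
          exact toN_mono hW1.le
        · intro he
          apply hW1.ne
          rw [he, toW_toN hf]
      have h4 : toN L f W < N' := by
        refine lt_of_le_of_ne ?_ ?_
        · rw [← toN_toW (hk := hk) h1' hN']
          exact toN_mono hW2.le
        · intro he
          apply hW2.ne
          rw [← he, toW_toN hf]
      exact h.2 h3 h4
  · intro h
    refine ⟨lt_of_le_of_ne hle fun he => h.ne (by rw [he]), ?_⟩
    intro P hP1 hP2
    have hP : ∀ x : L, f x = 0 → (x : M) ∈ P := fun x hx => hP1.le (h1 x hx)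
    have h3 : toW hk L f N < toW hk L f P := by
      refine lt_of_le_of_ne (toW_mono hP1.le) fun he => hP1.ne ?_
      rw [← toN_toW (hk := hk) h1 (hle.trans hN'), he, toN_toW hP (hP2.le.trans hN')]
    have h4 : toW hk L f P < toW hk L f N' := by
      refine lt_of_le_of_ne (toW_mono hP2.le) fun he => hP2.ne ?_
      rw [← toN_toW (hk := hk) hP (hP2.le.trans hN'), he, toN_toW h1' hN']
    exact h.2 h3 h4

end cov

section lattice

open Submodule

variable {O : Type*} [CommRing O] [IsDomain O] [IsDiscreteValuationRing O]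
variable {F V : Type*} [Field F] [Algebra O F] [IsFractionRing O F] [AddCommGroup V] [Module F V]
  [Module O V] [IsScalarTower O F V]

theorem isLattice_dilS {a : O} (ha : a ≠ 0) {L : Submodule O V} (h : IsLattice F L) :
    IsLattice F (dilS F V ha L) where
  fg := h.fg.map _
  span_eq_top := by
    have h0 : algebraMap O F a ≠ 0 := by
      rw [Ne, map_eq_zero_iff _ (IsFractionRing.injective O F)]
      exact ha
    rw [eq_top_iff, ← h.span_eq_top, Submodule.span_le]
    intro x hx
    have h1 : a • x ∈ Submodule.span F (dilS F V ha L : Set V) :=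
      Submodule.subset_span ((mem_dilS ha).mpr ⟨x, hx, rfl⟩)
    have h2 : x = (algebraMap O F a)⁻¹ • (a • x) := by
      rw [← algebraMap_smul F a x, smul_smul, inv_mul_cancel₀ h0, one_smul]
    rw [SetLike.mem_coe, h2]
    exact Submodule.smul_mem _ _ h1

theorem isLattice_of_dilS {a : O} (ha : a ≠ 0) {L : Submodule O V}
    (h : IsLattice F (dilS F V ha L)) : IsLattice F L where
  fg := by
    have h1 : (dilS F V ha L).map ((dil F V ha).symm : V →ₗ[O] V) = L := by
      ext x
      rw [Submodule.mem_map]
      constructor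
      · rintro ⟨y, hy, rfl⟩
        obtain ⟨z, hz, rfl⟩ := (mem_dilS ha).mp hy
        have : (dil F V ha).symm (a • z) = z := (dil F V ha).symm_apply_apply z
        change (dil F V ha).symm (a • z) ∈ L
        rw [this]
        exact hz
      · intro hx
        exact ⟨a • x, (mem_dilS ha).mpr ⟨x, hx, rfl⟩, (dil F V ha).symm_apply_apply x⟩
    rw [← h1]
    exact h.fg.map _
  span_eq_top := by
    rw [eq_top_iff, ← h.span_eq_top]
    exact Submodule.span_mono (dilS_le ha L)

theorem isLattice_between {a : O} (ha : a ≠ 0) {L N : Submodule O V} (h : IsLattice F L)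
    (h1 : dilS F V ha L ≤ N) (h2 : N ≤ L) : IsLattice F N := by
  have h3 : IsNoetherian O L := inferInstance
  have h4 : N.FG := isNoetherian_submodule.mp h3 N h2
  have h5 := isLattice_dilS ha h
  exact IsLattice.of_le_of_isLattice_of_fg F h1 h4

end lattice

end Vale.Agent.P011.H974
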