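import Mathlib.Analysis.InnerProductSpace.Basic
import Mathlib.Algebra.BigOperators.Field
import Mathlib.Algebra.Order.BigOperators.Ring.Finset

/-!
The link inequality for a finite design, with values in an inner product space.

`X` and `Y` are finite sets with an incidence relation `I` such that every `x` is incident with
`r` elements of `Y` and any two different elements of `X` are incident with exactly `c` common
elements of `Y`.
-/

open Finset

namespace Vale.Agent.P011.H974

variable {X Y H : Type*} [Fintype X] [Fintype Y] [NormedAddCommGroup H] [InnerProductSpace ℝ H]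

/-- The incidence relation of a design: every `x` is incident with `r` elements `y`, two
different elements of `X` are incident with exactly `c` common elements `y`. -/
structure Design (I : X → Y → Prop) [∀ x y, Decidable (I x y)] (r c : ℕ) : Prop where
  hr : ∀ x, #{y | I x y} = r
  hc : ∀ x x', x ≠ x' → #{y | I x y ∧ I x' y} = c

variable {I : X → Y → Prop} [∀ x y, Decidable (I x y)] {r c s : ℕ}

/-- The sum of the squares of the sums over the blocks. -/
theorem Design.sum_block (hI : Design I r c) (u : X → H) (hu : ∑ x, u x = 0) :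
    ∑ y, ‖∑ x with I x y, u x‖ ^ 2 = ((r : ℝ) - c) * ∑ x, ‖u x‖ ^ 2 := by
  classical
  have h1 : ∀ y, ‖∑ x with I x y, u x‖ ^ 2 =
      ∑ x, ∑ x', if I x y ∧ I x' y then (inner ℝ (u x) (u x')) else 0 := by
    intro y
    rw [← real_inner_self_eq_norm_sq, sum_inner, Finset.sum_filter]
    refine Finset.sum_congr rfl fun x _ => ?_
    by_cases hx : I x y
    · rw [if_pos hx, inner_sum, Finset.sum_filter]
      refine Finset.sum_congr rfl fun x' _ => ?_
      by_cases hx' : I x' y
      · rw [if_pos hx', if_pos ⟨hx, hx'⟩]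
      · rw [if_neg hx', if_neg (fun h => hx' h.2)]
    · rw [if_neg hx]
      symm
      exact Finset.sum_eq_zero fun x' _ => if_neg (fun h => hx h.1)
  have h2 : ∀ x x', (∑ y, if I x y ∧ I x' y then (inner ℝ (u x) (u x')) else 0) =
      (#{y | I x y ∧ I x' y} : ℝ) * (inner ℝ (u x) (u x')) := by
    intro x x'
    rw [← Finset.sum_filter, Finset.sum_const, nsmul_eq_mul]
  have h3 : ∀ x, ∑ x', (#{y | I x y ∧ I x' y} : ℝ) * (inner ℝ (u x) (u x')) =
      ((r : ℝ) - c) * ‖u x‖ ^ 2 := by
    intro x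
    have h4 : ∀ x', (#{y | I x y ∧ I x' y} : ℝ) * (inner ℝ (u x) (u x')) =
        (if x' = x then ((r : ℝ) - c) * (inner ℝ (u x) (u x')) else 0) + c * (inner ℝ (u x) (u x')) := by
      intro x'
      by_cases hx : x' = x
      · subst hx
        have h5 : #{y | I x' y ∧ I x' y} = r := by
          simp only [and_self]
          exact hI.hr x'
        rw [h5, if_pos rfl]
        ring
      · rw [hI.hc x x' (Ne.symm hx), if_neg hx, zero_add]
    rw [Finset.sum_congr rfl fun x' _ => h4 x', Finset.sum_add_distrib, Finset.sum_ite_eq',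
      if_pos (Finset.mem_univ _), ← Finset.mul_sum, ← inner_sum, hu, inner_zero_right, mul_zero,
      add_zero, real_inner_self_eq_norm_sq]
  calc ∑ y, ‖∑ x with I x y, u x‖ ^ 2
      = ∑ y, ∑ x, ∑ x', (if I x y ∧ I x' y then (inner ℝ (u x) (u x')) else 0) :=
        Finset.sum_congr rfl fun y _ => h1 y
    _ = ∑ x, ∑ x', ∑ y, (if I x y ∧ I x' y then (inner ℝ (u x) (u x')) else 0) := by
        rw [Finset.sum_comm]
        refine Finset.sum_congr rfl fun x _ => ?_
        rw [Finset.sum_comm]
    _ = ∑ x, ((r : ℝ) - c) * ‖u x‖ ^ 2 := by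
        refine Finset.sum_congr rfl fun x _ => ?_
        rw [Finset.sum_congr rfl fun x' _ => h2 x x', h3]
    _ = _ := by rw [← Finset.mul_sum]

/-- The sum of the inner products over the flags. -/
theorem Design.sum_flag_sq (hI : Design I r c) (u : X → H) (v : Y → H)
    (hu : ∑ x, u x = 0) :
    (∑ x, ∑ y, if I x y then (inner ℝ (u x) (v y)) else 0) ^ 2 ≤
      ((r : ℝ) - c) * (∑ x, ‖u x‖ ^ 2) * ∑ y, ‖v y‖ ^ 2 := by
  have h1 : (∑ x, ∑ y, if I x y then (inner ℝ (u x) (v y)) else 0) =
      ∑ y, (inner ℝ (∑ x with I x y, u x) (v y)) := by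
    rw [Finset.sum_comm]
    refine Finset.sum_congr rfl fun y _ => ?_
    rw [sum_inner, Finset.sum_filter]
  have h2 : |∑ y, (inner ℝ (∑ x with I x y, u x) (v y))| ≤ ∑ y, ‖∑ x with I x y, u x‖ * ‖v y‖ :=
    (Finset.abs_sum_le_sum_abs _ _).trans
      (Finset.sum_le_sum fun y _ => abs_real_inner_le_norm _ _)
  have h3 : (∑ y, ‖∑ x with I x y, u x‖ * ‖v y‖) ^ 2 ≤
      (∑ y, ‖∑ x with I x y, u x‖ ^ 2) * ∑ y, ‖v y‖ ^ 2 :=
    Finset.sum_mul_sq_le_sq_mul_sq _ _ _
  rw [h1, ← sq_abs]
  calc |∑ y, (inner ℝ (∑ x with I x y, u x) (v y))| ^ 2 ≤ (∑ y, ‖∑ x with I x y, u x‖ * ‖v y‖) ^ 2 :=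
        pow_le_pow_left₀ (abs_nonneg _) h2 2
    _ ≤ _ := h3
    _ = _ := by rw [hI.sum_block u hu]

theorem sum_flag_fst {M : Type*} [AddCommMonoid M] (hr : ∀ x, #{y | I x y} = r) (f : X → M) :
    (∑ x, ∑ y, if I x y then f x else 0) = r • ∑ x, f x := by
  rw [Finset.smul_sum]
  refine Finset.sum_congr rfl fun x _ => ?_
  rw [← Finset.sum_filter, Finset.sum_const, hr]

theorem sum_flag_snd {M : Type*} [AddCommMonoid M] (hs : ∀ y, #{x | I x y} = s) (g : Y → M) :
    (∑ x, ∑ y, if I x y then g y else 0) = s • ∑ y, g y := by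
  rw [Finset.sum_comm, Finset.smul_sum]
  refine Finset.sum_congr rfl fun y _ => ?_
  rw [← Finset.sum_filter, Finset.sum_const, hs]

/-- **The link inequality.** For functions `u` on `X`, of sum zero, and `v` on `Y`, the square of
the sum of the inner products over the flags is at most `(r - c) / (r * s)` times the product of
the sums of the squares of the norms over the flags. -/
theorem Design.link (hI : Design I r c) (hs : ∀ y, #{x | I x y} = s) (hr0 : 0 < r) (hs0 : 0 < s)
    (u : X → H) (v : Y → H) (hu : ∑ x, u x = 0) :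
    (∑ x, ∑ y, if I x y then (inner ℝ (u x) (v y)) else 0) ^ 2 ≤
      (((r : ℝ) - c) / (r * s)) * (∑ x, ∑ y, if I x y then ‖u x‖ ^ 2 else 0) *
        (∑ x, ∑ y, if I x y then ‖v y‖ ^ 2 else 0) := by
  have h1 := hI.sum_flag_sq u v hu
  rw [sum_flag_fst hI.hr, sum_flag_snd hs, nsmul_eq_mul, nsmul_eq_mul]
  have h2 : (0 : ℝ) < r := by exact_mod_cast hr0
  have h3 : (0 : ℝ) < s := by exact_mod_cast hs0
  refine h1.trans (le_of_eq ?_)
  field_simp

end Vale.Agent.P011.H974
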