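import Vale.Agent.P011.H974.LocPt2

/-!
# The certificate
-/

open Module MvPolynomial

set_option linter.unusedSectionVars false

namespace Vale.Agent.P011.H974.Loc

open Vale.Agent.P011.H305 Vale.Agent.P011.H738
open Vale.Agent.P011.H974.Jac
open Vale.Agent.P011.H732D (Wi)
open Vale.Agent.P011.H872.FF (XaF)

section cert

variable {k K D : Type} [Field k] [Field K] [StarRing K] [DivisionRing D] [StarRing D]
  [Algebra k K] [Algebra k D] [Algebra K D] [IsScalarTower k K D] {d : kˣ} {s : K} {δ : kˣ} {I : D}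
  {N : ℕ}

/-- The equations of the unitary group. -/
noncomputable def EE (B : Basis (Fin N) k D) (i : Fin N) : MvPolynomial (Fin N) k :=
  (∑ l, ∑ l', X l * X l' * C (B.repr (B l * star (B l')) i)) - C (B.repr 1 i)

/-- The value. -/
noncomputable def PP (B : Basis (Fin N) k D) (I y : D) : MvPolynomial (Fin N) k :=
  (∑ l, (X l : MvPolynomial (Fin N) k) •
    (Algebra.leftMulMatrix B (Lam k I y (B l))).map C).det

theorem hom_EE {F : Type} [CommRing F] (φ : MvPolynomial (Fin N) k →+* F)
    (B : Basis (Fin N) k D) (i : Fin N) : φ (EE B i) =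
      (∑ l, ∑ l', φ (X l) * φ (X l') * φ (C (B.repr (B l * star (B l')) i))) -
        φ (C (B.repr 1 i)) := by
  rw [EE, map_sub, map_sum]
  congr 1
  refine Finset.sum_congr rfl fun l _ => ?_
  rw [map_sum]
  exact Finset.sum_congr rfl fun l' _ => by rw [map_mul, map_mul]

theorem hom_PP {F : Type} [CommRing F] (φ : MvPolynomial (Fin N) k →+* F)
    (B : Basis (Fin N) k D) (y : D) : φ (PP B I y) =
      (∑ l, φ (X l) • (Algebra.leftMulMatrix B (Lam k I y (B l))).map (φ.comp C)).det := by
  rw [PP, RingHom.map_det, map_sum]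
  congr 1
  refine Finset.sum_congr rfl fun l _ => ?_
  ext i j
  simp [RingHom.mapMatrix_apply]

/-- **The certificate.** -/
theorem span_top [Infinite k] {m n : ℕ} (hS : SetF k K D d s) (hm : m ≠ 0)
    (hn : n = 2 * m) (hdeg : finrank K D = n ^ 2) (hs : star I = -I)
    (hI : I * I = algebraMap k D δ) {w : D} (hw0 : w ≠ 0)
    (hw : w * I = -(I * w)) (B : Basis (Fin N) k D) :
    Ideal.span ({a | ∃ i, a = EE B i} ∪ {a | ∃ y ∈ Wi I, 1 + y * y ≠ 0 ∧ a = PP B I y}) = ⊤ := by
  by_contra hne
  obtain ⟨M, hM, hle⟩ := Ideal.exists_le_maximal _ hne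
  let _ : Field (MvPolynomial (Fin N) k ⧸ M) := Ideal.Quotient.field M
  obtain ⟨φ, hφ⟩ : ∃ φ : MvPolynomial (Fin N) k →+* AlgebraicClosure (MvPolynomial (Fin N) k ⧸ M),
    φ = (algebraMap (MvPolynomial (Fin N) k ⧸ M) _).comp (Ideal.Quotient.mk M) := ⟨_, rfl⟩
  have h0 : ∀ a ∈ M, φ a = 0 := by
    intro a ha
    rw [hφ, RingHom.comp_apply, Ideal.Quotient.eq_zero_iff_mem.mpr ha, map_zero]
  let _ : Algebra k (AlgebraicClosure (MvPolynomial (Fin N) k ⧸ M)) := (φ.comp C).toAlgebra
  have := hS.rank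
  have : FiniteDimensional k K := Module.finite_of_finrank_pos (by rw [hS.rank]; norm_num)
  have := hS.cen
  have := hS.fin
  obtain ⟨τ, hτ⟩ : ∃ τ : K →+* AlgebraicClosure (MvPolynomial (Fin N) k ⧸ M),
      ∀ c : k, τ (algebraMap k K c) = φ (C c) :=
    ⟨(IsAlgClosed.lift (R := k) (S := K)
      (M := AlgebraicClosure (MvPolynomial (Fin N) k ⧸ M))).toRingHom, fun c =>
        (IsAlgClosed.lift (R := k) (S := K)
          (M := AlgebraicClosure (MvPolynomial (Fin N) k ⧸ M))).commutes c⟩
  let _ : Algebra K (AlgebraicClosure (MvPolynomial (Fin N) k ⧸ M)) := τ.toAlgebra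
  obtain ⟨g⟩ := Vale.Agent.P011S.exists_split (K := K) (D := D) hdeg
    (AlgebraicClosure (MvPolynomial (Fin N) k ⧸ M))
  obtain ⟨Ψ, hΨ⟩ : ∃ Ψ : D →+* Matrix (Fin n) (Fin n)
      (AlgebraicClosure (MvPolynomial (Fin N) k ⧸ M)),
      ∀ c : K, Ψ (algebraMap K D c) = algebraMap (AlgebraicClosure (MvPolynomial (Fin N) k ⧸ M))
        (Matrix (Fin n) (Fin n) (AlgebraicClosure (MvPolynomial (Fin N) k ⧸ M))) (τ c) :=
    ⟨(g : D →+* _), fun c => g.commutes c⟩
  obtain ⟨y, hy, hy1, hy2⟩ := exists_y_pt hS hm hn hdeg hs hI hΨ hw0 hw B (fun l => φ (X l))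
    (fun i => by
      have h1 := h0 _ (hle (Ideal.subset_span (Or.inl ⟨i, rfl⟩)))
      rw [hom_EE, sub_eq_zero] at h1
      simp only [hτ]
      exact h1)
  have h2 := h0 _ (hle (Ideal.subset_span (Or.inr ⟨y, hy, hy1, rfl⟩)))
  rw [hom_PP] at h2
  have h3 : τ.comp (algebraMap k K) = φ.comp C := RingHom.ext fun c => hτ c
  rw [h3] at hy2
  exact hy2 h2

end cert

/-! ### Places -/

section places

open Vale.Agent.P011.H271 Vale.Agent.P011.H698
open Vale.Agent.P011.H732D (Un)
open Vale.Agent.P011.H63.FB (LSF)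

variable {k K D : Type} [Field k] [Field K] [StarRing K] [DivisionRing D] [StarRing D]
  [Algebra k K] [Algebra k D] [Algebra K D] [IsScalarTower k K D] {d : kˣ} {s : K} {δ : kˣ} {I : D}
  {N : ℕ}

/-- The value of a polynomial with integral coefficients. -/
theorem abv_eval_le (v : Place k) {p : MvPolynomial (Fin N) k} (hp : ∀ μ, v.abv (p.coeff μ) ≤ 1)
    {x : Fin N → k} (hx : ∀ l, v.abv (x l) ≤ 1) : v.abv (eval x p) ≤ 1 := by
  classical
  rw [MvPolynomial.eval_eq]
  have h1 : ∀ (t : Finset (Fin N →₀ ℕ)), v.abv (∑ μ ∈ t, p.coeff μ * ∏ i ∈ μ.support,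
      x i ^ μ i) ≤ 1 := by
    intro t
    induction t using Finset.induction_on with
    | empty => rw [Finset.sum_empty, map_zero]; exact zero_le_one
    | insert a t ha ih =>
      rw [Finset.sum_insert ha]
      refine (v.nonarch _ _).trans (max_le ?_ ih)
      rw [map_mul, map_prod]
      refine mul_le_one₀ (hp a) (Finset.prod_nonneg fun i _ => v.abv.nonneg _) ?_
      refine Finset.prod_le_one (fun i _ => v.abv.nonneg _) fun i _ => ?_
      rw [map_pow]
      exact pow_le_one₀ (v.abv.nonneg _) (hx i)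
  exact h1 _

/-- A polynomial has integral coefficients at almost all places. -/
theorem finite_coeff [GFF k] (p : MvPolynomial (Fin N) k) :
    {v : Place k | ∃ μ, ¬ v.abv (p.coeff μ) ≤ 1}.Finite := by
  classical
  refine (((p.support).finite_toSet).biUnion (t := fun μ => {w : Place k | w.abv (p.coeff μ) ≠ 1})
    fun μ hμ => place_finite (by
      rw [Finset.mem_coe, MvPolynomial.mem_support_iff] at hμ
      exact hμ)).subset ?_
  rintro v ⟨μ, hμ⟩
  have h0 : p.coeff μ ≠ 0 := by
    intro h0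
    rw [h0, map_zero] at hμ
    exact hμ zero_le_one
  refine Set.mem_biUnion (x := μ) (by
    rw [Finset.mem_coe, MvPolynomial.mem_support_iff]
    exact h0) ?_
  exact fun h => hμ h.le

/-- A nonzero element is a unit at almost all places. -/
theorem finite_un [GFF k] (B : Basis (Fin N) k D) (x : D) :
    {v : Place k | ¬ Un B v x}.Finite := by
  refine ((finite_nonint B x).union (finite_nonint B x⁻¹)).subset fun v hv => ?_
  rw [Set.mem_ofPred_eq, Un, not_and_or] at hv
  exact hv

theorem repr_coords (hS : SetF k K D d s) (B : Basis (Fin N) k D) (x : D) (i : Fin N) :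
    eval (fun l => B.repr x l) (EE B i) = B.repr (x * star x - 1) i := by
  have h1 := hom_EE (MvPolynomial.eval fun l => B.repr x l) B i
  rw [h1]
  simp only [eval_X, eval_C]
  rw [map_sub, Finsupp.sub_apply]
  congr 1
  have h2 : x * star x = ∑ l, ∑ l', (B.repr x l * B.repr x l') • (B l * star (B l')) := by
    have h3 : star x = ∑ l, B.repr x l • star (B l) := by
      conv_lhs => rw [← B.sum_repr x]
      rw [star_sum]
      exact Finset.sum_congr rfl fun l _ => hS.star_smulk _ _
    rw [h3]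
    conv_lhs =>
      enter [1]
      rw [← B.sum_repr x]
    rw [Finset.sum_mul_sum]
    exact Finset.sum_congr rfl fun l _ => Finset.sum_congr rfl fun l' _ => smul_mul_smul_comm _ _ _ _
  rw [h2]
  simp only [map_sum, map_smul, Finsupp.smul_apply, Finsupp.finset_sum_apply, smul_eq_mul]

theorem eval_PP (B : Basis (Fin N) k D) (x y : D) :
    eval (fun l => B.repr x l) (PP B I y) =
      (Algebra.leftMulMatrix B (Lam k I y x)).det := by
  have h1 := hom_PP (I := I) (MvPolynomial.eval fun l => B.repr x l) B y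
  rw [h1]
  congr 1
  have h2 : Lam k I y x = ∑ l, B.repr x l • Lam k I y (B l) := by
    conv_lhs => rw [← B.sum_repr x]
    rw [map_sum]
    exact Finset.sum_congr rfl fun l _ => map_smul _ _ _
  rw [h2, map_sum]
  refine Finset.sum_congr rfl fun l _ => ?_
  rw [map_smul, eval_X]
  congr 1
  ext i j
  simp

end places

end Vale.Agent.P011.H974.Loc
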