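import Vale.Agent.P011.H974.Jac
import Vale.Agent.P011.H519.SpanCSA

/-!
# The geometric part of LOC

Stable range one for matrices over a field, corners, and polynomials in the coordinates of an
anticommuting element.
-/

open Module

set_option linter.unusedSectionVars false

namespace Vale.Agent.P011.H974.Loc

open Vale.Agent.P011.H974.Jac

section stable

variable {F : Type} [Field F] {m : ℕ}

/-- Every matrix is the product of an idempotent and an invertible matrix. -/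
theorem unit_regular (A : Matrix (Fin m) (Fin m) F) :
    ∃ ε u : Matrix (Fin m) (Fin m) F, ε * ε = ε ∧ u.det ≠ 0 ∧ A = ε * u := by
  classical
  obtain ⟨L, L', D, h⟩ := Matrix.Pivot.exists_list_transvec_mul_diagonal_mul_list_transvec A
  obtain ⟨P, hP⟩ : ∃ P, P = (L.map Matrix.TransvectionStruct.toMatrix).prod := ⟨_, rfl⟩
  obtain ⟨Q, hQ⟩ : ∃ Q, Q = (L'.map Matrix.TransvectionStruct.toMatrix).prod := ⟨_, rfl⟩
  have hPd : P.det = 1 := by rw [hP]; exact Matrix.TransvectionStruct.det_toMatrix_prod L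
  have hQd : Q.det = 1 := by rw [hQ]; exact Matrix.TransvectionStruct.det_toMatrix_prod L'
  rw [← hP, ← hQ] at h
  obtain ⟨E, hE⟩ : ∃ E : Matrix (Fin m) (Fin m) F,
    E = Matrix.diagonal fun i => if D i = 0 then 0 else 1 := ⟨_, rfl⟩
  obtain ⟨D', hD'⟩ : ∃ D' : Matrix (Fin m) (Fin m) F,
    D' = Matrix.diagonal fun i => if D i = 0 then 1 else D i := ⟨_, rfl⟩
  have hPP : P⁻¹ * P = 1 := Matrix.nonsing_inv_mul P (by rw [hPd]; exact isUnit_one)
  have hEE : E * E = E := by
    rw [hE, Matrix.diagonal_mul_diagonal]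
    congr 1
    funext i
    by_cases h0 : D i = 0
    · rw [if_pos h0, zero_mul]
    · rw [if_neg h0, one_mul]
  have hED : E * D' = Matrix.diagonal D := by
    rw [hE, hD', Matrix.diagonal_mul_diagonal]
    congr 1
    funext i
    by_cases h0 : D i = 0
    · rw [if_pos h0, zero_mul, h0]
    · rw [if_neg h0, if_neg h0, one_mul]
  refine ⟨P * E * P⁻¹, P * D' * Q, ?_, ?_, ?_⟩
  · calc P * E * P⁻¹ * (P * E * P⁻¹) = P * E * (P⁻¹ * P) * E * P⁻¹ := by
          simp only [Matrix.mul_assoc]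
      _ = P * (E * E) * P⁻¹ := by rw [hPP, Matrix.mul_one, Matrix.mul_assoc P E E]
      _ = _ := by rw [hEE]
  · rw [Matrix.det_mul, Matrix.det_mul, hPd, hQd, one_mul, mul_one, hD', Matrix.det_diagonal]
    refine Finset.prod_ne_zero_iff.mpr fun i _ => ?_
    by_cases h0 : D i = 0
    · rw [if_pos h0]
      exact one_ne_zero
    · rw [if_neg h0]
      exact h0
  · rw [h]
    calc P * Matrix.diagonal D * Q = P * (E * D') * Q := by rw [hED]
      _ = P * E * (P⁻¹ * P) * D' * Q := by rw [hPP]; simp only [Matrix.mul_assoc, Matrix.one_mul]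
      _ = _ := by simp only [Matrix.mul_assoc]

/-- **Stable range one.** -/
theorem stable (A B P Q : Matrix (Fin m) (Fin m) F) (h : A * P + B * Q = 1) :
    ∃ γ : Matrix (Fin m) (Fin m) F, (A + B * γ).det ≠ 0 := by
  obtain ⟨ε, u, hε, hu, hA⟩ := unit_regular A
  refine ⟨Q * (1 - ε) * u, ?_⟩
  have h1 : A + B * (Q * (1 - ε) * u) = (1 + ε * (-(u * P)) * (1 - ε)) * u := by
    have h2 : B * Q = 1 - A * P := by rw [← h]; abel
    have h3 : B * (Q * (1 - ε) * u) = (1 - ε) * u - A * P * (1 - ε) * u := by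
      rw [← Matrix.mul_assoc, ← Matrix.mul_assoc, h2, Matrix.sub_mul, Matrix.sub_mul,
        Matrix.one_mul]
    rw [h3, hA]
    noncomm_ring
  rw [h1, Matrix.det_mul, Matrix.det_one_add_mul_comm]
  have h4 : (1 - ε) * (ε * (-(u * P))) = 0 := by
    rw [← Matrix.mul_assoc, Matrix.sub_mul, Matrix.one_mul, hε, sub_self, Matrix.zero_mul]
  rw [h4, add_zero, Matrix.det_one, one_mul]
  exact hu

/-- The corner form. -/
theorem corner_stable {n : ℕ} (e X : Matrix (Fin n) (Fin n) F) (he : e * e = e) (hr : e.rank = m)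
    (hr' : (1 - e).rank = m) (h2 : (2 : F) ≠ 0) (hX : X.det ≠ 0) :
    ∃ Y : Matrix (Fin n) (Fin n) F, e * Y = 0 ∧ Y * e = Y ∧
      (e * ((2 : F) • (X * e) + (4 : F) • (X * Y)) + (1 - e)).det ≠ 0 := by
  have he' : (1 - e) * (1 - e) = 1 - e := by
    rw [Matrix.mul_sub, Matrix.mul_one, Matrix.sub_mul, Matrix.one_mul, he, sub_self, sub_zero]
  obtain ⟨P, P', h1, h3⟩ := idem_factor e he hr
  obtain ⟨R, R', h4, h5⟩ := idem_factor (1 - e) he' hr'
  have heP : e * P = P := by rw [← h3, Matrix.mul_assoc, h1, Matrix.mul_one]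
  have hPe : P' * e = P' := by rw [← h3, ← Matrix.mul_assoc, h1, Matrix.one_mul]
  have heR : (1 - e) * R = R := by rw [← h5, Matrix.mul_assoc, h4, Matrix.mul_one]
  have hPR : P' * R = 0 := by
    rw [← hPe, ← heR, Matrix.mul_assoc, ← Matrix.mul_assoc e, Matrix.mul_sub, Matrix.mul_one, he,
      sub_self, Matrix.zero_mul, Matrix.mul_zero]
  have hXu : IsUnit X.det := isUnit_iff_ne_zero.mpr hX
  have hXX : X * X⁻¹ = 1 := Matrix.mul_nonsing_inv X hXu
  have hsum : P * P' + R * R' = 1 := by rw [h3, h5]; abel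
  obtain ⟨γ, hγ⟩ := stable (P' * X * P) ((2 : F) • (P' * X * R)) (P' * X⁻¹ * P)
    ((2 : F)⁻¹ • (R' * X⁻¹ * P)) (by
      rw [Matrix.smul_mul, Matrix.mul_smul, smul_smul, mul_inv_cancel₀ h2, one_smul]
      calc P' * X * P * (P' * X⁻¹ * P) + P' * X * R * (R' * X⁻¹ * P) =
            P' * X * (P * P' + R * R') * X⁻¹ * P := by
            simp only [Matrix.mul_add, Matrix.add_mul, Matrix.mul_assoc]
        _ = P' * (X * X⁻¹) * P := by rw [hsum]; simp only [Matrix.mul_assoc, Matrix.one_mul]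
        _ = 1 := by rw [hXX, Matrix.mul_one, h1])
  refine ⟨R * γ * P', ?_, ?_, ?_⟩
  · rw [← h3, Matrix.mul_assoc, ← Matrix.mul_assoc P', ← Matrix.mul_assoc P', hPR,
      Matrix.zero_mul, Matrix.zero_mul, Matrix.mul_zero]
  · rw [Matrix.mul_assoc, hPe]
  · obtain ⟨M, hM⟩ : ∃ M, M = (2 : F) • (X * e) + (4 : F) • (X * (R * γ * P')) := ⟨_, rfl⟩
    rw [← hM]
    have h6 : e * M + (1 - e) = 1 + P * (P' * (M - 1)) := by
      rw [← Matrix.mul_assoc, h3, Matrix.mul_sub, Matrix.mul_one]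
      abel
    rw [h6, Matrix.det_one_add_mul_comm]
    have h7 : 1 + P' * (M - 1) * P = (2 : F) • (P' * X * P + (2 : F) • (P' * X * R) * γ) := by
      have h8 : P' * M * P = (2 : F) • (P' * X * P) + (4 : F) • (P' * X * R * γ) := by
        rw [hM, Matrix.mul_add, Matrix.add_mul, Matrix.mul_smul, Matrix.mul_smul, Matrix.smul_mul,
          Matrix.smul_mul]
        congr 2
        · rw [Matrix.mul_assoc, Matrix.mul_assoc, heP, Matrix.mul_assoc]
        · simp only [Matrix.mul_assoc]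
          rw [h1, Matrix.mul_one]
      rw [Matrix.mul_sub, Matrix.mul_one, Matrix.sub_mul, h1, h8, Matrix.smul_mul, smul_add,
        smul_smul]
      norm_num
    rw [h7, Matrix.det_smul]
    exact mul_ne_zero (pow_ne_zero _ h2) hγ

end stable

/-! ### Polynomials in the coordinates of the anticommuting element -/

section poly

variable {F : Type} [Field F] {n N : ℕ}

/-- The linear combination of a family. -/
def YY (w : Fin N → Matrix (Fin n) (Fin n) F) (c : Fin N → F) : Matrix (Fin n) (Fin n) F :=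
  ∑ l, c l • w l

theorem exists_poly (e M₀ M₁ e' : Matrix (Fin n) (Fin n) F)
    (w : Fin N → Matrix (Fin n) (Fin n) F) : ∃ p : MvPolynomial (Fin N) F, ∀ c,
      MvPolynomial.eval c p = (e * (M₀ * (1 + YY w c * YY w c) + M₁ * YY w c) + e').det := by
  obtain ⟨Y, hY⟩ : ∃ Y : Matrix (Fin n) (Fin n) (MvPolynomial (Fin N) F),
    Y = ∑ l, (MvPolynomial.X l : MvPolynomial (Fin N) F) • (w l).map MvPolynomial.C := ⟨_, rfl⟩
  refine ⟨((e.map MvPolynomial.C) * ((M₀.map MvPolynomial.C) * (1 + Y * Y) +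
    (M₁.map MvPolynomial.C) * Y) + e'.map MvPolynomial.C).det, fun c => ?_⟩
  have h1 : (MvPolynomial.eval c).mapMatrix Y = YY w c := by
    rw [hY, map_sum, YY]
    refine Finset.sum_congr rfl fun l _ => ?_
    ext i j
    simp [RingHom.mapMatrix_apply]
  have h2 : ∀ M : Matrix (Fin n) (Fin n) F,
      (MvPolynomial.eval c).mapMatrix (M.map MvPolynomial.C) = M := by
    intro M
    ext i j
    simp [RingHom.mapMatrix_apply]
  rw [RingHom.map_det]
  simp only [map_add, map_mul, map_one, h1, h2]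

/-- The idempotent of a square root. -/
def eW (J : Matrix (Fin n) (Fin n) F) (ω : F) : Matrix (Fin n) (Fin n) F :=
  (2 : F)⁻¹ • (1 + ω⁻¹ • J)

variable {J J' : Matrix (Fin n) (Fin n) F} {ω : F}

theorem eW_J (h2 : (2 : F) ≠ 0) (hω : ω ≠ 0) : J = ω • ((2 : F) • eW J ω - 1) := by
  rw [eW]
  match_scalars <;> field_simp <;> ring

theorem eW_idem (h2 : (2 : F) ≠ 0) (hω : ω ≠ 0) (hJ : J * J = (ω * ω) • 1) :
    eW J ω * eW J ω = eW J ω := by
  have h1 : eW J ω * eW J ω = ((2 : F)⁻¹ * (2 : F)⁻¹) • (1 + (2 * ω⁻¹) • J +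
      (ω⁻¹ * ω⁻¹) • (J * J)) := by
    rw [eW, smul_mul_smul_comm]
    congr 1
    rw [mul_add, add_mul, add_mul, one_mul, mul_one, one_mul, smul_mul_smul_comm]
    module
  rw [h1, hJ, eW]
  match_scalars <;> field_simp
  ring

theorem eW_neg : eW J (-ω) = (2 : F)⁻¹ • (1 - ω⁻¹ • J) := by
  rw [eW, inv_neg, neg_smul, ← sub_eq_add_neg]

theorem eW_compl (h2 : (2 : F) ≠ 0) : eW J (-ω) = 1 - eW J ω := by
  rw [eW_neg, eW]
  match_scalars
  · field_simp
    norm_num
  · ring

theorem eW_anti (h2 : (2 : F) ≠ 0) {Y : Matrix (Fin n) (Fin n) F} (hY : Y * J = -(J * Y)) :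
    Y * eW J ω = (1 - eW J ω) * Y := by
  rw [← eW_compl h2, eW_neg, eW, Matrix.mul_smul, Matrix.smul_mul, Matrix.mul_add, Matrix.sub_mul,
    Matrix.mul_one, Matrix.one_mul, Matrix.mul_smul, Matrix.smul_mul, hY, smul_neg, sub_eq_add_neg]

/-- The product which is made invertible. -/
def ZZ (J J' X Y : Matrix (Fin n) (Fin n) F) : Matrix (Fin n) (Fin n) F :=
  (X + J * X * J') * (1 + Y * Y) + (2 : F) • ((X - J * X * J') * Y)

theorem eW_J' (h2 : (2 : F) ≠ 0) (hω : ω ≠ 0) (hJJ : J * J' = 1) (hJ : J * J = (ω * ω) • 1) :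
    J' = ω⁻¹ • ((2 : F) • eW J ω - 1) := by
  have h1 : J * (J * J') = (ω * ω) • J' := by
    rw [← Matrix.mul_assoc, hJ, Matrix.smul_mul, Matrix.one_mul]
  rw [hJJ, Matrix.mul_one] at h1
  have h3 : J' = (ω * ω)⁻¹ • J := by
    rw [h1, smul_smul, inv_mul_cancel₀ (mul_ne_zero hω hω), one_smul]
  conv_lhs => rw [h3, eW_J (J := J) h2 hω]
  rw [smul_smul]
  congr 1
  field_simp

/-- The conjugate by `J` in terms of the idempotent. -/
theorem conj_J (h2 : (2 : F) ≠ 0) (hω : ω ≠ 0) (hJJ : J * J' = 1) (hJ : J * J = (ω * ω) • 1)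
    (X : Matrix (Fin n) (Fin n) F) :
    J * X * J' = ((2 : F) • eW J ω - 1) * X * ((2 : F) • eW J ω - 1) := by
  conv_lhs => rw [eW_J' h2 hω hJJ hJ]
  conv_lhs =>
    enter [1, 1]
    rw [eW_J (J := J) h2 hω]
  rw [Matrix.smul_mul, Matrix.smul_mul, Matrix.mul_smul, smul_smul, mul_inv_cancel₀ hω, one_smul]

/-- The corner of the product for a corner element. -/
theorem corner_ZZ (h2 : (2 : F) ≠ 0) (hω : ω ≠ 0) (hJJ : J * J' = 1)
    (hJ : J * J = (ω * ω) • 1) (X : Matrix (Fin n) (Fin n) F) {Y : Matrix (Fin n) (Fin n) F}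
    (h0 : eW J ω * Y = 0) (h1 : Y * eW J ω = Y) :
    eW J ω * ((X + J * X * J') * (1 + Y * Y) + ((2 : F) • (X - J * X * J')) * Y) =
      eW J ω * ((2 : F) • (X * eW J ω) + (4 : F) • (X * Y)) := by
  have he := eW_idem h2 hω hJ
  rw [conj_J h2 hω hJJ hJ]
  obtain ⟨e, hee⟩ : ∃ e, e = eW J ω := ⟨_, rfl⟩
  rw [← hee] at he h0 h1 ⊢
  have hYY : Y * Y = 0 := by
    calc Y * Y = Y * e * Y := by rw [h1]
      _ = Y * (e * Y) := Matrix.mul_assoc _ _ _
      _ = 0 := by rw [h0, Matrix.mul_zero]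
  obtain ⟨g, hge⟩ : ∃ g, g = (2 : F) • e - 1 := ⟨_, rfl⟩
  have hg : e * g = e := by
    rw [hge, Matrix.mul_sub, Matrix.mul_smul, he, Matrix.mul_one]
    match_scalars
    norm_num
  have hgY : g * Y = -Y := by
    rw [hge, Matrix.sub_mul, Matrix.smul_mul, h0, smul_zero, Matrix.one_mul, zero_sub]
  have h1g : 1 + g = e + e := by
    rw [hge, two_smul]
    abel
  have t2 : ∀ M : Matrix (Fin n) (Fin n) F, (2 : F) • M = M + M := two_smul F
  have t4 : ∀ M : Matrix (Fin n) (Fin n) F, (4 : F) • M = (M + M) + (M + M) := by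
    intro M
    rw [← t2, ← t2, smul_smul]
    norm_num
  rw [← hge, hYY, t2, t2, t4]
  calc e * ((X + g * X * g) * (1 + 0) + (X - g * X * g + (X - g * X * g)) * Y) =
        e * X + (e * g) * X * g + (e * X * Y - (e * g) * X * (g * Y)) +
          (e * X * Y - (e * g) * X * (g * Y)) := by noncomm_ring
    _ = e * X * (1 + g) + (e * X * Y + e * X * Y + (e * X * Y + e * X * Y)) := by
        rw [hg, hgY]
        noncomm_ring
    _ = e * (X * e + X * e + (X * Y + X * Y + (X * Y + X * Y))) := by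
        rw [h1g]
        noncomm_ring

/-- The product commutes with the idempotent, so its determinant is the product of the
determinants of the corners. -/
theorem det_ZZ (h2 : (2 : F) ≠ 0) (hω : ω ≠ 0) (hJJ : J * J' = 1)
    (hJ : J * J = (ω * ω) • 1) (X : Matrix (Fin n) (Fin n) F) {Y : Matrix (Fin n) (Fin n) F}
    (hY : Y * J = -(J * Y)) :
    (ZZ J J' X Y).det = (eW J ω * ((X + J * X * J') * (1 + Y * Y) +
      ((2 : F) • (X - J * X * J')) * Y) + (1 - eW J ω)).det * (eW J (-ω) *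
      ((X + J * X * J') * (1 + Y * Y) + ((2 : F) • (X - J * X * J')) * Y) +
      (1 - eW J (-ω))).det := by
  have he := eW_idem h2 hω hJ
  have hYe := eW_anti (ω := ω) h2 hY
  rw [eW_compl h2, sub_sub_cancel, ← Matrix.det_mul]
  have hZ : ZZ J J' X Y = (X + J * X * J') * (1 + Y * Y) +
      ((2 : F) • (X - J * X * J')) * Y := by rw [ZZ, Matrix.smul_mul]
  rw [← hZ]
  have hc : eW J ω * ZZ J J' X Y = ZZ J J' X Y * eW J ω := by
    rw [ZZ, conj_J h2 hω hJJ hJ]
    obtain ⟨e, hee⟩ : ∃ e, e = eW J ω := ⟨_, rfl⟩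
    rw [← hee] at he hYe ⊢
    obtain ⟨g, hg⟩ : ∃ g, g = (2 : F) • e - 1 := ⟨_, rfl⟩
    have hgg : g * g = 1 := by
      rw [hg, Matrix.mul_sub, Matrix.mul_one, Matrix.sub_mul, Matrix.one_mul, Matrix.smul_mul,
        Matrix.mul_smul, he]
      match_scalars <;> ring
    have hYg : Y * g = -(g * Y) := by
      rw [hg, Matrix.mul_sub, Matrix.mul_one, Matrix.mul_smul, hYe, Matrix.sub_mul, Matrix.sub_mul,
        Matrix.one_mul, Matrix.smul_mul]
      module
    have heg : e = (2 : F)⁻¹ • (1 + g) := by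
      rw [hg]
      match_scalars <;> field_simp <;> ring
    have h3 : g * ((X + g * X * g) * (1 + Y * Y) + (2 : F) • ((X - g * X * g) * Y)) =
        ((X + g * X * g) * (1 + Y * Y) + (2 : F) • ((X - g * X * g) * Y)) * g := by
      have h4 : g * (X + g * X * g) = (X + g * X * g) * g := by
        calc g * (X + g * X * g) = g * X + (g * g) * X * g := by noncomm_ring
          _ = g * X * (g * g) + X * g := by rw [hgg]; noncomm_ring
          _ = _ := by noncomm_ring
      have h5 : g * (X - g * X * g) = -((X - g * X * g) * g) := by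
        calc g * (X - g * X * g) = g * X - (g * g) * X * g := by noncomm_ring
          _ = g * X * (g * g) - X * g := by rw [hgg]; noncomm_ring
          _ = _ := by noncomm_ring
      have h6 : g * (Y * Y) = Y * Y * g := by
        calc g * (Y * Y) = (g * Y) * Y := by noncomm_ring
          _ = -(Y * g) * Y := by rw [hYg, neg_neg]
          _ = -(Y * (g * Y)) := by noncomm_ring
          _ = Y * (Y * g) := by rw [hYg]; noncomm_ring
          _ = _ := by noncomm_ring
      have h7 : g * (1 + Y * Y) = (1 + Y * Y) * g := by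
        rw [Matrix.mul_add, h6, Matrix.add_mul, Matrix.mul_one, Matrix.one_mul]
      obtain ⟨A₀, hA₀⟩ : ∃ A₀, A₀ = X + g * X * g := ⟨_, rfl⟩
      obtain ⟨A₁, hA₁⟩ : ∃ A₁, A₁ = X - g * X * g := ⟨_, rfl⟩
      obtain ⟨U, hU⟩ : ∃ U, U = 1 + Y * Y := ⟨_, rfl⟩
      rw [← hA₀] at h4 ⊢
      rw [← hA₁] at h5 ⊢
      rw [← hU] at h7 ⊢
      rw [two_smul]
      calc g * (A₀ * U + (A₁ * Y + A₁ * Y)) = (g * A₀) * U + ((g * A₁) * Y + (g * A₁) * Y) := by
            noncomm_ring
        _ = A₀ * (g * U) + (-(A₁ * (g * Y)) + -(A₁ * (g * Y))) := by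
            rw [h4, h5]
            noncomm_ring
        _ = A₀ * (U * g) + (A₁ * (Y * g) + A₁ * (Y * g)) := by
            rw [h7, hYg]
            noncomm_ring
        _ = _ := by noncomm_ring
    rw [← hg]
    obtain ⟨M, hM⟩ : ∃ M, M = (X + g * X * g) * (1 + Y * Y) +
      (2 : F) • ((X - g * X * g) * Y) := ⟨_, rfl⟩
    rw [← hM] at h3 ⊢
    rw [heg, Matrix.smul_mul, Matrix.mul_smul, Matrix.add_mul, Matrix.mul_add, h3, Matrix.one_mul,
      Matrix.mul_one]
  obtain ⟨Z, hZe⟩ : ∃ Z, Z = ZZ J J' X Y := ⟨_, rfl⟩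
  rw [← hZe] at hc ⊢
  congr 1
  obtain ⟨e, hee⟩ : ∃ e, e = eW J ω := ⟨_, rfl⟩
  rw [← hee] at he hc ⊢
  symm
  calc (e * Z + (1 - e)) * ((1 - e) * Z + e) =
        e * Z * Z - (e * Z) * e * Z + (e * Z) * e + Z - e * Z - e * Z + e * e * Z + e - e * e := by
        noncomm_ring
    _ = Z := by
      have h8 : e * Z * e = e * Z := by rw [Matrix.mul_assoc, ← hc, ← Matrix.mul_assoc, he]
      rw [h8, he]
      abel

/-- **The polynomial** whose nonzero values give invertible products. -/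
theorem exists_polyZ {m : ℕ} (h2 : (2 : F) ≠ 0) (hω : ω ≠ 0) (hJJ : J * J' = 1)
    (hJ : J * J = (ω * ω) • 1) (hr : (eW J ω).rank = m) (hr' : (eW J (-ω)).rank = m)
    {X : Matrix (Fin n) (Fin n) F} (hX : X.det ≠ 0) (w : Fin N → Matrix (Fin n) (Fin n) F)
    (hw : ∀ l, w l * J = -(J * w l))
    (hspan : ∀ Y : Matrix (Fin n) (Fin n) F, Y * J = -(J * Y) →
      Y ∈ Submodule.span F (Set.range w)) :
    ∃ p : MvPolynomial (Fin N) F, p ≠ 0 ∧ ∀ c, MvPolynomial.eval c p ≠ 0 →
      (ZZ J J' X (YY w c)).det ≠ 0 ∧ (1 + YY w c * YY w c).det ≠ 0 := by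
  have hYJ : ∀ c, YY w c * J = -(J * YY w c) := by
    intro c
    rw [YY, Finset.sum_mul, Finset.mul_sum, ← Finset.sum_neg_distrib]
    refine Finset.sum_congr rfl fun l _ => ?_
    rw [Matrix.smul_mul, hw, Matrix.mul_smul, smul_neg]
  -- the nonvanishing of one corner polynomial
  have key : ∀ ω : F, ω ≠ 0 → J * J = (ω * ω) • 1 → (eW J ω).rank = m →
      (eW J (-ω)).rank = m → ∃ p : MvPolynomial (Fin N) F, p ≠ 0 ∧ ∀ c,
        MvPolynomial.eval c p = (eW J ω * ((X + J * X * J') * (1 + YY w c * YY w c) +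
          ((2 : F) • (X - J * X * J')) * YY w c) + (1 - eW J ω)).det := by
    intro ω hω hJ hr hr'
    obtain ⟨p, hp⟩ := exists_poly (eW J ω) (X + J * X * J') ((2 : F) • (X - J * X * J'))
      (1 - eW J ω) w
    refine ⟨p, ?_, hp⟩
    rintro rfl
    obtain ⟨Y, h0, h1, h3⟩ := corner_stable (eW J ω) X (eW_idem h2 hω hJ) hr
      (by rw [← eW_compl h2]; exact hr') h2 hX
    have hYJ' : Y * J = -(J * Y) := by
      rw [eW_J (J := J) h2 hω, Matrix.mul_smul, Matrix.smul_mul, Matrix.mul_sub, Matrix.sub_mul,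
        Matrix.mul_smul, Matrix.smul_mul, h0, h1, Matrix.mul_one, Matrix.one_mul]
      match_scalars
      ring
    obtain ⟨c, hc⟩ := (Submodule.mem_span_range_iff_exists_fun F).mp (hspan Y hYJ')
    have h4 := hp c
    have hc' : YY w c = Y := hc
    rw [map_zero, hc', corner_ZZ h2 hω hJJ hJ X h0 h1] at h4
    exact h3 h4.symm
  obtain ⟨p1, hp1, hp1'⟩ := key ω hω hJ hr hr'
  obtain ⟨p2, hp2, hp2'⟩ := key (-ω) (neg_ne_zero.mpr hω) (by rw [neg_mul_neg]; exact hJ) hr'
    (by rw [neg_neg]; exact hr)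
  obtain ⟨p3, hp3'⟩ := exists_poly (1 : Matrix (Fin n) (Fin n) F) 1 0 0 w
  have hp3'' : ∀ c, MvPolynomial.eval c p3 = (1 + YY w c * YY w c).det := by
    intro c
    rw [hp3', Matrix.one_mul, Matrix.one_mul, Matrix.zero_mul, add_zero, add_zero]
  have hp3 : p3 ≠ 0 := by
    rintro rfl
    have h4 := hp3'' 0
    have h5 : YY w 0 = 0 := by
      rw [YY]
      exact Finset.sum_eq_zero fun l _ => zero_smul _ _
    rw [map_zero, h5, Matrix.zero_mul, add_zero, Matrix.det_one] at h4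
    exact zero_ne_one h4
  refine ⟨p1 * p2 * p3, mul_ne_zero (mul_ne_zero hp1 hp2) hp3, fun c hc => ?_⟩
  rw [map_mul, map_mul] at hc
  refine ⟨?_, ?_⟩
  · rw [det_ZZ h2 hω hJJ hJ X (hYJ c), ← hp1', ← hp2']
    exact left_ne_zero_of_mul hc
  · rw [← hp3'']
    exact right_ne_zero_of_mul hc

end poly

end Vale.Agent.P011.H974.Loc
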