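import Vale.Agent.P011.H974.LocW

/-!
# The value at a point over an algebraically closed field
-/

open Module

set_option linter.unusedSectionVars false

namespace Vale.Agent.P011.H974.Loc

open Vale.Agent.P011.H305 Vale.Agent.P011.H738
open Vale.Agent.P011.H974.Jac
open Vale.Agent.P011.H732D (Wi)
open Vale.Agent.P011.H872.FF (XaF)

section pt

variable {k K D : Type} [Field k] [Field K] [StarRing K] [DivisionRing D] [StarRing D]
  [Algebra k K] [Algebra k D] [Algebra K D] [IsScalarTower k K D] {d : kˣ} {s : K} {δ : kˣ} {I : D}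

/-- The product which is made invertible, as a linear map. -/
def Lam (k : Type) {D : Type} [Field k] [DivisionRing D] [Algebra k D] (I y : D) : D →ₗ[k] D where
  toFun z := (z + I * z * I⁻¹) * (1 + y * y) + 2 * ((z - I * z * I⁻¹) * y)
  map_add' a b := by noncomm_ring
  map_smul' c a := by
    rw [RingHom.id_apply, mul_smul_comm, smul_mul_assoc, ← smul_add, ← smul_sub, smul_mul_assoc,
      smul_mul_assoc, mul_smul_comm, ← smul_add]

theorem Lam_apply (y z : D) :
    Lam k I y z = (z + I * z * I⁻¹) * (1 + y * y) + 2 * ((z - I * z * I⁻¹) * y) := rfl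

variable {F : Type} [Field F] {n N : ℕ} {τ : K →+* F} {Ψ : D →+* Matrix (Fin n) (Fin n) F}

theorem Psi_Lam (y z : D) :
    Ψ (Lam k I y z) = ZZ (Ψ I) (Ψ I⁻¹) (Ψ z) (Ψ y) := by
  rw [Lam_apply, ZZ]
  simp only [map_add, map_mul, map_sub, map_one, map_ofNat]
  rw [Algebra.smul_def (2 : F), map_ofNat]

theorem ZZ_sum {ι : Type*} (J J' Y : Matrix (Fin n) (Fin n) F) (t : Finset ι)
    (c : ι → F) (M : ι → Matrix (Fin n) (Fin n) F) :
    ZZ J J' (∑ l ∈ t, c l • M l) Y = ∑ l ∈ t, c l • ZZ J J' (M l) Y := by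
  classical
  have h0 : ZZ J J' 0 Y = 0 := by
    rw [ZZ, mul_zero, zero_mul, sub_zero, add_zero, zero_mul, zero_mul, smul_zero, add_zero]
  have h1 : ∀ (a : F) (A A' : Matrix (Fin n) (Fin n) F),
      ZZ J J' (a • A + A') Y = a • ZZ J J' A Y + ZZ J J' A' Y := by
    intro a A A'
    simp only [ZZ, mul_add, add_mul, mul_smul_comm, smul_mul_assoc, sub_mul, smul_add, smul_sub,
      mul_one]
    simp only [smul_comm (2 : F) a]
    abel
  induction t using Finset.induction_on with
  | empty => rw [Finset.sum_empty, Finset.sum_empty, h0]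
  | insert a t ha ih => rw [Finset.sum_insert ha, Finset.sum_insert ha, h1, ih]

/-- The second homomorphism. -/
def PsiS (Ψ : D →+* Matrix (Fin n) (Fin n) F) : D →+* Matrix (Fin n) (Fin n) F where
  toFun y := (Ψ (star y)).transpose
  map_one' := by rw [star_one, map_one, Matrix.transpose_one]
  map_mul' y z := by rw [star_mul, map_mul, Matrix.transpose_mul]
  map_zero' := by rw [star_zero, map_zero, Matrix.transpose_zero]
  map_add' y z := by rw [star_add, map_add, Matrix.transpose_add]

theorem PsiS_scalar (hS : SetF k K D d s)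
    (hΨ : ∀ c : K, Ψ (algebraMap K D c) = algebraMap F _ (τ c)) (c : K) :
    PsiS Ψ (algebraMap K D c) = algebraMap F _ ((τ.comp (starRingEnd K)) c) := by
  change (Ψ (star (algebraMap K D c))).transpose = _
  rw [Vale.Agent.P011.H167.Cn.star_algK hS, hΨ, Matrix.algebraMap_eq_diagonal,
    Matrix.diagonal_transpose, ← Matrix.algebraMap_eq_diagonal]
  rfl

/-- The images of the basis under the two homomorphisms are linearly independent. -/
theorem linInd (hS : SetF k K D d s) (hn : finrank K D = n ^ 2) (hn0 : n ≠ 0)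
    (hΨ : ∀ c : K, Ψ (algebraMap K D c) = algebraMap F _ (τ c)) (B : Basis (Fin N) k D)
    (v : Fin N → F) (h1 : ∑ l, v l • Ψ (B l) = 0) (h2 : ∑ l, v l • PsiS Ψ (B l) = 0) :
    v = 0 := by
  have := hS.cen
  have h2K : (2 : K) ≠ 0 := by
    rw [← map_ofNat (algebraMap k K) 2]
    exact (_root_.map_ne_zero _).mpr hS.two_ne
  let τ' : Bool → K →+* F := fun b => if b then τ else τ.comp (starRingEnd K)
  let Ψ' : Bool → D →+* Matrix (Fin n) (Fin n) F := fun b => if b then Ψ else PsiS Ψ
  have hne : τ ≠ τ.comp (starRingEnd K) := by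
    intro h
    have h3 := DFunLike.congr_fun h s
    rw [RingHom.comp_apply, starRingEnd_apply, hS.star_s, map_neg] at h3
    have h4 : τ (2 * s) = 0 := by
      rw [map_mul, map_ofNat, two_mul]
      nth_rewrite 2 [h3]
      exact add_neg_cancel _
    exact mul_ne_zero h2K hS.s_ne ((_root_.map_eq_zero τ).mp h4)
  have hτ' : Function.Injective τ' := by
    intro a b hab
    cases a <;> cases b
    · rfl
    · exact absurd hab.symm hne
    · exact absurd hab hne
    · rfl
  have hf : ∀ t (c : K), Ψ' t (algebraMap K D c) = algebraMap F _ (τ' t c) := by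
    intro t c
    cases t
    · exact PsiS_scalar hS hΨ c
    · exact hΨ c
  have htop := H519.span_pi_eq_top hn hn0 hτ' Ψ' hf
  have hk : ∀ c : k, τ (star (algebraMap k K c)) = τ (algebraMap k K c) := fun c => by
    rw [hS.star_algebraMap]
  have h3 : ∀ (x : D) (b : Bool), Ψ' b x = ∑ l, τ (algebraMap k K (B.repr x l)) • Ψ' b (B l) := by
    intro x b
    cases b
    · change PsiS Ψ x = ∑ l, _ • PsiS Ψ (B l)
      rw [Psi_sum (PsiS_scalar hS hΨ) B x]
      refine Finset.sum_congr rfl fun l _ => ?_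
      rw [RingHom.comp_apply, starRingEnd_apply, hk]
    · exact Psi_sum hΨ B x
  have h4 : (⊤ : Submodule F (Bool → Matrix (Fin n) (Fin n) F)) ≤
      Submodule.span F (Set.range fun (l : Fin N) (b : Bool) => Ψ' b (B l)) := by
    rw [← htop, Submodule.span_le]
    rintro _ ⟨x, rfl⟩
    have h5 : (fun t => Ψ' t x) =
        ∑ l, τ (algebraMap k K (B.repr x l)) • fun b => Ψ' b (B l) := by
      funext b
      rw [Finset.sum_apply, h3]
      rfl
    change (fun t => Ψ' t x) ∈ _
    rw [h5]
    exact Submodule.sum_mem _ fun l _ => Submodule.smul_mem _ _ (Submodule.subset_span ⟨l, rfl⟩)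
  have hN : N = 2 * n ^ 2 := by
    have h5 := Module.finrank_mul_finrank k K D
    rw [hS.rank, hn] at h5
    rw [h5, Module.finrank_eq_card_basis B, Fintype.card_fin]
  have hli : LinearIndependent F fun (l : Fin N) (b : Bool) => Ψ' b (B l) := by
    refine linearIndependent_of_top_le_span_of_card_eq_finrank h4 ?_
    rw [Fintype.card_fin, Module.finrank_pi_fintype, Finset.sum_const, Finset.card_univ,
      Fintype.card_bool, Module.finrank_matrix, Fintype.card_fin, Module.finrank_self, hN]
    ring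
  have h6 := Fintype.linearIndependent_iff.mp hli v (by
    funext b
    rw [Finset.sum_apply]
    cases b
    · exact h2
    · exact h1)
  exact funext h6

/-- The determinant of the multiplication. -/
theorem det_mul_ne (hS : SetF k K D d s) (hn : finrank K D = n ^ 2) (hn0 : n ≠ 0)
    (hΨ : ∀ c : K, Ψ (algebraMap K D c) = algebraMap F _ (τ c)) (B : Basis (Fin N) k D)
    (Λ : Fin N → D) (x : Fin N → F)
    (h1 : (∑ l, x l • Ψ (Λ l)).det ≠ 0) (h2 : (∑ l, x l • PsiS Ψ (Λ l)).det ≠ 0) :
    (∑ l, x l • (Algebra.leftMulMatrix B (Λ l)).map (τ.comp (algebraMap k K))).det ≠ 0 := by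
  intro h0
  obtain ⟨v, hv0, hv⟩ := Matrix.exists_mulVec_eq_zero_iff.mpr h0
  have key : ∀ (τ₁ : K →+* F) (Ψ₁ : D →+* Matrix (Fin n) (Fin n) F),
      (∀ c : K, Ψ₁ (algebraMap K D c) = algebraMap F _ (τ₁ c)) →
      (∀ c : k, τ₁ (algebraMap k K c) = τ (algebraMap k K c)) →
      (∑ l, x l • Ψ₁ (Λ l)).det ≠ 0 → ∑ l, v l • Ψ₁ (B l) = 0 := by
    intro τ₁ Ψ₁ hΨ₁ hk hd
    have h3 : (∑ l, x l • Ψ₁ (Λ l)) * ∑ j, v j • Ψ₁ (B j) = 0 := by
      have h4 : ∀ j, (∑ l, x l • Ψ₁ (Λ l)) * Ψ₁ (B j) = ∑ i,
          (∑ l, x l • (Algebra.leftMulMatrix B (Λ l)).map (τ.comp (algebraMap k K))) i j •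
            Ψ₁ (B i) := by
        intro j
        rw [Finset.sum_mul]
        calc ∑ l, x l • Ψ₁ (Λ l) * Ψ₁ (B j) = ∑ l, ∑ i, (x l *
              τ (algebraMap k K (Algebra.leftMulMatrix B (Λ l) i j))) • Ψ₁ (B i) := by
              refine Finset.sum_congr rfl fun l _ => ?_
              rw [smul_mul_assoc, ← map_mul, Psi_sum hΨ₁ B (Λ l * B j), Finset.smul_sum]
              refine Finset.sum_congr rfl fun i _ => ?_
              rw [smul_smul, hk, Algebra.leftMulMatrix_eq_repr_mul]
          _ = ∑ i, ∑ l, (x l *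
              τ (algebraMap k K (Algebra.leftMulMatrix B (Λ l) i j))) • Ψ₁ (B i) :=
              Finset.sum_comm
          _ = _ := by
              refine Finset.sum_congr rfl fun i _ => ?_
              rw [Matrix.sum_apply, Finset.sum_smul]
              rfl
      calc _ = ∑ j, v j • ((∑ l, x l • Ψ₁ (Λ l)) * Ψ₁ (B j)) := by
            rw [Finset.mul_sum]
            exact Finset.sum_congr rfl fun j _ => mul_smul_comm _ _ _
        _ = ∑ j, ∑ i, (v j * (∑ l, x l •
            (Algebra.leftMulMatrix B (Λ l)).map (τ.comp (algebraMap k K))) i j) • Ψ₁ (B i) := by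
            refine Finset.sum_congr rfl fun j _ => ?_
            rw [h4, Finset.smul_sum]
            exact Finset.sum_congr rfl fun i _ => smul_smul _ _ _
        _ = ∑ i, ∑ j, (v j * (∑ l, x l •
            (Algebra.leftMulMatrix B (Λ l)).map (τ.comp (algebraMap k K))) i j) • Ψ₁ (B i) :=
            Finset.sum_comm
        _ = 0 := by
            refine Finset.sum_eq_zero fun i _ => ?_
            rw [← Finset.sum_smul]
            have h5 := congrFun hv i
            rw [Matrix.mulVec, dotProduct, Pi.zero_apply] at h5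
            rw [show (∑ j, v j * (∑ l, x l •
              (Algebra.leftMulMatrix B (Λ l)).map (τ.comp (algebraMap k K))) i j) = 0 by
                rw [← h5]
                exact Finset.sum_congr rfl fun j _ => mul_comm _ _, zero_smul]
    have hu : IsUnit (∑ l, x l • Ψ₁ (Λ l)).det := isUnit_iff_ne_zero.mpr hd
    calc ∑ l, v l • Ψ₁ (B l) = (∑ l, x l • Ψ₁ (Λ l))⁻¹ * ((∑ l, x l • Ψ₁ (Λ l)) *
          ∑ l, v l • Ψ₁ (B l)) := by rw [← mul_assoc, Matrix.nonsing_inv_mul _ hu, one_mul]
      _ = 0 := by rw [h3, mul_zero]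
  refine hv0 (linInd hS hn hn0 hΨ B v (key τ Ψ hΨ (fun _ => rfl) h1)
    (key _ (PsiS Ψ) (PsiS_scalar hS hΨ) (fun c => ?_) h2))
  rw [RingHom.comp_apply, starRingEnd_apply, hS.star_algebraMap]

end pt

end Vale.Agent.P011.H974.Loc
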