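import Vale.Agent.P011.H974.LocPt

/-!
# The existence of the anticommuting element at a point over an algebraically closed field
-/

open Module

set_option linter.unusedSectionVars false

namespace Vale.Agent.P011.H974.Loc

open Vale.Agent.P011.H305 Vale.Agent.P011.H738
open Vale.Agent.P011.H974.Jac
open Vale.Agent.P011.H732D (Wi)
open Vale.Agent.P011.H872.FF (XaF)

section pt

variable {k K D : Type} [Field k] [Field K] [StarRing K] [DivisionRing D] [StarRing D]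
  [Algebra k K] [Algebra k D] [Algebra K D] [IsScalarTower k K D] {d : kˣ} {s : K} {δ : kˣ} {I : D}

variable {F : Type} [Field F] {n N : ℕ} {τ : K →+* F} {Ψ : D →+* Matrix (Fin n) (Fin n) F}

/-- The images of `I`. -/
theorem Psi_I (hI : I * I = algebraMap k D δ)
    (hΨ : ∀ c : K, Ψ (algebraMap K D c) = algebraMap F _ (τ c)) {ω : F}
    (hω : ω * ω = τ (algebraMap k K δ)) : Ψ I * Ψ I = (ω * ω) • 1 := by
  rw [← map_mul, hI, IsScalarTower.algebraMap_apply k K D, hΨ, hω, Algebra.algebraMap_eq_smul_one]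

theorem Psi_II (hI : I * I = algebraMap k D δ) : Ψ I * Ψ I⁻¹ = 1 := by
  rw [← map_mul, mul_inv_cancel₀ (I_ne hI), map_one]

/-- The rank of the idempotent. -/
theorem rank_eW {m : ℕ} (h2 : (2 : F) ≠ 0) (hn : n = 2 * m) (hI : I * I = algebraMap k D δ)
    (hΨ : ∀ c : K, Ψ (algebraMap K D c) = algebraMap F _ (τ c)) {ω : F} (hω0 : ω ≠ 0)
    (hω : ω * ω = τ (algebraMap k K δ)) {w : D} (hw0 : w ≠ 0) (hw : w * I = -(I * w)) :
    (eW (Ψ I) ω).rank = m := by
  have h1 := rank_idem _ (eW_idem h2 hω0 (Psi_I hI hΨ hω))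
  have hu : IsUnit (Ψ w) := (hw0.isUnit).map Ψ
  have hu' : IsUnit (Ψ w).det := (Matrix.isUnit_iff_isUnit_det _).mp hu
  have hw' : Ψ w * Ψ I = -(Ψ I * Ψ w) := by rw [← map_mul, hw, map_neg, map_mul]
  have h3 := congrArg Matrix.rank (eW_anti (ω := ω) h2 hw')
  rw [Matrix.rank_mul_eq_right_of_isUnit_det _ _ hu',
    Matrix.rank_mul_eq_left_of_isUnit_det _ _ hu'] at h3
  omega

/-- The polynomial of one homomorphism. -/
theorem exists_polyD {m : ℕ} (hS : SetF k K D d s) (hm : m ≠ 0) (hn : n = 2 * m)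
    (hdeg : finrank K D = n ^ 2) (hs : star I = -I) (hI : I * I = algebraMap k D δ)
    (hΨ : ∀ c : K, Ψ (algebraMap K D c) = algebraMap F _ (τ c)) {ω : F}
    (hω : ω * ω = τ (algebraMap k K δ)) {w : D} (hw0 : w ≠ 0) (hw : w * I = -(I * w))
    (B : Basis (Fin N) k D) {X : Matrix (Fin n) (Fin n) F} (hX : X.det ≠ 0) :
    ∃ p : MvPolynomial (Fin N) F, p ≠ 0 ∧ ∀ c, MvPolynomial.eval c p ≠ 0 →
      (ZZ (Ψ I) (Ψ I⁻¹) X (YY (fun l => Ψ (pw hS I (B l))) c)).det ≠ 0 ∧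
      (1 + YY (fun l => Ψ (pw hS I (B l))) c * YY (fun l => Ψ (pw hS I (B l))) c).det ≠ 0 := by
  have h2K : (2 : K) ≠ 0 := by
    rw [← map_ofNat (algebraMap k K) 2]
    exact (_root_.map_ne_zero _).mpr hS.two_ne
  have h2 : (2 : F) ≠ 0 := by
    rw [← map_ofNat τ 2]
    exact (_root_.map_ne_zero _).mpr h2K
  have hω0 : ω ≠ 0 := by
    rintro rfl
    rw [zero_mul] at hω
    exact (_root_.map_ne_zero τ).mpr ((_root_.map_ne_zero (algebraMap k K)).mpr δ.ne_zero) hω.symm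
  refine exists_polyZ (m := m) h2 hω0 (Psi_II hI) (Psi_I hI hΨ hω)
    (rank_eW h2 hn hI hΨ hω0 hω hw0 hw)
    (rank_eW h2 hn hI hΨ (neg_ne_zero.mpr hω0) (by rw [neg_mul_neg]; exact hω) hw0 hw) hX _
    (fun l => ?_) fun Y hY => span_anti hS hdeg (by omega) hs hI hΨ B hY
  rw [← map_mul, (pw_mem hS hs hI (B l)).2, map_neg, map_mul]

/-- **The element `y` at a point.** -/
theorem exists_y_pt [Infinite k] [IsAlgClosed F] {m : ℕ} (hS : SetF k K D d s) (hm : m ≠ 0)
    (hn : n = 2 * m) (hdeg : finrank K D = n ^ 2) (hs : star I = -I)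
    (hI : I * I = algebraMap k D δ)
    (hΨ : ∀ c : K, Ψ (algebraMap K D c) = algebraMap F _ (τ c)) {w : D} (hw0 : w ≠ 0)
    (hw : w * I = -(I * w)) (B : Basis (Fin N) k D) (x : Fin N → F)
    (hx : ∀ i, ∑ l, ∑ l', x l * x l' * τ (algebraMap k K (B.repr (B l * star (B l')) i)) =
      τ (algebraMap k K (B.repr 1 i))) :
    ∃ y ∈ Wi I, 1 + y * y ≠ 0 ∧
      (∑ l, x l • (Algebra.leftMulMatrix B (Lam k I y (B l))).map
        (τ.comp (algebraMap k K))).det ≠ 0 := by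
  obtain ⟨X, hX⟩ : ∃ X, X = ∑ l, x l • Ψ (B l) := ⟨_, rfl⟩
  obtain ⟨X', hX'⟩ : ∃ X', X' = ∑ l, x l • PsiS Ψ (B l) := ⟨_, rfl⟩
  have h1 : X * X'.transpose = 1 := by
    have h2 : X'.transpose = ∑ l, x l • Ψ (star (B l)) := by
      rw [hX', Matrix.transpose_sum]
      refine Finset.sum_congr rfl fun l _ => ?_
      rw [Matrix.transpose_smul]
      change _ • ((Ψ (star (B l))).transpose).transpose = _
      rw [Matrix.transpose_transpose]
    rw [h2, hX, Finset.sum_mul_sum]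
    calc ∑ l, ∑ l', (x l • Ψ (B l)) * (x l' • Ψ (star (B l'))) = ∑ l, ∑ l', ∑ i,
          (x l * x l' * τ (algebraMap k K (B.repr (B l * star (B l')) i))) • Ψ (B i) := by
          refine Finset.sum_congr rfl fun l _ => Finset.sum_congr rfl fun l' _ => ?_
          rw [smul_mul_smul_comm, ← map_mul, Psi_sum hΨ B (B l * star (B l')), Finset.smul_sum]
          exact Finset.sum_congr rfl fun i _ => smul_smul _ _ _
      _ = ∑ i, (∑ l, ∑ l', x l * x l' * τ (algebraMap k K (B.repr (B l * star (B l')) i))) •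
            Ψ (B i) := by
          simp only [Finset.sum_smul]
          calc _ = ∑ l, ∑ i, ∑ l', (x l * x l' *
                τ (algebraMap k K (B.repr (B l * star (B l')) i))) • Ψ (B i) :=
                Finset.sum_congr rfl fun l _ => Finset.sum_comm
            _ = _ := Finset.sum_comm
      _ = ∑ i, τ (algebraMap k K (B.repr 1 i)) • Ψ (B i) :=
          Finset.sum_congr rfl fun i _ => by rw [hx]
      _ = 1 := by rw [← Psi_sum hΨ B 1, map_one]
  have h2 := congrArg Matrix.det h1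
  rw [Matrix.det_mul, Matrix.det_transpose, Matrix.det_one] at h2
  have hXd : X.det ≠ 0 := left_ne_zero_of_mul_eq_one h2
  have hXd' : X'.det ≠ 0 := right_ne_zero_of_mul_eq_one h2
  obtain ⟨ω, hω⟩ := IsAlgClosed.exists_pow_nat_eq (τ (algebraMap k K δ)) (n := 2) two_pos
  rw [pow_two] at hω
  have hω' : ω * ω = (τ.comp (starRingEnd K)) (algebraMap k K δ) := by
    rw [RingHom.comp_apply, starRingEnd_apply, hS.star_algebraMap, hω]
  obtain ⟨p, hp, hp'⟩ := exists_polyD hS hm hn hdeg hs hI hΨ hω hw0 hw B hXd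
  obtain ⟨q, hq, hq'⟩ := exists_polyD hS hm hn hdeg hs hI (PsiS_scalar hS hΨ) hω' hw0 hw B hXd'
  obtain ⟨φ, hφ⟩ : ∃ φ : k →+* F, φ = τ.comp (algebraMap k K) := ⟨_, rfl⟩
  obtain ⟨c, hc⟩ : ∃ c : Fin N → k, MvPolynomial.eval (fun l => φ (c l)) (p * q) ≠ 0 := by
    by_contra hcon
    push Not at hcon
    refine mul_ne_zero hp hq (MvPolynomial.funext_set (fun _ => Set.range φ)
      (fun _ => Set.infinite_range_of_injective φ.injective) fun z hz => ?_)
    choose c hc using fun l => hz l (Set.mem_univ l)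
    rw [map_zero, ← hcon c]
    congr 2
    funext l
    exact (hc l).symm
  rw [map_mul] at hc
  have hyc : ∀ (τ₁ : K →+* F) (Ψ₁ : D →+* Matrix (Fin n) (Fin n) F),
      (∀ c : K, Ψ₁ (algebraMap K D c) = algebraMap F _ (τ₁ c)) →
      (∀ c : k, τ₁ (algebraMap k K c) = φ c) →
      YY (fun l => Ψ₁ (pw hS I (B l))) (fun l => φ (c l)) = Ψ₁ (pw hS I (∑ l, c l • B l)) := by
    intro τ₁ Ψ₁ hΨ₁ hk
    rw [map_sum, map_sum, YY]
    refine Finset.sum_congr rfl fun l _ => ?_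
    rw [map_smul, Psi_smulk hΨ₁, hk]
  have hy1 := hyc τ Ψ hΨ (fun c => by rw [hφ]; rfl)
  have hy2 := hyc _ (PsiS Ψ) (PsiS_scalar hS hΨ) (fun c => by
    rw [RingHom.comp_apply, starRingEnd_apply, hS.star_algebraMap, hφ]
    rfl)
  obtain ⟨h3, h4⟩ := hp' _ (left_ne_zero_of_mul hc)
  obtain ⟨h5, -⟩ := hq' _ (right_ne_zero_of_mul hc)
  rw [hy1] at h3 h4
  rw [hy2] at h5
  refine ⟨pw hS I (∑ l, c l • B l), pw_mem hS hs hI _, fun h0 => ?_, ?_⟩
  · rw [← map_mul, ← map_one Ψ, ← map_add, h0, map_zero] at h4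
    have : Nonempty (Fin n) := ⟨⟨0, by omega⟩⟩
    exact h4 (Matrix.det_zero)
  · refine det_mul_ne hS hdeg (by omega) hΨ B _ x ?_ ?_
    · have h6 : ∑ l, x l • Ψ (Lam k I (pw hS I (∑ l, c l • B l)) (B l)) =
          ZZ (Ψ I) (Ψ I⁻¹) X (Ψ (pw hS I (∑ l, c l • B l))) := by
        rw [hX, ZZ_sum]
        exact Finset.sum_congr rfl fun l _ => by rw [Psi_Lam]
      rw [h6]
      exact h3
    · have h6 : ∑ l, x l • PsiS Ψ (Lam k I (pw hS I (∑ l, c l • B l)) (B l)) =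
          ZZ (PsiS Ψ I) (PsiS Ψ I⁻¹) X' (PsiS Ψ (pw hS I (∑ l, c l • B l))) := by
        rw [hX', ZZ_sum]
        exact Finset.sum_congr rfl fun l _ => by rw [Psi_Lam]
      rw [h6]
      exact h5

end pt

end Vale.Agent.P011.H974.Loc
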