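import Vale.Agent.P011.H974.LocGeo
import Vale.Agent.P011.H732D.Spec

/-!
# The anticommuting antisymmetric elements, and their images in matrix algebras
-/

open Module

set_option linter.unusedSectionVars false

namespace Vale.Agent.P011.H974.Loc

open Vale.Agent.P011.H305 Vale.Agent.P011.H738
open Vale.Agent.P011.H974.Jac
open Vale.Agent.P011.H732D (Wi)
open Vale.Agent.P011.H872.FF (XaF)

section alg

variable {k K D : Type} [Field k] [Field K] [StarRing K] [DivisionRing D] [StarRing D]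
  [Algebra k K] [Algebra k D] [Algebra K D] [IsScalarTower k K D] {d : kˣ} {s : K} {δ : kˣ} {I : D}

/-- The projection on the anticommuting antisymmetric elements. -/
def pw (hS : SetF k K D d s) (I : D) : D →ₗ[k] D where
  toFun z := (z - I * z * I⁻¹) - star (z - I * z * I⁻¹)
  map_add' x y := by
    rw [mul_add, add_mul, star_sub, star_sub, star_sub, star_add, star_add]
    abel
  map_smul' c x := by
    rw [RingHom.id_apply, mul_smul_comm, smul_mul_assoc, ← smul_sub, hS.star_smulk, ← smul_sub]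

theorem pw_apply (hS : SetF k K D d s) (z : D) :
    pw hS I z = (z - I * z * I⁻¹) - star (z - I * z * I⁻¹) := rfl

theorem I_ne (hI : I * I = algebraMap k D δ) : I ≠ 0 := by
  rintro rfl
  rw [mul_zero] at hI
  exact (_root_.map_ne_zero (algebraMap k D)).mpr δ.ne_zero hI.symm

theorem anti_of (hI : I * I = algebraMap k D δ) (z : D) :
    (z - I * z * I⁻¹) * I = -(I * (z - I * z * I⁻¹)) := by
  have hI0 := I_ne hI
  have h1 : I * (I * z * I⁻¹) = z * I := by
    calc I * (I * z * I⁻¹) = (I * I) * z * I⁻¹ := by simp only [mul_assoc]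
      _ = z * (I * I) * I⁻¹ := by rw [hI, Algebra.commutes]
      _ = z * I := by rw [mul_assoc, mul_assoc, mul_inv_cancel₀ hI0, mul_one]
  rw [sub_mul, inv_mul_cancel_right₀ hI0, mul_sub, h1, neg_sub]

theorem anti_star (hs : star I = -I) {u : D} (hu : u * I = -(I * u)) :
    star u * I = -(I * star u) := by
  have h1 := congrArg star hu
  rw [star_mul, star_neg, star_mul, hs, neg_mul, mul_neg, neg_neg] at h1
  exact h1.symm

theorem pw_mem (hS : SetF k K D d s) (hs : star I = -I) (hI : I * I = algebraMap k D δ) (z : D) :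
    pw hS I z ∈ Wi I := by
  have h1 := anti_of hI z
  refine ⟨?_, ?_⟩
  · rw [pw_apply, star_sub, star_star, neg_sub]
  · rw [pw_apply, sub_mul, mul_sub, h1, anti_star hs h1]
    abel

theorem pw_of_mem (hS : SetF k K D d s) (hI : I * I = algebraMap k D δ) {w : D} (hw : w ∈ Wi I) :
    pw hS I w = 4 * w := by
  have hI0 := I_ne hI
  have h1 : I * w * I⁻¹ = -w := by
    have h2 : I * w = -(w * I) := by rw [hw.2, neg_neg]
    rw [h2, neg_mul, mul_inv_cancel_right₀ hI0]
  rw [pw_apply, h1, sub_neg_eq_add, star_add, hw.1]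
  have e : (4 : D) = 1 + 1 + 1 + 1 := by norm_num
  rw [e]
  noncomm_ring

/-! ### Images in a matrix algebra -/

variable {F : Type} [Field F] {n N : ℕ} {τ : K →+* F} {Ψ : D →+* Matrix (Fin n) (Fin n) F}

theorem Psi_smul (hΨ : ∀ c : K, Ψ (algebraMap K D c) = algebraMap F _ (τ c)) (c : K) (x : D) :
    Ψ (algebraMap K D c * x) = τ c • Ψ x := by
  rw [map_mul, hΨ, ← Algebra.smul_def]

theorem Psi_smulk (hΨ : ∀ c : K, Ψ (algebraMap K D c) = algebraMap F _ (τ c)) (c : k) (x : D) :
    Ψ (c • x) = τ (algebraMap k K c) • Ψ x := by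
  rw [Algebra.smul_def, IsScalarTower.algebraMap_apply k K D, Psi_smul hΨ]

theorem Psi_sum (hΨ : ∀ c : K, Ψ (algebraMap K D c) = algebraMap F _ (τ c))
    (B : Basis (Fin N) k D) (x : D) :
    Ψ x = ∑ l, τ (algebraMap k K (B.repr x l)) • Ψ (B l) := by
  conv_lhs => rw [← B.sum_repr x]
  rw [map_sum]
  exact Finset.sum_congr rfl fun l _ => Psi_smulk hΨ _ _

/-- **The images of the anticommuting antisymmetric elements span.** -/
theorem span_anti (hS : SetF k K D d s) (hn : finrank K D = n ^ 2) (hn0 : n ≠ 0)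
    (hs : star I = -I) (hI : I * I = algebraMap k D δ)
    (hΨ : ∀ c : K, Ψ (algebraMap K D c) = algebraMap F _ (τ c)) (B : Basis (Fin N) k D)
    {Y : Matrix (Fin n) (Fin n) F} (hY : Y * Ψ I = -(Ψ I * Y)) :
    Y ∈ Submodule.span F (Set.range fun l => Ψ (pw hS I (B l))) := by
  have h2K : (2 : K) ≠ 0 := by
    rw [← map_ofNat (algebraMap k K) 2]
    exact (_root_.map_ne_zero _).mpr hS.two_ne
  have h2 : (2 : F) ≠ 0 := by
    rw [← map_ofNat τ 2]
    exact (_root_.map_ne_zero _).mpr h2K
  have hI0 := I_ne hI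
  have := hS.cen
  obtain ⟨S, hSe⟩ : ∃ S, S = Submodule.span F (Set.range fun l => Ψ (pw hS I (B l))) := ⟨_, rfl⟩
  rw [← hSe]
  have s1 : ∀ z : D, Ψ (pw hS I z) ∈ S := by
    intro z
    have h1 : pw hS I z = ∑ l, B.repr z l • pw hS I (B l) := by
      conv_lhs => rw [← B.sum_repr z]
      rw [map_sum]
      exact Finset.sum_congr rfl fun l _ => map_smul _ _ _
    rw [h1, map_sum]
    refine Submodule.sum_mem _ fun l _ => ?_
    rw [Psi_smulk hΨ, hSe]
    exact Submodule.smul_mem _ _ (Submodule.subset_span ⟨l, rfl⟩)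
  have s2 : ∀ w ∈ Wi I, Ψ w ∈ S := by
    intro w hw
    have h1 := s1 w
    rw [pw_of_mem hS hI hw, map_mul, map_ofNat] at h1
    have h4 : (4 : F) ≠ 0 := by
      have e : (4 : F) = 2 * 2 := by norm_num
      rw [e]
      exact mul_ne_zero h2 h2
    have h5 : Ψ w = (4 : F)⁻¹ • (4 * Ψ w) := by
      have e : (4 : Matrix (Fin n) (Fin n) F) * Ψ w = (4 : F) • Ψ w := by
        rw [Algebra.smul_def, map_ofNat]
      rw [e, smul_smul, inv_mul_cancel₀ h4, one_smul]
    rw [h5]
    exact Submodule.smul_mem _ _ h1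
  have s3 : ∀ u : D, u * I = -(I * u) → Ψ u ∈ S := by
    intro u hu
    have hu' := anti_star hs hu
    have h1 : Ψ (u - star u) ∈ S := s2 _ ⟨by rw [star_sub, star_star, neg_sub], by
      rw [sub_mul, mul_sub, hu, hu']
      abel⟩
    have h3 : Ψ (algebraMap K D s⁻¹ * (u + star u)) ∈ S := s2 _ ⟨by
      rw [star_mul, star_add, star_star, Vale.Agent.P011.H167.Cn.star_algK hS, star_inv₀, hS.star_s,
        inv_neg, map_neg, mul_neg, add_comm (star u), Algebra.commutes], by
      rw [mul_assoc, add_mul, hu, hu', ← mul_assoc I, ← Algebra.commutes s⁻¹ I, mul_assoc]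
      noncomm_ring⟩
    have h5 : Ψ (u + star u) ∈ S := by
      have h6 : u + star u = algebraMap K D s * (algebraMap K D s⁻¹ * (u + star u)) := by
        rw [← mul_assoc, ← map_mul, mul_inv_cancel₀ hS.s_ne, map_one, one_mul]
      rw [h6, Psi_smul hΨ]
      exact Submodule.smul_mem _ _ h3
    have h7 : Ψ u = (2 : F)⁻¹ • (Ψ (u - star u) + Ψ (u + star u)) := by
      rw [← map_add]
      have e : u - star u + (u + star u) = 2 * u := by noncomm_ring
      rw [e, map_mul, map_ofNat]
      have e : (2 : Matrix (Fin n) (Fin n) F) * Ψ u = (2 : F) • Ψ u := by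
        rw [Algebra.smul_def, map_ofNat]
      rw [e, smul_smul, inv_mul_cancel₀ h2, one_smul]
    rw [h7]
    exact Submodule.smul_mem _ _ (Submodule.add_mem _ h1 h5)
  -- the projection
  let L : Matrix (Fin n) (Fin n) F →ₗ[F] Matrix (Fin n) (Fin n) F :=
    LinearMap.id - (LinearMap.mulLeft F (Ψ I)).comp (LinearMap.mulRight F (Ψ I⁻¹))
  have hL : ∀ M, L M = M - Ψ I * (M * Ψ I⁻¹) := fun M => rfl
  have htop := H519.span_range_eq_top hn hn0 τ Ψ hΨ
  have h8 : L Y ∈ S := by
    have h9 : Y ∈ Submodule.span F (Set.range Ψ) := by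
      rw [htop]
      exact Submodule.mem_top
    have h10 : Submodule.span F (Set.range Ψ) ≤ S.comap L := by
      rw [Submodule.span_le]
      rintro _ ⟨z, rfl⟩
      change L (Ψ z) ∈ S
      rw [hL, ← map_mul, ← map_mul, ← map_sub, ← mul_assoc]
      exact s3 _ (anti_of hI z)
    exact h10 h9
  have h11 : L Y = (2 : F) • Y := by
    rw [hL, ← mul_assoc]
    have h12 : Ψ I * Y = -(Y * Ψ I) := by rw [hY, neg_neg]
    rw [h12, neg_mul, mul_assoc, ← map_mul, mul_inv_cancel₀ hI0, map_one, mul_one, sub_neg_eq_add,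
      two_smul]
  rw [h11] at h8
  have h13 := Submodule.smul_mem S (2 : F)⁻¹ h8
  rwa [smul_smul, inv_mul_cancel₀ h2, one_smul] at h13

end alg

end Vale.Agent.P011.H974.Loc
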