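import Vale.Agent.P011.H974.Link
import Mathlib.LinearAlgebra.Projectivization.Cardinality
import Mathlib.LinearAlgebra.Dual.Lemmas

/-!
The designs of points and lines, points and hyperplanes, hyperplanes and subspaces of
codimension two, in a finite vector space.
-/

open Module Finset

set_option linter.unusedSectionVars false
set_option linter.unusedVariables false

namespace Vale.Agent.P011.H974

/-- The number `1 + q + ... + q ^ (m - 1)`. -/
def theta (q m : ℕ) : ℕ := ∑ i ∈ Finset.range m, q ^ i

theorem theta_succ (q m : ℕ) : theta q (m + 1) = 1 + q * theta q m := by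
  rw [theta, Finset.sum_range_succ', pow_zero, add_comm, theta, Finset.mul_sum]
  congr 1
  exact Finset.sum_congr rfl fun i _ => by rw [pow_succ, mul_comm]

theorem theta_one (q : ℕ) : theta q 1 = 1 := by simp [theta]

theorem theta_two (q : ℕ) : theta q 2 = q + 1 := by
  simp [theta, Finset.sum_range_succ, add_comm]

theorem theta_pos (q : ℕ) {m : ℕ} (hm : 0 < m) : 0 < theta q m := by
  obtain ⟨m, rfl⟩ := Nat.exists_eq_succ_of_ne_zero hm.ne'
  rw [Nat.succ_eq_add_one, theta_succ]
  omega

section count

variable (k : Type*) {V : Type*} [Field k] [AddCommGroup V] [Module k V]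

/-- The subspaces of a subspace. -/
def subLeEquiv (P : ℕ → Prop) (W : Submodule k V) :
    {p : Submodule k W // P (finrank k p)} ≃
      {p : Submodule k V // P (finrank k p) ∧ p ≤ W} where
  toFun p := ⟨p.1.map W.subtype, by
    rw [Submodule.finrank_map_subtype_eq]; exact p.2, Submodule.map_subtype_le W p.1⟩
  invFun p := ⟨p.1.comap W.subtype, by
    rw [(Submodule.comapSubtypeEquivOfLe p.2.2).finrank_eq]; exact p.2.1⟩
  left_inv p := Subtype.ext (Submodule.comap_map_eq_of_injective W.injective_subtype p.1)
  right_inv p := Subtype.ext (by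
    change (p.1.comap W.subtype).map W.subtype = p.1
    rw [Submodule.map_comap_subtype]
    exact inf_eq_right.mpr p.2.2)

variable [FiniteDimensional k V]

theorem finrank_comap_mkQ (W : Submodule k V) (p : Submodule k (V ⧸ W)) :
    finrank k (p.comap W.mkQ) = finrank k p + finrank k W := by
  have h1 := Submodule.finrank_quotient_add_finrank (W.submoduleOf (p.comap W.mkQ))
  have h2 : finrank k (W.submoduleOf (p.comap W.mkQ)) = finrank k W :=
    (Submodule.submoduleOfEquivOfLe (by
      intro x hx
      rw [Submodule.mem_comap, Submodule.mkQ_apply, (Submodule.Quotient.mk_eq_zero W).mpr hx]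
      exact p.zero_mem)).finrank_eq
  have h3 : finrank k (↥(p.comap W.mkQ) ⧸ W.submoduleOf (p.comap W.mkQ)) = finrank k p := by
    let f : ↥(p.comap W.mkQ) →ₗ[k] p := W.mkQ.restrict (fun x hx => hx)
    have hf : Function.Surjective f := by
      rintro ⟨y, hy⟩
      obtain ⟨x, rfl⟩ := W.mkQ_surjective y
      exact ⟨⟨x, hy⟩, rfl⟩
    have hk : LinearMap.ker f = W.submoduleOf (p.comap W.mkQ) := by
      ext x
      rw [LinearMap.mem_ker, Submodule.submoduleOf, Submodule.mem_comap]
      constructor
      · intro h
        have h4 : W.mkQ (x : V) = 0 := congrArg Subtype.val h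
        rwa [Submodule.mkQ_apply, Submodule.Quotient.mk_eq_zero] at h4
      · intro h
        apply Subtype.ext
        change W.mkQ (x : V) = 0
        rwa [Submodule.mkQ_apply, Submodule.Quotient.mk_eq_zero]
    rw [← hk]
    exact (f.quotKerEquivOfSurjective hf).finrank_eq
  rw [h2, h3] at h1
  exact h1.symm

/-- The subspaces containing a subspace. -/
def subGeEquiv (P : ℕ → Prop) (W : Submodule k V) :
    {p : Submodule k (V ⧸ W) // P (finrank k p + finrank k W)} ≃
      {p : Submodule k V // P (finrank k p) ∧ W ≤ p} where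
  toFun p := ⟨p.1.comap W.mkQ, by rw [finrank_comap_mkQ]; exact p.2, by
    intro x hx
    rw [Submodule.mem_comap, Submodule.mkQ_apply, (Submodule.Quotient.mk_eq_zero W).mpr hx]
    exact p.1.zero_mem⟩
  invFun p := ⟨p.1.map W.mkQ, by
    rw [← finrank_comap_mkQ, Submodule.comap_map_mkQ, sup_eq_right.mpr p.2.2]
    exact p.2.1⟩
  left_inv p := Subtype.ext (Submodule.map_comap_eq_of_surjective W.mkQ_surjective p.1)
  right_inv p := Subtype.ext (by
    change (p.1.map W.mkQ).comap W.mkQ = p.1
    rw [Submodule.comap_map_mkQ, sup_eq_right.mpr p.2.2])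

theorem finrank_dualAnn (W : Submodule k V) :
    finrank k W.dualAnnihilator = finrank k V - finrank k W := by
  have h := Subspace.finrank_add_finrank_dualAnnihilator_eq W
  omega

theorem finrank_dualCoann (W : Submodule k (Dual k V)) :
    finrank k V - finrank k W.dualCoannihilator = finrank k W := by
  have h1 := finrank_dualAnn k W.dualCoannihilator
  rw [Subspace.dualCoannihilator_dualAnnihilator_eq] at h1
  exact h1.symm

/-- Duality. -/
def subDualEquiv (P : ℕ → Prop) :
    {p : Submodule k V // P (finrank k V - finrank k p)} ≃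
      {p : Submodule k (Dual k V) // P (finrank k p)} where
  toFun p := ⟨p.1.dualAnnihilator, by rw [finrank_dualAnn]; exact p.2⟩
  invFun p := ⟨p.1.dualCoannihilator, by rw [finrank_dualCoann]; exact p.2⟩
  left_inv p := Subtype.ext Subspace.dualAnnihilator_dualCoannihilator_eq
  right_inv p := Subtype.ext Subspace.dualCoannihilator_dualAnnihilator_eq

variable [Finite k]

theorem card_points : Nat.card {p : Submodule k V // finrank k p = 1} =
    theta (Nat.card k) (finrank k V) := by
  rw [← Nat.card_congr (Projectivization.equivSubmodule k V),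
    Projectivization.card_of_finrank k V rfl, theta]

/-- The points of a subspace. -/
theorem card_points_le (W : Submodule k V) :
    Nat.card {p : Submodule k V // finrank k p = 1 ∧ p ≤ W} =
      theta (Nat.card k) (finrank k W) := by
  rw [← card_points k (V := W)]
  exact (Nat.card_congr (subLeEquiv k (fun m => m = 1) W)).symm

/-- The hyperplanes. -/
theorem card_hyp (h0 : 0 < finrank k V) :
    Nat.card {p : Submodule k V // finrank k p + 1 = finrank k V} =
      theta (Nat.card k) (finrank k V) := by
  rw [← Subspace.dual_finrank_eq (K := k) (V := V), ← card_points k (V := Dual k V),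
    ← Nat.card_congr (subDualEquiv k (fun m => m = 1)), Subspace.dual_finrank_eq]
  refine Nat.card_congr (Equiv.subtypeEquivRight fun p => ?_)
  have := Submodule.finrank_le p
  omega

/-- The hyperplanes of a subspace. -/
theorem card_cov_le (W : Submodule k V) (h0 : 0 < finrank k W) :
    Nat.card {p : Submodule k V // finrank k p + 1 = finrank k W ∧ p ≤ W} =
      theta (Nat.card k) (finrank k W) := by
  rw [← card_hyp k (V := W) h0]
  exact (Nat.card_congr (subLeEquiv k (fun m => m + 1 = finrank k W) W)).symm

theorem finrank_quot (W : Submodule k V) : finrank k (V ⧸ W) = finrank k V - finrank k W := by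
  have := Submodule.finrank_quotient_add_finrank W
  omega

/-- The subspaces covering a subspace. -/
theorem card_cov_ge (W : Submodule k V) :
    Nat.card {p : Submodule k V // finrank k p = finrank k W + 1 ∧ W ≤ p} =
      theta (Nat.card k) (finrank k V - finrank k W) := by
  rw [← finrank_quot, ← card_points k (V := V ⧸ W),
    ← Nat.card_congr (subGeEquiv k (fun m => m = finrank k W + 1) W)]
  exact Nat.card_congr (Equiv.subtypeEquivRight fun p => by omega)

/-- The hyperplanes containing a subspace. -/
theorem card_hyp_ge (W : Submodule k V) (hW : finrank k W < finrank k V) :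
    Nat.card {p : Submodule k V // finrank k p + 1 = finrank k V ∧ W ≤ p} =
      theta (Nat.card k) (finrank k V - finrank k W) := by
  have h0 := finrank_quot k W
  rw [← h0, ← card_hyp k (V := V ⧸ W) (by omega),
    ← Nat.card_congr (subGeEquiv k (fun m => m + 1 = finrank k V) W)]
  exact Nat.card_congr (Equiv.subtypeEquivRight fun p => by omega)

end count

section design

variable (k V : Type*) [Field k] [AddCommGroup V] [Module k V] [FiniteDimensional k V] [Finite k]

/-- The points, the lines, the hyperplanes and the subspaces of codimension two. -/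
abbrev Pts := {p : Submodule k V // finrank k p = 1}
abbrev Lns := {p : Submodule k V // finrank k p = 2}
abbrev Hyps := {p : Submodule k V // finrank k p + 1 = finrank k V}
abbrev Cod2 := {p : Submodule k V // finrank k p + 2 = finrank k V}

variable {k V}

theorem card_filter_eq {α : Type*} [Fintype α] (P : α → Prop) [DecidablePred P] :
    #{a | P a} = Nat.card {a // P a} := by
  rw [Nat.card_eq_fintype_card, Fintype.card_subtype]

theorem finrank_sup_points {p p' : Submodule k V} (hp : finrank k p = 1)
    (hp' : finrank k p' = 1) (hne : p ≠ p') : finrank k ↥(p ⊔ p') = 2 := by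
  have h1 := Submodule.finrank_sup_add_finrank_inf_eq p p'
  have h2 : finrank k ↥(p ⊓ p') = 0 := by
    by_contra h
    have h3 : finrank k ↥(p ⊓ p') ≤ finrank k p := Submodule.finrank_mono inf_le_left
    have h4 : p ⊓ p' = p := Submodule.eq_of_le_of_finrank_eq inf_le_left (by omega)
    have h5 : p ⊓ p' = p' := Submodule.eq_of_le_of_finrank_eq inf_le_right (by omega)
    exact hne (h4.symm.trans h5)
  omega

theorem finrank_inf_hyps {h h' : Submodule k V} (hh : finrank k h + 1 = finrank k V)
    (hh' : finrank k h' + 1 = finrank k V) (hne : h ≠ h') :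
    finrank k ↥(h ⊓ h') + 2 = finrank k V := by
  have h1 := Submodule.finrank_sup_add_finrank_inf_eq h h'
  have h2 : finrank k ↥(h ⊔ h') = finrank k V := by
    by_contra hc
    have h3 : finrank k ↥(h ⊔ h') ≤ finrank k V := Submodule.finrank_le _
    have h4 : finrank k h ≤ finrank k ↥(h ⊔ h') := Submodule.finrank_mono le_sup_left
    have h5 : h = h ⊔ h' := Submodule.eq_of_le_of_finrank_eq le_sup_left (by omega)
    have h6 : h' = h ⊔ h' := Submodule.eq_of_le_of_finrank_eq le_sup_right (by omega)
    exact hne (h5.trans h6.symm)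
  omega

/-- Points and lines. -/
theorem design_pl [Fintype (Pts k V)] [Fintype (Lns k V)]
    [∀ (x : Pts k V) (y : Lns k V), Decidable (x.1 ≤ y.1)] :
    Design (fun (x : Pts k V) (y : Lns k V) => x.1 ≤ y.1)
      (theta (Nat.card k) (finrank k V - 1)) 1 where
  hr x := by
    rw [card_filter_eq]
    have h1 := card_cov_ge k x.1
    rw [x.2] at h1
    rw [← h1]
    exact Nat.card_congr (Equiv.subtypeSubtypeEquivSubtypeInter _ _)
  hc x x' hne := by
    have h1 := finrank_sup_points x.2 x'.2 (fun h => hne (Subtype.ext h))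
    rw [Finset.card_eq_one]
    refine ⟨⟨x.1 ⊔ x'.1, h1⟩, ?_⟩
    ext y
    rw [Finset.mem_filter, Finset.mem_singleton]
    constructor
    · rintro ⟨-, h2, h3⟩
      have h4 : x.1 ⊔ x'.1 = y.1 :=
        Submodule.eq_of_le_of_finrank_eq (sup_le h2 h3) (by rw [h1, y.2])
      exact Subtype.ext h4.symm
    · rintro rfl
      exact ⟨Finset.mem_univ _, le_sup_left, le_sup_right⟩

theorem design_pl_s [Fintype (Pts k V)]
    (y : Lns k V) [∀ x : Pts k V, Decidable (x.1 ≤ y.1)] :
    #{x : Pts k V | x.1 ≤ y.1} = Nat.card k + 1 := by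
  rw [card_filter_eq, ← theta_two]
  have h1 := card_points_le k y.1
  rw [y.2] at h1
  rw [← h1]
  exact Nat.card_congr (Equiv.subtypeSubtypeEquivSubtypeInter _ (fun p : Submodule k V => p ≤ y.1))

/-- Points and hyperplanes. -/
theorem design_ph (hn : 3 ≤ finrank k V) [Fintype (Pts k V)] [Fintype (Hyps k V)]
    [∀ (x : Pts k V) (y : Hyps k V), Decidable (x.1 ≤ y.1)] :
    Design (fun (x : Pts k V) (y : Hyps k V) => x.1 ≤ y.1)
      (theta (Nat.card k) (finrank k V - 1)) (theta (Nat.card k) (finrank k V - 2)) where
  hr x := by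
    rw [card_filter_eq]
    have h1 := card_hyp_ge k x.1 (by rw [x.2]; omega)
    rw [x.2] at h1
    rw [← h1]
    exact Nat.card_congr (Equiv.subtypeSubtypeEquivSubtypeInter _ _)
  hc x x' hne := by
    have h1 := finrank_sup_points x.2 x'.2 (fun h => hne (Subtype.ext h))
    rw [card_filter_eq]
    have h2 := card_hyp_ge k (x.1 ⊔ x'.1) (by rw [h1]; omega)
    rw [h1] at h2
    rw [← h2]
    refine Nat.card_congr ((Equiv.subtypeEquivRight fun y => ?_).trans
      (Equiv.subtypeSubtypeEquivSubtypeInter _ (fun y : Submodule k V => x.1 ⊔ x'.1 ≤ y)))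
    exact sup_le_iff.symm

theorem design_ph_s [Fintype (Pts k V)] (y : Hyps k V)
    [∀ x : Pts k V, Decidable (x.1 ≤ y.1)] :
    #{x : Pts k V | x.1 ≤ y.1} = theta (Nat.card k) (finrank k V - 1) := by
  rw [card_filter_eq]
  have h1 := card_points_le k y.1
  have h2 : finrank k y.1 = finrank k V - 1 := by
    have := y.2
    omega
  rw [h2] at h1
  rw [← h1]
  exact Nat.card_congr (Equiv.subtypeSubtypeEquivSubtypeInter _ (fun p : Submodule k V => p ≤ y.1))

/-- Hyperplanes and subspaces of codimension two. -/
theorem design_hc (hn : 3 ≤ finrank k V) [Fintype (Hyps k V)] [Fintype (Cod2 k V)]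
    [∀ (x : Hyps k V) (y : Cod2 k V), Decidable (y.1 ≤ x.1)] :
    Design (fun (x : Hyps k V) (y : Cod2 k V) => y.1 ≤ x.1)
      (theta (Nat.card k) (finrank k V - 1)) 1 where
  hr x := by
    rw [card_filter_eq]
    have h2 : finrank k x.1 = finrank k V - 1 := by
      have := x.2
      omega
    have h1 := card_cov_le k x.1 (by omega)
    rw [h2] at h1
    rw [← h1]
    refine Nat.card_congr ((Equiv.subtypeSubtypeEquivSubtypeInter
      (fun y : Submodule k V => finrank k y + 2 = finrank k V)
      (fun y : Submodule k V => y ≤ x.1)).trans (Equiv.subtypeEquivRight fun y => ?_))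
    have := x.2
    constructor
    · rintro ⟨h3, h4⟩
      exact ⟨by omega, h4⟩
    · rintro ⟨h3, h4⟩
      exact ⟨by omega, h4⟩
  hc x x' hne := by
    have h1 := finrank_inf_hyps x.2 x'.2 (fun h => hne (Subtype.ext h))
    rw [Finset.card_eq_one]
    refine ⟨⟨x.1 ⊓ x'.1, h1⟩, ?_⟩
    ext y
    rw [Finset.mem_filter, Finset.mem_singleton]
    constructor
    · rintro ⟨-, h2, h3⟩
      have h4 : y.1 = x.1 ⊓ x'.1 :=
        Submodule.eq_of_le_of_finrank_eq (le_inf h2 h3) (by have := y.2; omega)
      exact Subtype.ext h4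
    · rintro rfl
      exact ⟨Finset.mem_univ _, inf_le_left, inf_le_right⟩

theorem design_hc_s (hn : 3 ≤ finrank k V) [Fintype (Hyps k V)] (y : Cod2 k V)
    [∀ x : Hyps k V, Decidable (y.1 ≤ x.1)] :
    #{x : Hyps k V | y.1 ≤ x.1} = Nat.card k + 1 := by
  rw [card_filter_eq, ← theta_two]
  have h0 := y.2
  have h1 := card_hyp_ge k y.1 (by omega)
  have h2 : finrank k V - finrank k y.1 = 2 := by omega
  rw [h2] at h1
  rw [← h1]
  exact Nat.card_congr (Equiv.subtypeSubtypeEquivSubtypeInter _ _)

end design

/-- The constants of the three designs. -/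
theorem lam_pl (q m : ℕ) (hm : 0 < m) :
    ((theta q m : ℝ) - 1) / (theta q m * ((q : ℝ) + 1)) ≤ 1 / ((q : ℝ) + 1) := by
  have h1 : (0 : ℝ) < theta q m := by exact_mod_cast theta_pos q hm
  have h2 : (0 : ℝ) < (q : ℝ) + 1 := by positivity
  rw [div_le_div_iff₀ (by positivity) h2]
  nlinarith

theorem lam_ph (q m : ℕ) (hm : 0 < m) :
    ((theta q (m + 1) : ℝ) - theta q m) / (theta q (m + 1) * theta q (m + 1)) ≤
      1 / ((q : ℝ) + 1) := by
  have h1 : (0 : ℝ) < theta q (m + 1) := by exact_mod_cast theta_pos q (Nat.succ_pos m)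
  have h2 : (0 : ℝ) < (q : ℝ) + 1 := by positivity
  have h3 : (theta q (m + 1) : ℝ) = 1 + q * theta q m := by
    exact_mod_cast theta_succ q m
  have h4 : (1 : ℝ) ≤ theta q m := by exact_mod_cast theta_pos q hm
  have h5 : (0 : ℝ) ≤ q := Nat.cast_nonneg q
  rw [div_le_div_iff₀ (by positivity) h2, h3]
  nlinarith [mul_nonneg h5 (by linarith : (0 : ℝ) ≤ theta q m - 1),
    mul_nonneg (mul_nonneg h5 h5) (mul_nonneg (by linarith : (0 : ℝ) ≤ theta q m - 1)
      (by linarith : (0 : ℝ) ≤ theta q m)), mul_nonneg h5 (by linarith : (0 : ℝ) ≤ theta q m)]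

end Vale.Agent.P011.H974
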