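import Vale.Agent.P011.H305.SetF
import Vale.Agent.P011.H268.Nrd
import Vale.Agent.P011.W.Nrd

/-!
Division algebras of degree two with an involution of the second kind: the unitary elements of
reduced norm one belong to a fixed quaternion algebra over the base field.
-/

open Module Polynomial

set_option linter.unusedSectionVars false

namespace Vale.Agent.P011.H974.QC

open Vale.Agent.P011.H305
open Vale.Agent.P011.W (HasNrd)

section quad

variable {K D : Type} [Field K] [DivisionRing D] [Algebra K D] [FiniteDimensional K D]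
  [Algebra.IsCentral K D]

/-- Every element satisfies a quadratic equation. -/
theorem quad (hdeg : finrank K D = 2 ^ 2) (x : D) :
    ∃ τ ν : K, x * x = τ • x - ν • (1 : D) := by
  obtain ⟨f⟩ := Vale.Agent.P011S.exists_split (K := K) (D := D) hdeg (AlgebraicClosure K)
  obtain ⟨P, hP, hPd, hPc⟩ := H268.exists_charpoly (by norm_num) hdeg f x
  have hinj : Function.Injective f := f.toRingHom.injective
  have h1 : aeval x P = 0 := by
    apply hinj
    rw [map_zero, ← aeval_algHom_apply]
    have h2 := Matrix.aeval_self_charpoly (f x)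
    rwa [hPc, aeval_map_algebraMap] at h2
  rw [aeval_eq_sum_range, hPd] at h1
  have h3 : P.coeff 2 = 1 := by
    have := hP.coeff_natDegree
    rwa [hPd] at this
  simp only [Finset.sum_range_succ, Finset.sum_range_zero, zero_add, pow_zero, pow_one, pow_two,
    h3, one_smul] at h1
  refine ⟨-P.coeff 1, P.coeff 0, ?_⟩
  refine sub_eq_zero.mp (Eq.trans ?_ h1)
  module

end quad

section set

variable {k K D : Type} [Field k] [Field K] [StarRing K] [DivisionRing D] [StarRing D]
  [Algebra k K] [Algebra k D] [Algebra K D] [IsScalarTower k K D] {d : kˣ} {s : K}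

theorem star_algK (hS : SetF k K D d s) (c : K) :
    star (algebraMap K D c) = algebraMap K D (star c) := by
  rw [Algebra.algebraMap_eq_smul_one, Algebra.algebraMap_eq_smul_one, hS.star_smul, star_one]

/-- An element of the centre which is symmetric belongs to the base field. -/
theorem mem_k (hS : SetF k K D d s) {c : K} (h : star (algebraMap K D c) = algebraMap K D c) :
    ∃ e : k, c = algebraMap k K e := by
  rw [star_algK hS] at h
  obtain ⟨e, he⟩ := (hS.fix c).mp ((algebraMap K D).injective h)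
  exact ⟨e, he.symm⟩

theorem two_neD (hS : SetF k K D d s) : (2 : D) ≠ 0 := by
  rw [← map_ofNat (algebraMap k D) 2]
  exact (_root_.map_ne_zero _).mpr hS.two_ne

theorem sD_ne (hS : SetF k K D d s) : algebraMap K D s ≠ 0 := (_root_.map_ne_zero _).mpr hS.s_ne

/-- A symmetric element which is not central. -/
theorem exists_sym (hS : SetF k K D d s) (hdeg : finrank K D = 2 ^ 2) :
    ∃ z : D, star z = z ∧ ∀ c : K, z ≠ algebraMap K D c := by
  have h2 := two_neD hS
  have hs0 := sD_ne hS
  by_contra hcon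
  push Not at hcon
  have key : ∀ x : D, ∃ c : K, algebraMap K D c = x := by
    intro x
    obtain ⟨c1, hc1⟩ := hcon (x + star x) (by rw [star_add, star_star, add_comm])
    obtain ⟨c2, hc2⟩ := hcon (algebraMap K D s * (x - star x)) (by
      rw [star_mul, star_sub, star_star, star_algK hS, hS.star_s, map_neg, mul_neg,
        ← Algebra.commutes, ← mul_neg, neg_sub])
    have e : 2 * (algebraMap K D s * x) = algebraMap K D s * algebraMap K D c1 +
        algebraMap K D c2 := by
      rw [← hc1, ← hc2]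
      noncomm_ring
    refine ⟨(2 * s)⁻¹ * (s * c1 + c2), ?_⟩
    apply mul_left_cancel₀ h2
    apply mul_left_cancel₀ hs0
    have h3 : (2 * s) ≠ 0 := by
      intro h0
      have := congrArg (algebraMap K D) h0
      rw [map_mul, map_ofNat, map_zero] at this
      exact mul_ne_zero h2 hs0 this
    have hX : ∀ X : K, algebraMap K D s * (2 * algebraMap K D X) =
        algebraMap K D (2 * s * X) := fun X => by
      rw [map_mul, map_mul, map_ofNat]
      noncomm_ring
    calc algebraMap K D s * (2 * algebraMap K D ((2 * s)⁻¹ * (s * c1 + c2)))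
        = algebraMap K D (2 * s * ((2 * s)⁻¹ * (s * c1 + c2))) := hX _
      _ = 2 * (algebraMap K D s * x) := by
          rw [mul_inv_cancel_left₀ h3, e, map_add, map_mul]
      _ = algebraMap K D s * (2 * x) := by noncomm_ring
  have hfr : finrank K D = 1 := by
    rw [finrank_eq_one_iff_of_nonzero' (1 : D) one_ne_zero]
    intro w
    obtain ⟨c, hc⟩ := key w
    exact ⟨c, by rw [← hc, Algebra.algebraMap_eq_smul_one]⟩
  rw [hdeg] at hfr
  norm_num at hfr

/-- Elements with a square in the centre: a symmetric or antisymmetric element, not central, whose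
conjugate by some element is its opposite. -/
theorem sq_of_anti (hS : SetF k K D d s) (hdeg : finrank K D = 2 ^ 2) {i j : D} (hi : i ≠ 0)
    (hj : j ≠ 0) (hsj : star j = -j) (hij : i * j = -(j * i)) :
    ∃ β : kˣ, j * j = algebraMap k D β := by
  have := hS.fin
  have := hS.cen
  have h2 := two_neD hS
  obtain ⟨τ, ν, h⟩ := quad hdeg j
  have h1 : i * (j * j) = (j * j) * i := by
    rw [← mul_assoc, hij, neg_mul, mul_assoc, hij, mul_neg, neg_neg, mul_assoc]
  have h3 : τ • (j * i) = 0 := by
    rw [h] at h1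
    rw [mul_sub, sub_mul, mul_smul_comm, smul_mul_assoc, mul_smul_comm, smul_mul_assoc, mul_one,
      one_mul, hij, smul_neg, sub_left_inj] at h1
    have h4 : (2 : D) * (τ • (j * i)) = 0 := by
      rw [two_mul]
      nth_rewrite 1 [← h1]
      rw [neg_add_cancel]
    exact (mul_eq_zero.mp h4).resolve_left h2
  have hτ : τ = 0 := by
    rcases smul_eq_zero.mp h3 with h4 | h4
    · exact h4
    · exact absurd h4 (mul_ne_zero hj hi)
  rw [hτ, zero_smul, zero_sub, ← neg_smul, ← Algebra.algebraMap_eq_smul_one] at h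
  obtain ⟨e, he⟩ := mem_k hS (c := -ν) (by
    rw [← h, star_mul, hsj, neg_mul_neg])
  have he0 : e ≠ 0 := by
    rintro rfl
    rw [he, map_zero, map_zero] at h
    exact mul_ne_zero hj hj h
  refine ⟨Units.mk0 e he0, ?_⟩
  rw [h, he, Units.val_mk0, ← IsScalarTower.algebraMap_apply]

/-- **Generators** of the quaternion algebra. -/
theorem exists_ij (hS : SetF k K D d s) (hdeg : finrank K D = 2 ^ 2) :
    ∃ (i j : D) (α β : kˣ), star i = -i ∧ star j = -j ∧ i * i = algebraMap k D α ∧
      j * j = algebraMap k D β ∧ i * j = -(j * i) := by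
  have := hS.fin
  have := hS.cen
  have h2 := two_neD hS
  have hs0 := sD_ne hS
  obtain ⟨z, hz, hzc⟩ := exists_sym hS hdeg
  obtain ⟨τ, ν, h⟩ := quad hdeg z
  -- the trace is symmetric
  have hτ : star τ = τ := by
    by_contra hcon
    have h1 := congrArg star h
    rw [star_mul, hz, star_sub, hS.star_smul, hS.star_smul, hz, star_one, h] at h1
    have h3 : (τ - star τ) • z = (ν - star ν) • (1 : D) := by
      rw [sub_smul, sub_smul, sub_eq_sub_iff_sub_eq_sub]
      exact h1
    have h4 : τ - star τ ≠ 0 := sub_ne_zero.mpr fun h => hcon h.symm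
    apply hzc ((τ - star τ)⁻¹ * (ν - star ν))
    rw [Algebra.algebraMap_eq_smul_one, mul_smul, ← h3, smul_smul, inv_mul_cancel₀ h4, one_smul]
  have h2K : (2 : K) ≠ 0 := by
    rw [← map_ofNat (algebraMap k K) 2]
    exact (_root_.map_ne_zero _).mpr hS.two_ne
  have hne2 : NeZero (2 : K) := ⟨h2K⟩
  -- completion of the square
  obtain ⟨z', hz'⟩ : ∃ z' : D, z' = z - (τ / 2) • (1 : D) := ⟨_, rfl⟩
  have hz's : star z' = z' := by
    rw [hz', star_sub, hz, hS.star_smul, star_one, star_div₀, hτ, star_ofNat]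
  have hz'c : ∀ c : K, z' ≠ algebraMap K D c := by
    intro c hc
    refine hzc (c + τ / 2) ?_
    rw [map_add, ← hc, hz', Algebra.algebraMap_eq_smul_one, sub_add_cancel]
  have hz'0 : z' ≠ 0 := fun h0 => hz'c 0 (by rw [h0, map_zero])
  have hsq : z' * z' = algebraMap K D (τ ^ 2 / 4 - ν) := by
    have e : z' * z' = z * z - τ • z + (τ / 2 * (τ / 2)) • (1 : D) := by
      rw [hz', sub_mul, mul_sub, mul_sub, smul_mul_assoc, smul_mul_assoc, mul_smul_comm, mul_one,
        one_mul, one_mul]
      have e1 : τ • z = (τ / 2) • z + (τ / 2) • z := by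
        rw [← add_smul, add_halves]
      rw [e1]
      module
    rw [e, h, Algebra.algebraMap_eq_smul_one]
    have e1 : τ ^ 2 / 4 = τ / 2 * (τ / 2) := by
      have h4 : (4 : K) = 2 * 2 := by norm_num
      rw [h4]
      field_simp
    rw [e1]
    module
  obtain ⟨i, hi⟩ : ∃ i : D, i = algebraMap K D s * z' := ⟨_, rfl⟩
  have hi0 : i ≠ 0 := by
    rw [hi]
    exact mul_ne_zero hs0 hz'0
  have hsi : star i = -i := by
    rw [hi, star_mul, hz's, star_algK hS, hS.star_s, map_neg, mul_neg, Algebra.commutes]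
  have hiK : ∃ c : K, i * i = algebraMap K D c := by
    refine ⟨s * s * (τ ^ 2 / 4 - ν), ?_⟩
    rw [hi, map_mul, map_mul, ← hsq]
    rw [mul_assoc, ← mul_assoc z', ← Algebra.commutes s z']
    simp only [mul_assoc]
  obtain ⟨c, hc⟩ := hiK
  obtain ⟨e, he⟩ := mem_k hS (c := c) (by rw [← hc, star_mul, hsi, neg_mul_neg])
  have he0 : e ≠ 0 := by
    rintro rfl
    rw [he, map_zero, map_zero] at hc
    exact mul_ne_zero hi0 hi0 hc
  have hii : i * i = algebraMap k D e := by
    rw [hc, he, ← IsScalarTower.algebraMap_apply]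
  -- an element which does not commute with `i`
  have hnc : ∃ w : D, w * i ≠ i * w := by
    by_contra hcon
    push Not at hcon
    have h3 : i ∈ Subalgebra.center K D := by
      rw [Subalgebra.mem_center_iff]
      exact hcon
    obtain ⟨c', hc'⟩ := Algebra.IsCentral.out h3
    have hc'' : algebraMap K D c' = i := hc'
    apply hz'c (s⁻¹ * c')
    rw [map_mul, hc'', hi, map_inv₀, inv_mul_cancel_left₀ hs0]
  obtain ⟨w, hw⟩ := hnc
  obtain ⟨c0, hc0⟩ : ∃ c0 : D, c0 = w * i - i * w := ⟨_, rfl⟩
  have hc00 : c0 ≠ 0 := by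
    rw [hc0]
    exact sub_ne_zero.mpr hw
  have hci : i * c0 = -(c0 * i) := by
    have h3 : i * i * w = w * (i * i) := by
      rw [hii, Algebra.commutes]
    rw [hc0, mul_sub, sub_mul, neg_sub, ← mul_assoc i i, h3]
    simp only [mul_assoc]
  have hcs : i * star c0 = -(star c0 * i) := by
    have h3 := congrArg star hci
    rw [star_mul, star_neg, star_mul, hsi, mul_neg, neg_mul, neg_neg] at h3
    exact h3.symm
  obtain ⟨j, hj0, hsj, hij⟩ : ∃ j : D, j ≠ 0 ∧ star j = -j ∧ i * j = -(j * i) := by
    by_cases hsym : star c0 = c0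
    · refine ⟨algebraMap K D s * c0, mul_ne_zero hs0 hc00, ?_, ?_⟩
      · rw [star_mul, hsym, star_algK hS, hS.star_s, map_neg, mul_neg, Algebra.commutes]
      · rw [← mul_assoc, ← Algebra.commutes s i, mul_assoc, hci, mul_neg, mul_assoc]
    · refine ⟨c0 - star c0, sub_ne_zero.mpr fun h => hsym h.symm, ?_, ?_⟩
      · rw [star_sub, star_star, neg_sub]
      · rw [mul_sub, sub_mul, hci, hcs]
        abel
  obtain ⟨β, hβ⟩ := sq_of_anti hS hdeg hi0 hj0 hsj hij
  exact ⟨i, j, Units.mk0 e he0, β, hsi, hsj, hii, hβ, hij⟩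

section rep

variable {i j : D} {α β : kˣ}

/-- `1` and `i` are independent over the centre. -/
theorem ind_two (hS : SetF k K D d s) (hjj : j * j = algebraMap k D β)
    (hii : i * i = algebraMap k D α) (hij : i * j = -(j * i)) {a b : K}
    (h : a • (1 : D) + b • i = 0) : a = 0 ∧ b = 0 := by
  have h2 := two_neD hS
  have hi0 : i ≠ 0 := by
    rintro rfl
    rw [mul_zero] at hii
    exact α.ne_zero ((map_eq_zero (algebraMap k D)).mp hii.symm)
  have hj0 : j ≠ 0 := by
    rintro rfl
    rw [mul_zero] at hjj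
    exact β.ne_zero ((map_eq_zero (algebraMap k D)).mp hjj.symm)
  have h1 : j * (a • (1 : D) + b • i) - (a • (1 : D) + b • i) * j = 0 := by
    rw [h, mul_zero, zero_mul, sub_zero]
  have h3 : (2 : D) * (b • (j * i)) = 0 := by
    have e : j * (a • (1 : D) + b • i) - (a • (1 : D) + b • i) * j = (2 : D) * (b • (j * i)) := by
      rw [mul_add, add_mul, mul_smul_comm, mul_smul_comm, smul_mul_assoc, smul_mul_assoc, hij,
        mul_one, one_mul, two_mul, smul_neg]
      abel
    rw [← e, h1]
  have hb : b = 0 := by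
    rcases smul_eq_zero.mp ((mul_eq_zero.mp h3).resolve_left h2) with h4 | h4
    · exact h4
    · exact absurd h4 (mul_ne_zero hj0 hi0)
  rw [hb, zero_smul, add_zero] at h
  exact ⟨(smul_eq_zero.mp h).resolve_right one_ne_zero, hb⟩

/-- The multiplication table. -/
theorem table (hjj : j * j = algebraMap k D β)
    (hii : i * i = algebraMap k D α) (hij : i * j = -(j * i)) :
    i * i = (algebraMap k K α) • (1 : D) ∧ j * j = (algebraMap k K β) • (1 : D) ∧
      j * i = -(i * j) ∧ i * (i * j) = (algebraMap k K α) • j ∧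
      (i * j) * i = -((algebraMap k K α) • j) ∧ j * (i * j) = -((algebraMap k K β) • i) ∧
      (i * j) * j = (algebraMap k K β) • i ∧
      (i * j) * (i * j) = -((algebraMap k K α * algebraMap k K β) • (1 : D)) := by
  have h1 : i * i = (algebraMap k K α) • (1 : D) := by
    rw [hii, IsScalarTower.algebraMap_apply k K D, Algebra.algebraMap_eq_smul_one]
  have h2 : j * j = (algebraMap k K β) • (1 : D) := by
    rw [hjj, IsScalarTower.algebraMap_apply k K D, Algebra.algebraMap_eq_smul_one]
  have h3 : j * i = -(i * j) := by rw [hij, neg_neg]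
  refine ⟨h1, h2, h3, ?_, ?_, ?_, ?_, ?_⟩
  · rw [← mul_assoc, h1, smul_mul_assoc, one_mul]
  · rw [mul_assoc, h3, mul_neg, ← mul_assoc, h1, smul_mul_assoc, one_mul]
  · rw [← mul_assoc, h3, neg_mul, mul_assoc, h2, mul_smul_comm, mul_one]
  · rw [mul_assoc, h2, mul_smul_comm, mul_one]
  · rw [mul_assoc, ← mul_assoc j, h3, neg_mul, mul_neg, mul_assoc, h2, mul_smul_comm,
      mul_smul_comm, mul_one, h1, smul_smul, mul_comm]

/-- The generators are independent over the centre. -/
theorem ind_four (hS : SetF k K D d s) (hjj : j * j = algebraMap k D β)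
    (hii : i * i = algebraMap k D α) (hij : i * j = -(j * i)) {a b c e : K}
    (h : a • (1 : D) + b • i + c • j + e • (i * j) = 0) : a = 0 ∧ b = 0 ∧ c = 0 ∧ e = 0 := by
  have h2 := two_neD hS
  have hi0 : i ≠ 0 := by
    rintro rfl
    rw [mul_zero] at hii
    exact α.ne_zero ((map_eq_zero (algebraMap k D)).mp hii.symm)
  have hj0 : j ≠ 0 := by
    rintro rfl
    rw [mul_zero] at hjj
    exact β.ne_zero ((map_eq_zero (algebraMap k D)).mp hjj.symm)
  obtain ⟨t1, t2, t3, t4, t5, t6, t7, t8⟩ := table (K := K) hjj hii hij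
  have h1 : i * (a • (1 : D) + b • i + c • j + e • (i * j)) +
      (a • (1 : D) + b • i + c • j + e • (i * j)) * i = 0 := by
    rw [h, mul_zero, zero_mul, add_zero]
  have h3 : (2 : D) * ((a • (1 : D) + b • i) * i) = 0 := by
    rw [two_mul, ← h1]
    simp only [mul_add, add_mul, mul_smul_comm, smul_mul_assoc, mul_one, one_mul, t1, t3, t4, t5]
    module
  have h4 : a • (1 : D) + b • i = 0 :=
    (mul_eq_zero.mp ((mul_eq_zero.mp h3).resolve_left h2)).resolve_right hi0
  obtain ⟨ha, hb⟩ := ind_two hS hjj hii hij h4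
  have h5 : (c • (1 : D) + e • i) * j = 0 := by
    rw [h4, zero_add] at h
    rw [add_mul, smul_mul_assoc, smul_mul_assoc, one_mul]
    exact h
  obtain ⟨hc, he⟩ := ind_two hS hjj hii hij ((mul_eq_zero.mp h5).resolve_right hj0)
  exact ⟨ha, hb, hc, he⟩

/-- The generators span the algebra. -/
theorem span_four (hS : SetF k K D d s) (hdeg : finrank K D = 2 ^ 2)
    (hjj : j * j = algebraMap k D β)
    (hii : i * i = algebraMap k D α) (hij : i * j = -(j * i)) (x : D) :
    ∃ a b c e : K, x = a • (1 : D) + b • i + c • j + e • (i * j) := by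
  have := hS.fin
  have hli : LinearIndependent K ![(1 : D), i, j, i * j] := by
    rw [Fintype.linearIndependent_iff]
    intro g hg
    rw [Fin.sum_univ_four] at hg
    obtain ⟨h0, h1, h2, h3⟩ := ind_four hS hjj hii hij (a := g 0) (b := g 1) (c := g 2) (e := g 3)
      hg
    intro l
    fin_cases l
    · exact h0
    · exact h1
    · exact h2
    · exact h3
  have hsp := hli.span_eq_top_of_card_eq_finrank' (by rw [hdeg]; rfl)
  have hx : x ∈ Submodule.span K (Set.range ![(1 : D), i, j, i * j]) := by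
    rw [hsp]
    exact Submodule.mem_top
  obtain ⟨g, hg⟩ := (Submodule.mem_span_range_iff_exists_fun K).mp hx
  rw [Fin.sum_univ_four] at hg
  exact ⟨g 0, g 1, g 2, g 3, hg.symm⟩

/-- Traces of anticommuting matrices vanish. -/
theorem tr_zero {Ω : Type} [Field Ω] (h2 : (2 : Ω) ≠ 0) {A E : Matrix (Fin 2) (Fin 2) Ω} {b : Ω}
    (hb : b ≠ 0) (hE : E * E = b • (1 : Matrix (Fin 2) (Fin 2) Ω)) (h : A * E = -(E * A)) :
    A.trace = 0 := by
  have h1 : (A * (E * E)).trace = b * A.trace := by
    rw [hE, Matrix.mul_smul, mul_one, Matrix.trace_smul, smul_eq_mul]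
  have h3 : (A * (E * E)).trace = -(A * (E * E)).trace := by
    nth_rewrite 1 [← mul_assoc]
    rw [h, neg_mul, Matrix.trace_neg, mul_assoc, Matrix.trace_mul_comm E (A * E), mul_assoc]
  have h4 : 2 * (b * A.trace) = 0 := by
    rw [h1] at h3
    linear_combination h3
  exact (mul_eq_zero.mp ((mul_eq_zero.mp h4).resolve_left h2)).resolve_left hb

/-- The norm of a quaternion is its reduced norm. -/
theorem hasNrd_four (hS : SetF k K D d s) (hjj : j * j = algebraMap k D β)
    (hii : i * i = algebraMap k D α) (hij : i * j = -(j * i)) (a b c e : K) :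
    (a • (1 : D) + b • i + c • j + e • (i * j)) * (a • (1 : D) - b • i - c • j - e • (i * j)) =
      (a ^ 2 - algebraMap k K α * b ^ 2 - algebraMap k K β * c ^ 2 +
        algebraMap k K α * algebraMap k K β * e ^ 2) • (1 : D) ∧
    HasNrd K 2 (a • (1 : D) + b • i + c • j + e • (i * j))
      (a ^ 2 - algebraMap k K α * b ^ 2 - algebraMap k K β * c ^ 2 +
        algebraMap k K α * algebraMap k K β * e ^ 2) := by
  obtain ⟨t1, t2, t3, t4, t5, t6, t7, t8⟩ := table (K := K) hjj hii hij
  have key : (a • (1 : D) + b • i + c • j + e • (i * j)) *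
      (a • (1 : D) - b • i - c • j - e • (i * j)) =
      (a ^ 2 - algebraMap k K α * b ^ 2 - algebraMap k K β * c ^ 2 +
        algebraMap k K α * algebraMap k K β * e ^ 2) • (1 : D) := by
    simp only [mul_sub, add_mul, mul_smul_comm, smul_mul_assoc, mul_one, one_mul, t1, t2, t3, t4,
      t5, t6, t7, t8]
    module
  refine ⟨key, fun Ω _ _ g => ?_⟩
  have h2K : (2 : K) ≠ 0 := by
    rw [← map_ofNat (algebraMap k K) 2]
    exact (_root_.map_ne_zero _).mpr hS.two_ne
  have h2Ω : (2 : Ω) ≠ 0 := by
    rw [← map_ofNat (algebraMap K Ω) 2]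
    exact (_root_.map_ne_zero _).mpr h2K
  have hsm : ∀ (c : K) (y : D), g (c • y) = (algebraMap K Ω c) • g y := fun c y => by
    rw [map_smul, algebraMap_smul]
  have hα : algebraMap K Ω (algebraMap k K α) ≠ 0 :=
    (_root_.map_ne_zero _).mpr ((_root_.map_ne_zero _).mpr α.ne_zero)
  have hβ : algebraMap K Ω (algebraMap k K β) ≠ 0 :=
    (_root_.map_ne_zero _).mpr ((_root_.map_ne_zero _).mpr β.ne_zero)
  have gi : g i * g i = (algebraMap K Ω (algebraMap k K α)) • (1 : Matrix (Fin 2) (Fin 2) Ω) := by
    rw [← map_mul, t1, hsm, map_one]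
  have gj : g j * g j = (algebraMap K Ω (algebraMap k K β)) • (1 : Matrix (Fin 2) (Fin 2) Ω) := by
    rw [← map_mul, t2, hsm, map_one]
  have tri : (g i).trace = 0 := tr_zero h2Ω hβ gj (by rw [← map_mul, hij, map_neg, map_mul])
  have trj : (g j).trace = 0 := tr_zero h2Ω hα gi (by rw [← map_mul, t3, map_neg, map_mul])
  have trk : (g (i * j)).trace = 0 := tr_zero h2Ω hα gi (by
    rw [← map_mul, ← map_mul, t5, t4, map_neg])
  have htr : (g (a • (1 : D) + b • i + c • j + e • (i * j))).trace = 2 * algebraMap K Ω a := by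
    rw [map_add, map_add, map_add, hsm, hsm, hsm, hsm, map_one, Matrix.trace_add,
      Matrix.trace_add, Matrix.trace_add, Matrix.trace_smul, Matrix.trace_smul,
      Matrix.trace_smul, Matrix.trace_smul, tri, trj, trk, Matrix.trace_one, Fintype.card_fin]
    simp only [smul_eq_mul, mul_zero, add_zero]
    push_cast
    ring
  have hadj : ∀ A : Matrix (Fin 2) (Fin 2) Ω, A.adjugate = A.trace • 1 - A := by
    intro A
    rw [Matrix.adjugate_fin_two, Matrix.trace_fin_two]
    ext p q
    fin_cases p <;> fin_cases q <;> simp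
  have h5 : (g (a • (1 : D) + b • i + c • j + e • (i * j))).adjugate =
      g (a • (1 : D) - b • i - c • j - e • (i * j)) := by
    rw [hadj, htr]
    have e1 : (a • (1 : D) - b • i - c • j - e • (i * j)) =
        (2 * a) • (1 : D) - (a • (1 : D) + b • i + c • j + e • (i * j)) := by module
    rw [e1, map_sub, hsm, map_one, map_mul, map_ofNat]
  have h6 := Matrix.mul_adjugate (g (a • (1 : D) + b • i + c • j + e • (i * j)))
  rw [h5, ← map_mul, key, hsm, map_one] at h6
  have h7 := congrFun (congrFun h6 0) 0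
  simp only [Matrix.smul_apply, Matrix.one_apply_eq, smul_eq_mul, mul_one] at h7
  exact h7.symm

/-- **The unitary elements of reduced norm one** belong to the quaternion algebra over the base
field. -/
theorem exists_rep (hS : SetF k K D d s) (hdeg : finrank K D = 2 ^ 2) (hsi : star i = -i)
    (hsj : star j = -j) (hjj : j * j = algebraMap k D β)
    (hii : i * i = algebraMap k D α) (hij : i * j = -(j * i)) {x : D} (hx : x * star x = 1)
    (hN : HasNrd K 2 x 1) :
    ∃ p₀ p₁ p₂ p₃ : k, x = algebraMap k D p₀ + algebraMap k D p₁ * i + algebraMap k D p₂ * j +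
      algebraMap k D p₃ * (i * j) ∧
      p₀ ^ 2 - α * p₁ ^ 2 - β * p₂ ^ 2 + α * β * p₃ ^ 2 = 1 ∧
      x + star x = algebraMap k D (2 * p₀) := by
  have := hS.fin
  have := hS.cen
  obtain ⟨t1, t2, t3, t4, t5, t6, t7, t8⟩ := table (K := K) hjj hii hij
  obtain ⟨a, b, c, e, rfl⟩ := span_four hS hdeg hjj hii hij x
  obtain ⟨h1, h2⟩ := hasNrd_four hS hjj hii hij a b c e
  have hν := W.HasNrd.unique hdeg h2 hN
  rw [hν, one_smul] at h1
  have hx0 := left_ne_zero_of_mul_eq_one hx
  have hst : star (a • (1 : D) + b • i + c • j + e • (i * j)) =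
      a • (1 : D) - b • i - c • j - e • (i * j) := mul_left_cancel₀ hx0 (hx.trans h1.symm)
  have hst2 : star (a • (1 : D) + b • i + c • j + e • (i * j)) =
      star a • (1 : D) - star b • i - star c • j - star e • (i * j) := by
    rw [star_add, star_add, star_add, hS.star_smul, hS.star_smul, hS.star_smul, hS.star_smul,
      star_one, hsi, hsj, star_mul, hsi, hsj, neg_mul_neg, t3]
    module
  have h3 : (star a - a) • (1 : D) + (b - star b) • i + (c - star c) • j +
      (e - star e) • (i * j) = 0 := by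
    have h4 := hst2.symm.trans hst
    rw [← sub_eq_zero] at h4
    rw [← h4]
    module
  obtain ⟨ha, hb, hc, he⟩ := ind_four hS hjj hii hij h3
  obtain ⟨p₀, hp₀⟩ := (hS.fix a).mp (sub_eq_zero.mp ha)
  obtain ⟨p₁, hp₁⟩ := (hS.fix b).mp (sub_eq_zero.mp hb).symm
  obtain ⟨p₂, hp₂⟩ := (hS.fix c).mp (sub_eq_zero.mp hc).symm
  obtain ⟨p₃, hp₃⟩ := (hS.fix e).mp (sub_eq_zero.mp he).symm
  have hal : ∀ (p : k) (y : D), algebraMap k K p • y = algebraMap k D p * y := fun p y => by
    rw [algebraMap_smul, Algebra.smul_def]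
  refine ⟨p₀, p₁, p₂, p₃, ?_, ?_, ?_⟩
  · rw [← hp₀, ← hp₁, ← hp₂, ← hp₃, hal, hal, hal, hal, mul_one]
  · apply (algebraMap k K).injective
    rw [← hp₀, ← hp₁, ← hp₂, ← hp₃] at hν
    rw [map_one, ← hν]
    simp only [map_add, map_sub, map_mul, map_pow]
  · rw [hst, ← hp₀, ← mul_one (algebraMap k D (2 * p₀)), ← hal, map_mul, map_ofNat]
    module

end rep

end set

end Vale.Agent.P011.H974.QC
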