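import Vale.Agent.P011.H974.DblF
import Vale.Agent.P011.H511.SymF
import Vale.Agent.P011.H872.FF.MPThree

/-!
Degree six over function fields, and the doubling step without the existence hypothesis.
-/

open Module Polynomial

set_option linter.unusedSectionVars false

namespace Vale.Agent.P011.H974.R8

open Vale.Agent.P011.H738 Vale.Agent.P011.H271 Vale.Agent.P011.H305 Vale.Agent.P011.H698

/-- The symmetric square roots exist. -/
theorem exTF {m : ℕ} (hm : 0 < m) : ExTF m := fun _ _ _ _ _ _ _ _ _ _ _ _ _ _ _ hS hdeg =>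
  H511.SX.exists_tF hS hm hdeg

/-- **Doubling the degree over function fields**, from the elements of the centralizers. -/
theorem solv_double_ab {m : ℕ} (hm : 2 ≤ m) (hAb : AbF m) : SolvF (2 * m) :=
  solv_double hm (exTF (by omega)) hAb

/-- **Doubling the degree over function fields**, from the elements of the centralizers. -/
theorem mpf_double_ab {m : ℕ} (hm : 2 ≤ m) (hAb : AbF m) : MPF (2 * m) :=
  mpf_of_solv (by omega) (solv_double_ab hm hAb)

/-- **The solvable step in degree six** over global function fields of characteristic different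
from two and three. -/
theorem solvAt_sixF {k K D : Type} [Field k] [GFF k] [Field K] [StarRing K] [DivisionRing D]
    [StarRing D] [Algebra k K] [Algebra k D] [Algebra K D] [IsScalarTower k K D] [StarModule K D]
    {d : kˣ} {s : K} (h3 : (3 : k) ≠ 0) (hS : SetF k K D d s) (hdeg : finrank K D = 6 ^ 2)
    {Ω : Type} [Field Ω] [Algebra K Ω] (f : D →ₐ[K] Matrix (Fin 6) (Fin 6) Ω) {N : ℕ}
    (B : Basis (Fin N) k D) : SolvAtF k K f B := by
  obtain ⟨a, t, ht, ha, had⟩ := H511.SX.exists_tF hS (m := 3) (by norm_num) hdeg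
  refine solvAtF_of_red (isGlobal_of_gff k) hS hdeg (by norm_num) f B a
    fun Q H hQ hH hQH hi hN hp hc ⟨T, ε, hε, hQ1⟩ S₀ => ?_
  exact mem_of_ab2 hS ht ha had (m := 3) (by norm_num) hdeg f B Q hε hQ1
    (H872.FF.abAt_sixF h3 hS hdeg ht ha had f B Q hi hε hQ1) S₀

/-- **Degree six** over global function fields of characteristic different from two and three:
every normal subgroup of finite index is open. -/
theorem near_sixF {k K D : Type} [Field k] [GFF k] [Field K] [StarRing K] [DivisionRing D]
    [StarRing D] [Algebra k K] [Algebra k D] [Algebra K D] [IsScalarTower k K D] [StarModule K D]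
    {d : kˣ} {s : K} (h3 : (3 : k) ≠ 0) (hS : SetF k K D d s) (hdeg : finrank K D = 6 ^ 2)
    {Ω : Type} [Field Ω] [Algebra K Ω] (f : D →ₐ[K] Matrix (Fin 6) (Fin 6) Ω) {N : ℕ}
    (B : Basis (Fin N) k D) (M : Subgroup (SUA f)) [M.Normal] (hi : M.index ≠ 0) :
    NearA k K f B M :=
  near_of_solv (isGlobal_of_gff k) (hS.anis hdeg) (by norm_num) f B
    (solvAt_sixF h3 hS hdeg f B) M hi

end Vale.Agent.P011.H974.R8
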