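import Vale.Agent.P011.H305.SolvF
import Vale.Agent.P011.H704.HQ.Main
import Vale.Agent.P011.H704.HQ.ModAe
import Vale.Agent.P011.H732D.Spec

/-!
The solvable step over function fields from the elements which are close to one at finitely many
places and integral at all other places except at one place.
-/

open Module
open scoped commutatorElement

set_option linter.unusedSectionVars false

namespace Vale.Agent.P011.H974.R8

open Vale.Agent.P011.H738 Vale.Agent.P011.H271 Vale.Agent.P011.H305 Vale.Agent.P011.H698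
open Vale.Agent.P011.H63.FB (LSF)
open Vale.Agent.P011.H732D (ImF)

section core

variable {k K A Ω : Type} [Field k] [Field K] [StarRing K] [Ring A] [StarRing A]
  [Algebra k K] [Algebra k A] [Algebra K A] [IsScalarTower k K A] [StarModule K A] {n N : ℕ}
  [Field Ω] [Algebra K Ω]

/-- **The solvable step** (every characteristic, every anisotropic ring), from the elements close
to one at finitely many places and integral at all other places except at one place `q` with the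
property `P`. -/
theorem solvAtF_core (hk : IsGlobalFunctionField k) [GFF k] (hA : Anis k K A n) (hn : 3 ≤ n)
    (f : A →ₐ[K] Matrix (Fin n) (Fin n) Ω) (B : Basis (Fin N) k A) (P : Place k → Prop)
    (hP : ∀ S : Finset (Place k), ∃ q : Place k, q ∉ S ∧ P q ∧
      ∃ (φ : K →ₐ[k] q.comp) (g : A →+* Matrix (Fin n) (Fin n) q.comp),
        ∀ c : K, g (algebraMap K A c) = algebraMap q.comp _ (φ c))
    (hred : ∀ Q H : Subgroup (SUA f), Q.Normal → H.Normal → Q ≤ H → Q.index ≠ 0 →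
      NearA k K f B H → (Q.relIndex H).Prime → (∀ g : SUA f, ∀ x ∈ H, ⁅g, x⁆ ∈ Q) →
      ∀ S₀ : Finset (Place k), ∃ S : Finset (Place k), S₀ ⊆ S ∧ ∃ ε : ℝ, 0 < ε ∧
        ∀ q ∉ S, P q → ∀ x : SUA f, (∀ v ∈ S, Sm B v ε (((x : Aˣ) : A) - 1)) →
          (∀ v ∉ S, v ≠ q → Bd B v 1 ((x : Aˣ) : A)) → x ∈ Q) : SolvAtF k K f B := by
  classical
  intro Q H hQ hH hQH hi hN hp hc hV
  obtain ⟨T1, hT1⟩ := H704.HQ.mod_ae hk hA hn f B
  obtain ⟨T2, hT2, hTb⟩ := exists_big (B := B) T1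
  obtain ⟨S, hS0, ε, hε, hS⟩ := hred Q H hQ hH hQH hi hN hp hc T2
  obtain ⟨q, hq, hPq, φ, g, hg⟩ := hP S
  have hle : H ≤ Q := by
    intro x hx
    obtain ⟨x', h1, h2, h3⟩ := CosetF.coset_strongF hk hA hn f B (Q := Q) (H := H) hi
      (fun V hV' => hV V hV') hg (hTb.mono hS0)
      (fun v hv _ => hT1 v fun h => hv (hS0 (hT2 h))) hx H.one_mem hε
    have hx' : x' ∈ Q := hS q hq hPq x' (fun v hv => h2 v hv fun h => hq (h ▸ hv)) h3
    have h5 := Q.mul_mem hx' (Q.inv_mem h1)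
    have h6 : x' * (x⁻¹ * x')⁻¹ = x := by group
    rwa [h6] at h5
  rw [Subgroup.relIndex_eq_one.mpr hle] at hp
  exact Nat.not_prime_one hp

end core

section set

variable {k K D Ω : Type} [Field k] [Field K] [StarRing K] [DivisionRing D] [StarRing D]
  [Algebra k K] [Algebra k D] [Algebra K D] [IsScalarTower k K D] [StarModule K D] {n N : ℕ}
  [Field Ω] [Algebra K Ω] {d : kˣ} {s : K}

/-- **(R8).** The solvable step for division algebras, `2 ≠ 0`. -/
theorem solvAtF_of_red (hk : IsGlobalFunctionField k) [GFF k] (hS : SetF k K D d s)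
    (hdeg : finrank K D = n ^ 2) (hn : 3 ≤ n) (f : D →ₐ[K] Matrix (Fin n) (Fin n) Ω)
    (B : Basis (Fin N) k D) (a : kˣ)
    (hred : ∀ Q H : Subgroup (SUA f), Q.Normal → H.Normal → Q ≤ H → Q.index ≠ 0 →
      NearA k K f B H → (Q.relIndex H).Prime → (∀ g : SUA f, ∀ x ∈ H, ⁅g, x⁆ ∈ Q) →
      (∃ (T : Finset (Place k)) (ε : ℝ), 0 < ε ∧ H704.HQ.HQ1F k B T ε (ImF Q)) →
      ∀ S₀ : Finset (Place k), ∃ S : Finset (Place k), S₀ ⊆ S ∧ ∃ ε : ℝ, 0 < ε ∧
        ∀ q ∉ S, a * d ∈ LSF q → ∀ x : D, x * star x = 1 → (f x).det = 1 →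
          (∀ v ∈ S, Sm B v ε (x - 1)) → (∀ v ∉ S, v ≠ q → Bd B v 1 x) → x ∈ ImF Q) :
    SolvAtF k K f B := by
  refine solvAtF_core hk (hS.anis hdeg) hn f B (fun q => a * d ∈ LSF q) (fun S => ?_) ?_
  · obtain ⟨q, hq, φ, g, hg, -, -, had⟩ := H704.HQ.exists_q_set hS (n := n) (by omega) hdeg a S
    exact ⟨q, hq, had, φ, g, hg⟩
  · intro Q H hQ hH hQH hi hN hp hc S₀
    obtain ⟨T, -, ε₀, hε₀, hQ1⟩ := H704.HQ.hq1F (hS.anis hdeg) (by omega) hS.two_ne f B Q H hc hN
    obtain ⟨S, h0, ε, hε, h⟩ := hred Q H hQ hH hQH hi hN hp hc ⟨T, ε₀, hε₀, hQ1⟩ S₀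
    refine ⟨S, h0, ε, hε, fun q hq had x hx hxi => ?_⟩
    obtain ⟨g, hg, hgx⟩ := h q hq had ((x : Dˣ) : D) x.2.1 x.2.2 hx hxi
    have : g = x := Subtype.ext (Units.ext hgx)
    rwa [← this]

end set

end Vale.Agent.P011.H974.R8
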