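import Vale.Agent.P011.H974.Lat

/-!
Triangles of lattices `L₀ > L₁ > L₂ ≥ ϖ L₀`: the triangles with a given vertex are the flags of a
design.
-/

open Module Finset IsLocalRing

set_option linter.unusedSectionVars false

namespace Vale.Agent.P011.H974

section generic

variable {T S X Y H : Type*} [Fintype X] [Fintype Y] [NormedAddCommGroup H]
  [InnerProductSpace ℝ H] {I : X → Y → Prop} [∀ x y, Decidable (I x y)] {r c s : ℕ}

theorem sum_of_equiv {M : Type*} [AddCommMonoid M] (A : Finset T)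
    (e : A ≃ {xy : X × Y // I xy.1 xy.2}) (g : T → M) (h : X → Y → M)
    (hgh : ∀ t : A, g t = h (e t).1.1 (e t).1.2) :
    ∑ t ∈ A, g t = ∑ x, ∑ y, if I x y then h x y else 0 := by
  classical
  rw [← Finset.sum_coe_sort A g, ← Finset.sum_product', ← Finset.sum_filter,
    Finset.univ_product_univ]
  rw [Finset.sum_congr rfl fun t _ => hgh t]
  rw [e.sum_comp (fun xy : {xy : X × Y // I xy.1 xy.2} => h xy.1.1 xy.1.2)]
  rw [Finset.sum_subtype (p := fun xy : X × Y => I xy.1 xy.2)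
    (Finset.univ.filter fun xy : X × Y => I xy.1 xy.2)
    (fun xy => by simp) (fun xy : X × Y => h xy.1 xy.2)]

theorem card_of_equiv (hr : ∀ x, #{y | I x y} = r) (A : Finset T)
    (e : A ≃ {xy : X × Y // I xy.1 xy.2}) : #A = r * Fintype.card X := by
  have h1 := sum_of_equiv A e (fun _ => 1) (fun _ _ => 1) (fun _ => rfl)
  rw [sum_flag_fst hr (fun _ => 1), smul_eq_mul] at h1
  rw [Finset.card_eq_sum_ones, h1, Finset.sum_const, smul_eq_mul, mul_one, Finset.card_univ]

theorem link_of_equiv (hI : Design I r c) (hs : ∀ y, #{x | I x y} = s) (hr0 : 0 < r)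
    (hs0 : 0 < s) (A : Finset T) (e : A ≃ {xy : X × Y // I xy.1 xy.2}) (a b : T → S)
    (α : X → S) (β : Y → S) (ha : ∀ t : A, a t = α (e t).1.1) (hb : ∀ t : A, b t = β (e t).1.2)
    (u v : S → H) (hu : ∑ t ∈ A, u (a t) = 0) :
    (∑ t ∈ A, (inner ℝ (u (a t)) (v (b t)))) ^ 2 ≤ (((r : ℝ) - c) / (r * s)) *
      (∑ t ∈ A, ‖u (a t)‖ ^ 2) * ∑ t ∈ A, ‖v (b t)‖ ^ 2 := by
  rw [sum_of_equiv A e (fun t => (inner ℝ (u (a t)) (v (b t)))) (fun x y => (inner ℝ (u (α x)) (v (β y))))
      (fun t => by rw [ha, hb]),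
    sum_of_equiv A e (fun t => ‖u (a t)‖ ^ 2) (fun x _ => ‖u (α x)‖ ^ 2) (fun t => by rw [ha]),
    sum_of_equiv A e (fun t => ‖v (b t)‖ ^ 2) (fun _ y => ‖v (β y)‖ ^ 2) (fun t => by rw [hb])]
  refine hI.link hs hr0 hs0 (fun x => u (α x)) (fun y => v (β y)) ?_
  rw [sum_of_equiv A e (fun t => u (a t)) (fun x _ => u (α x)) (fun t => by rw [ha]),
    sum_flag_fst hI.hr, ← Nat.cast_smul_eq_nsmul ℝ] at hu
  rcases smul_eq_zero.mp hu with h | h
  · exact absurd h (Nat.cast_ne_zero.mpr hr0.ne')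
  · exact h

/-- The inequality is symmetric in the two functions. -/
theorem link_symm {lam : ℝ} (hlam : 0 ≤ lam) (A : Finset T) (a b : T → S)
    (h : ∀ u v : S → H, ∑ t ∈ A, u (a t) = 0 → (∑ t ∈ A, (inner ℝ (u (a t)) (v (b t)))) ^ 2 ≤
      lam * (∑ t ∈ A, ‖u (a t)‖ ^ 2) * ∑ t ∈ A, ‖v (b t)‖ ^ 2)
    (u v : S → H) (hv : ∑ t ∈ A, v (b t) = 0) :
    (∑ t ∈ A, (inner ℝ (u (a t)) (v (b t)))) ^ 2 ≤
      lam * (∑ t ∈ A, ‖u (a t)‖ ^ 2) * ∑ t ∈ A, ‖v (b t)‖ ^ 2 := by
  rcases A.eq_empty_or_nonempty with rfl | hA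
  · simp
  have hc : (0 : ℝ) < #A := by exact_mod_cast hA.card_pos
  set m : H := (#A : ℝ)⁻¹ • ∑ t ∈ A, u (a t) with hm
  have hsum : ∑ t ∈ A, u (a t) = (#A : ℝ) • m := by
    rw [hm, smul_smul, mul_inv_cancel₀ hc.ne', one_smul]
  have h1 : ∑ t ∈ A, (u (a t) - m) = 0 := by
    rw [Finset.sum_sub_distrib, hsum, Finset.sum_const, ← Nat.cast_smul_eq_nsmul ℝ, sub_self]
  have h2 := h (fun x => u x - m) v h1
  have h3 : ∑ t ∈ A, (inner ℝ (u (a t) - m) (v (b t))) = ∑ t ∈ A, (inner ℝ (u (a t)) (v (b t))) := by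
    simp only [inner_sub_left]
    rw [Finset.sum_sub_distrib, ← inner_sum, hv, inner_zero_right, sub_zero]
  have h4 : ∑ t ∈ A, ‖u (a t) - m‖ ^ 2 ≤ ∑ t ∈ A, ‖u (a t)‖ ^ 2 := by
    have h5 : ∀ t, ‖u (a t) - m‖ ^ 2 = ‖u (a t)‖ ^ 2 - 2 * (inner ℝ (u (a t)) m) + ‖m‖ ^ 2 := fun t =>
      norm_sub_sq_real _ _
    simp only [h5]
    rw [Finset.sum_add_distrib, Finset.sum_sub_distrib, ← Finset.mul_sum, ← sum_inner, hsum,
      Finset.sum_const, nsmul_eq_mul, real_inner_smul_left, real_inner_self_eq_norm_sq]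
    nlinarith [mul_nonneg hc.le (sq_nonneg ‖m‖)]
  rw [h3] at h2
  refine h2.trans ?_
  have h6 : 0 ≤ ∑ t ∈ A, ‖v (b t)‖ ^ 2 := Finset.sum_nonneg fun t _ => sq_nonneg _
  exact mul_le_mul_of_nonneg_right (mul_le_mul_of_nonneg_left h4 hlam) h6

end generic

section red

open Submodule

variable {O : Type*} [CommRing O] [IsDomain O] [IsDiscreteValuationRing O]
variable {F V : Type*} [Field F] [Algebra O F] [IsFractionRing O F] [AddCommGroup V] [Module F V]
  [Module O V] [IsScalarTower O F V] [FiniteDimensional F V] {ϖ : O} (hϖ : Irreducible ϖ)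

variable (F V O) in
/-- The reduction of a lattice, as a vector space with a basis. -/
abbrev Red := Fin (finrank F V) → ResidueField O

variable (L : Submodule O V) [IsLattice F L]

/-- The reduction map. -/
noncomputable def red : L →ₗ[O] Red O F V := (exists_red (F := F) hϖ L).choose

theorem red_surj : Function.Surjective (red (F := F) hϖ L) :=
  (exists_red (F := F) hϖ L).choose_spec.1

theorem red_eq_zero (x : L) : red (F := F) hϖ L x = 0 ↔ (x : V) ∈ dilS F V hϖ.ne_zero L :=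
  (exists_red (F := F) hϖ L).choose_spec.2 x

/-- The subspace of the reduction attached to a submodule. -/
noncomputable def dn (N : Submodule O V) : Submodule (ResidueField O) (Red O F V) :=
  toW residue_surjective L (red (F := F) hϖ L) N

/-- The submodule attached to a subspace of the reduction. -/
noncomputable def up (W : Submodule (ResidueField O) (Red O F V)) : Submodule O V :=
  toN L (red (F := F) hϖ L) W

variable {L} {N N' : Submodule O V} {W W' : Submodule (ResidueField O) (Red O F V)}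

theorem dn_up : dn (F := F) hϖ L (up hϖ L W) = W := toW_toN (red_surj hϖ L) W

theorem up_dn (h1 : dilS F V hϖ.ne_zero L ≤ N) (h2 : N ≤ L) :
    up hϖ L (dn (F := F) hϖ L N) = N :=
  toN_toW (fun x hx => h1 ((red_eq_zero hϖ L x).mp hx)) h2

theorem up_le : up (F := F) hϖ L W ≤ L := toN_le W

theorem le_up : dilS F V hϖ.ne_zero L ≤ up hϖ L W := fun x hx =>
  ker_le_toN W ⟨x, dilS_le _ L hx⟩ ((red_eq_zero hϖ L ⟨x, dilS_le _ L hx⟩).mpr hx)

theorem up_mono (h : W ≤ W') : up (F := F) hϖ L W ≤ up hϖ L W' := toN_mono h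

theorem dn_mono (h : N ≤ N') : dn (F := F) hϖ L N ≤ dn hϖ L N' := toW_mono h

theorem dn_covBy (h1 : dilS F V hϖ.ne_zero L ≤ N) (h2 : N ≤ N') (h3 : N' ≤ L) :
    N ⋖ N' ↔ finrank (ResidueField O) (dn (F := F) hϖ L N) + 1 =
      finrank (ResidueField O) (dn (F := F) hϖ L N') :=
  toW_covBy (red_surj hϖ L) (fun x hx => h1 ((red_eq_zero hϖ L x).mp hx)) h2 h3

theorem up_covBy (h : W ≤ W') :
    up (F := F) hϖ L W ⋖ up hϖ L W' ↔
      finrank (ResidueField O) W + 1 = finrank (ResidueField O) W' := by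
  rw [dn_covBy (F := F) (L := L) hϖ (le_up hϖ) (up_mono hϖ h) (up_le hϖ), dn_up, dn_up]

theorem dn_self : dn (F := F) hϖ L L = ⊤ := by
  rw [eq_top_iff]
  intro q _
  obtain ⟨x, rfl⟩ := red_surj (F := F) hϖ L q
  exact ⟨x, x.2, rfl⟩

theorem dn_bot : dn (F := F) hϖ L (dilS F V hϖ.ne_zero L) = ⊥ := by
  rw [eq_bot_iff]
  rintro _ ⟨x, hx, rfl⟩
  exact (red_eq_zero hϖ L x).mpr hx

theorem finrank_red : finrank (ResidueField O) (Red O F V) = finrank F V := by
  rw [Module.finrank_fin_fun]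

theorem dn_covBy_self (h1 : dilS F V hϖ.ne_zero L ≤ N) (h2 : N ≤ L) :
    N ⋖ L ↔ finrank (ResidueField O) (dn (F := F) hϖ L N) + 1 =
      finrank (ResidueField O) (Red O F V) := by
  rw [dn_covBy (F := F) (L := L) hϖ h1 h2 le_rfl, dn_self, finrank_top]

theorem dn_covBy_bot (h1 : dilS F V hϖ.ne_zero L ≤ N) (h2 : N ≤ L) :
    dilS F V hϖ.ne_zero L ⋖ N ↔ finrank (ResidueField O) (dn (F := F) hϖ L N) = 1 := by
  rw [dn_covBy (F := F) (L := L) hϖ le_rfl h1 h2, dn_bot, finrank_bot, zero_add, eq_comm]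

theorem up_covBy_self :
    up (F := F) hϖ L W ⋖ L ↔
      finrank (ResidueField O) W + 1 = finrank (ResidueField O) (Red O F V) := by
  rw [dn_covBy_self (F := F) (L := L) hϖ (le_up hϖ) (up_le hϖ), dn_up]

theorem up_covBy_bot :
    dilS F V hϖ.ne_zero L ⋖ up (F := F) hϖ L W ↔ finrank (ResidueField O) W = 1 := by
  rw [dn_covBy_bot (F := F) (L := L) hϖ (le_up hϖ) (up_le hϖ), dn_up]

theorem isLattice_up : IsLattice F (up (F := F) hϖ L W) :=
  isLattice_between hϖ.ne_zero ‹_› (le_up hϖ) (up_le hϖ)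

end red

section tri

open Submodule

variable {O : Type*} [CommRing O] [IsDomain O] [IsDiscreteValuationRing O]
variable {F V : Type*} [Field F] [Algebra O F] [IsFractionRing O F] [AddCommGroup V] [Module F V]
  [Module O V] [IsScalarTower O F V] {ϖ : O} (hϖ : Irreducible ϖ)

variable (F V) in
/-- The triangles of lattices `L₀ > L₁ > L₂ ≥ ϖ L₀`. -/
@[ext] structure Tri where
  L : Fin 3 → Submodule O V
  lat : IsLattice F (L 0)
  c1 : L 1 ⋖ L 0
  c2 : L 2 ⋖ L 1
  c3 : dilS F V hϖ.ne_zero (L 0) ≤ L 2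

variable {hϖ} (T : Tri F V hϖ)

theorem Tri.le10 : T.L 1 ≤ T.L 0 := T.c1.le
theorem Tri.le21 : T.L 2 ≤ T.L 1 := T.c2.le
theorem Tri.lat1 : IsLattice F (T.L 1) :=
  isLattice_between hϖ.ne_zero T.lat (T.c3.trans T.le21) T.le10
theorem Tri.lat2 : IsLattice F (T.L 2) :=
  isLattice_between hϖ.ne_zero T.lat T.c3 (T.le21.trans T.le10)

theorem Tri.lati (i : Fin 3) : IsLattice F (T.L i) := by
  fin_cases i
  · exact T.lat
  · exact T.lat1
  · exact T.lat2

theorem dilS_mono {a : O} (ha : a ≠ 0) {L L' : Submodule O V} :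
    dilS F V ha L ≤ dilS F V ha L' ↔ L ≤ L' := (dilS F V ha).le_iff_le

end tri

section fib

open Submodule

variable {O : Type*} [CommRing O] [IsDomain O] [IsDiscreteValuationRing O]
variable {F V : Type*} [Field F] [Algebra O F] [IsFractionRing O F] [AddCommGroup V] [Module F V]
  [Module O V] [IsScalarTower O F V] [FiniteDimensional F V] {ϖ : O} (hϖ : Irreducible ϖ)
  (L : Submodule O V) [IsLattice F L]

/-- The triangles with given first vertex. -/
noncomputable def equiv0 : {T : Tri F V hϖ // T.L 0 = L} ≃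
    {xy : Hyps (ResidueField O) (Red O F V) × Cod2 (ResidueField O) (Red O F V) //
      xy.2.1 ≤ xy.1.1} where
  toFun T :=
    have h1 : T.1.L 1 ≤ L := T.1.le10.trans T.2.le
    have h2 : dilS F V hϖ.ne_zero L ≤ T.1.L 2 := by
      have := T.1.c3
      rwa [T.2] at this
    have h3 := h2.trans T.1.le21
    have h4 : finrank (ResidueField O) (dn (F := F) hϖ L (T.1.L 1)) + 1 =
        finrank (ResidueField O) (Red O F V) :=
      (dn_covBy_self (F := F) hϖ h3 h1).mp (by
        have := T.1.c1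
        rwa [T.2] at this)
    have h5 := (dn_covBy (F := F) hϖ h2 T.1.le21 h1).mp T.1.c2
    ⟨(⟨dn hϖ L (T.1.L 1), h4⟩, ⟨dn hϖ L (T.1.L 2), by omega⟩), dn_mono hϖ T.1.le21⟩
  invFun xy :=
    ⟨{ L := ![L, up hϖ L xy.1.1.1, up hϖ L xy.1.2.1]
       lat := by
        change IsLattice F L
        infer_instance
       c1 := by
        change up hϖ L xy.1.1.1 ⋖ L
        exact (up_covBy_self hϖ).mpr xy.1.1.2
       c2 := by
        change up hϖ L xy.1.2.1 ⋖ up hϖ L xy.1.1.1
        refine (up_covBy hϖ xy.2).mpr ?_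
        have h1 := xy.1.1.2
        have h2 := xy.1.2.2
        omega
       c3 := by
        change dilS F V hϖ.ne_zero L ≤ up hϖ L xy.1.2.1
        exact le_up hϖ }, rfl⟩
  left_inv T := by
    have h1 : T.1.L 1 ≤ L := T.1.le10.trans T.2.le
    have h2 : dilS F V hϖ.ne_zero L ≤ T.1.L 2 := by
      have := T.1.c3
      rwa [T.2] at this
    have h3 := h2.trans T.1.le21
    apply Subtype.ext
    apply Tri.ext
    funext i
    fin_cases i
    · exact T.2.symm
    · exact up_dn hϖ h3 h1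
    · exact up_dn hϖ h2 (T.1.le21.trans h1)
  right_inv xy := by
    apply Subtype.ext
    exact Prod.ext (Subtype.ext (dn_up hϖ)) (Subtype.ext (dn_up hϖ))

/-- The triangles with given second vertex. -/
noncomputable def equiv1 : {T : Tri F V hϖ // T.L 1 = L} ≃
    {xy : Pts (ResidueField O) (Red O F V) × Hyps (ResidueField O) (Red O F V) //
      xy.1.1 ≤ xy.2.1} where
  toFun T :=
    have h1 : L ≤ T.1.L 0 := T.2.ge.trans T.1.le10
    have h2 : T.1.L 2 ≤ L := T.1.le21.trans T.2.le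
    have h3 : dilS F V hϖ.ne_zero L ≤ dilS F V hϖ.ne_zero (T.1.L 0) := (dilS_mono _).mpr h1
    ⟨(⟨dn hϖ L (dilS F V hϖ.ne_zero (T.1.L 0)),
        (dn_covBy_bot (F := F) hϖ h3 (T.1.c3.trans h2)).mp (by
          rw [dilS_covBy]
          have := T.1.c1
          rwa [T.2] at this)⟩,
      ⟨dn hϖ L (T.1.L 2), (dn_covBy_self (F := F) hϖ (h3.trans T.1.c3) h2).mp (by
          have := T.1.c2
          rwa [T.2] at this)⟩), dn_mono hϖ T.1.c3⟩
  invFun xy :=
    ⟨{ L := ![(dilS F V hϖ.ne_zero).symm (up hϖ L xy.1.1.1), L, up hϖ L xy.1.2.1]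
       lat := isLattice_of_dilS hϖ.ne_zero (by
        change IsLattice F (dilS F V hϖ.ne_zero ((dilS F V hϖ.ne_zero).symm (up hϖ L xy.1.1.1)))
        rw [OrderIso.apply_symm_apply]
        exact isLattice_up hϖ)
       c1 := by
        change L ⋖ (dilS F V hϖ.ne_zero).symm (up hϖ L xy.1.1.1)
        rw [← dilS_covBy (F := F) hϖ.ne_zero, OrderIso.apply_symm_apply]
        exact (up_covBy_bot hϖ).mpr xy.1.1.2
       c2 := by
        change up hϖ L xy.1.2.1 ⋖ L
        exact (up_covBy_self hϖ).mpr xy.1.2.2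
       c3 := by
        change dilS F V hϖ.ne_zero ((dilS F V hϖ.ne_zero).symm (up hϖ L xy.1.1.1)) ≤
          up hϖ L xy.1.2.1
        rw [OrderIso.apply_symm_apply]
        exact up_mono hϖ xy.2 }, rfl⟩
  left_inv T := by
    have h1 : L ≤ T.1.L 0 := T.2.ge.trans T.1.le10
    have h2 : T.1.L 2 ≤ L := T.1.le21.trans T.2.le
    have h3 : dilS F V hϖ.ne_zero L ≤ dilS F V hϖ.ne_zero (T.1.L 0) := (dilS_mono _).mpr h1
    apply Subtype.ext
    apply Tri.ext
    funext i
    fin_cases i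
    · change (dilS F V hϖ.ne_zero).symm (up hϖ L (dn hϖ L (dilS F V hϖ.ne_zero (T.1.L 0)))) = _
      rw [up_dn hϖ h3 (T.1.c3.trans h2), OrderIso.symm_apply_apply]
      rfl
    · exact T.2.symm
    · exact up_dn hϖ (h3.trans T.1.c3) h2
  right_inv xy := by
    apply Subtype.ext
    refine Prod.ext (Subtype.ext ?_) (Subtype.ext (dn_up hϖ))
    change dn hϖ L (dilS F V hϖ.ne_zero ((dilS F V hϖ.ne_zero).symm (up hϖ L xy.1.1.1))) = _
    rw [OrderIso.apply_symm_apply, dn_up]

/-- The triangles with given third vertex. -/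
noncomputable def equiv2 : {T : Tri F V hϖ // T.L 2 = L} ≃
    {xy : Pts (ResidueField O) (Red O F V) × Lns (ResidueField O) (Red O F V) //
      xy.1.1 ≤ xy.2.1} where
  toFun T :=
    have h1 : L ≤ T.1.L 1 := T.2.ge.trans T.1.le21
    have h2 : dilS F V hϖ.ne_zero (T.1.L 0) ≤ L := T.1.c3.trans T.2.le
    have h3 : dilS F V hϖ.ne_zero L ≤ dilS F V hϖ.ne_zero (T.1.L 1) := (dilS_mono _).mpr h1
    have h4 : dilS F V hϖ.ne_zero (T.1.L 1) ≤ dilS F V hϖ.ne_zero (T.1.L 0) :=
      (dilS_mono _).mpr T.1.le10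
    have h5 : finrank (ResidueField O) (dn (F := F) hϖ L (dilS F V hϖ.ne_zero (T.1.L 1))) = 1 :=
      (dn_covBy_bot (F := F) hϖ h3 (h4.trans h2)).mp (by
        rw [dilS_covBy]
        have := T.1.c2
        rwa [T.2] at this)
    have h6 := (dn_covBy (F := F) hϖ h3 h4 h2).mp (by
      rw [dilS_covBy]
      exact T.1.c1)
    ⟨(⟨dn hϖ L (dilS F V hϖ.ne_zero (T.1.L 1)), h5⟩,
      ⟨dn hϖ L (dilS F V hϖ.ne_zero (T.1.L 0)), by omega⟩), dn_mono hϖ h4⟩
  invFun xy :=
    ⟨{ L := ![(dilS F V hϖ.ne_zero).symm (up hϖ L xy.1.2.1),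
          (dilS F V hϖ.ne_zero).symm (up hϖ L xy.1.1.1), L]
       lat := isLattice_of_dilS hϖ.ne_zero (by
        change IsLattice F (dilS F V hϖ.ne_zero ((dilS F V hϖ.ne_zero).symm (up hϖ L xy.1.2.1)))
        rw [OrderIso.apply_symm_apply]
        exact isLattice_up hϖ)
       c1 := by
        change (dilS F V hϖ.ne_zero).symm (up hϖ L xy.1.1.1) ⋖
          (dilS F V hϖ.ne_zero).symm (up hϖ L xy.1.2.1)
        rw [← dilS_covBy (F := F) hϖ.ne_zero, OrderIso.apply_symm_apply,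
          OrderIso.apply_symm_apply]
        refine (up_covBy hϖ xy.2).mpr ?_
        have h1 := xy.1.1.2
        have h2 := xy.1.2.2
        omega
       c2 := by
        change L ⋖ (dilS F V hϖ.ne_zero).symm (up hϖ L xy.1.1.1)
        rw [← dilS_covBy (F := F) hϖ.ne_zero, OrderIso.apply_symm_apply]
        exact (up_covBy_bot hϖ).mpr xy.1.1.2
       c3 := by
        change dilS F V hϖ.ne_zero ((dilS F V hϖ.ne_zero).symm (up hϖ L xy.1.2.1)) ≤ L
        rw [OrderIso.apply_symm_apply]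
        exact up_le hϖ }, rfl⟩
  left_inv T := by
    have h1 : L ≤ T.1.L 1 := T.2.ge.trans T.1.le21
    have h2 : dilS F V hϖ.ne_zero (T.1.L 0) ≤ L := T.1.c3.trans T.2.le
    have h3 : dilS F V hϖ.ne_zero L ≤ dilS F V hϖ.ne_zero (T.1.L 1) := (dilS_mono _).mpr h1
    have h4 : dilS F V hϖ.ne_zero (T.1.L 1) ≤ dilS F V hϖ.ne_zero (T.1.L 0) :=
      (dilS_mono _).mpr T.1.le10
    apply Subtype.ext
    apply Tri.ext
    funext i
    fin_cases i
    · change (dilS F V hϖ.ne_zero).symm (up hϖ L (dn hϖ L (dilS F V hϖ.ne_zero (T.1.L 0)))) = _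
      rw [up_dn hϖ (h3.trans h4) h2, OrderIso.symm_apply_apply]
      rfl
    · change (dilS F V hϖ.ne_zero).symm (up hϖ L (dn hϖ L (dilS F V hϖ.ne_zero (T.1.L 1)))) = _
      rw [up_dn hϖ h3 (h4.trans h2), OrderIso.symm_apply_apply]
      rfl
    · exact T.2.symm
  right_inv xy := by
    apply Subtype.ext
    refine Prod.ext (Subtype.ext ?_) (Subtype.ext ?_)
    · change dn hϖ L (dilS F V hϖ.ne_zero ((dilS F V hϖ.ne_zero).symm (up hϖ L xy.1.1.1))) = _
      rw [OrderIso.apply_symm_apply, dn_up]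
    · change dn hϖ L (dilS F V hϖ.ne_zero ((dilS F V hϖ.ne_zero).symm (up hϖ L xy.1.2.1))) = _
      rw [OrderIso.apply_symm_apply, dn_up]

end fib

section fibres

open Submodule

variable {O : Type*} [CommRing O] [IsDomain O] [IsDiscreteValuationRing O]
variable {F V : Type*} [Field F] [Algebra O F] [IsFractionRing O F] [AddCommGroup V] [Module F V]
  [Module O V] [IsScalarTower O F V] [FiniteDimensional F V] {ϖ : O} {hϖ : Irreducible ϖ}
  [Finite (ResidueField O)]

instance finite_red : Finite (Red O F V) := inferInstance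

theorem finite_fib (l : Fin 3) (M : Submodule O V) : Finite {T : Tri F V hϖ // T.L l = M} := by
  by_cases hM : IsLattice F M
  · fin_cases l
    · exact Finite.of_equiv _ (equiv0 hϖ M).symm
    · exact Finite.of_equiv _ (equiv1 hϖ M).symm
    · exact Finite.of_equiv _ (equiv2 hϖ M).symm
  · have : IsEmpty {T : Tri F V hϖ // T.L l = M} := ⟨fun T => hM (T.2 ▸ T.1.lati l)⟩
    infer_instance

theorem finite_fib_set (l : Fin 3) (M : Submodule O V) :
    {T : Tri F V hϖ | T.L l = M}.Finite := by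
  have := finite_fib (F := F) (hϖ := hϖ) l M
  exact Set.finite_coe_iff.mp (Finite.of_equiv _ (Equiv.refl {T : Tri F V hϖ // T.L l = M}))

/-- The triangles with the same vertex of type `l` as `T`. -/
noncomputable def fib (l : Fin 3) (T : Tri F V hϖ) : Finset (Tri F V hϖ) :=
  (finite_fib_set (F := F) (hϖ := hϖ) l (T.L l)).toFinset

theorem mem_fib {l : Fin 3} {T T' : Tri F V hϖ} : T' ∈ fib l T ↔ T'.L l = T.L l := by
  rw [fib, Set.Finite.mem_toFinset]
  rfl

theorem self_mem_fib (l : Fin 3) (T : Tri F V hϖ) : T ∈ fib l T := mem_fib.mpr rfl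

theorem fib_eq {l : Fin 3} {T T' : Tri F V hϖ} (h : T'.L l = T.L l) : fib l T' = fib l T := by
  ext T''
  rw [mem_fib, mem_fib, h]

/-- The fibre as a subtype. -/
noncomputable def fibEquiv (l : Fin 3) (T : Tri F V hϖ) :
    (fib l T : Finset (Tri F V hϖ)) ≃ {T' : Tri F V hϖ // T'.L l = T.L l} :=
  Equiv.subtypeEquivRight fun _ => mem_fib

end fibres

section links

open Submodule

variable {O : Type*} [CommRing O] [IsDomain O] [IsDiscreteValuationRing O]
variable {F V : Type*} [Field F] [Algebra O F] [IsFractionRing O F] [AddCommGroup V] [Module F V]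
  [Module O V] [IsScalarTower O F V] [FiniteDimensional F V] {ϖ : O} {hϖ : Irreducible ϖ}
  [Finite (ResidueField O)]
variable {H : Type*} [NormedAddCommGroup H] [InnerProductSpace ℝ H]

/-- The number of triangles in each fibre. -/
theorem card_fib (hn : 3 ≤ finrank F V) (l : Fin 3) (T : Tri F V hϖ) :
    #(fib l T) = theta (Nat.card (ResidueField O)) (finrank F V - 1) *
      theta (Nat.card (ResidueField O)) (finrank F V) := by
  classical
  have h0 : finrank (ResidueField O) (Red O F V) = finrank F V := finrank_red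
  have := T.lati 0
  have := T.lati 1
  have := T.lati 2
  have := Fintype.ofFinite (Hyps (ResidueField O) (Red O F V))
  have := Fintype.ofFinite (Pts (ResidueField O) (Red O F V))
  have := Fintype.ofFinite (Lns (ResidueField O) (Red O F V))
  have := Fintype.ofFinite (Cod2 (ResidueField O) (Red O F V))
  have hH : Fintype.card (Hyps (ResidueField O) (Red O F V)) =
      theta (Nat.card (ResidueField O)) (finrank F V) := by
    rw [← Nat.card_eq_fintype_card]
    exact (card_hyp _ (by omega)).trans (by rw [h0])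
  have hP : Fintype.card (Pts (ResidueField O) (Red O F V)) =
      theta (Nat.card (ResidueField O)) (finrank F V) := by
    rw [← Nat.card_eq_fintype_card]
    exact (card_points _).trans (by rw [h0])
  have g0 := card_of_equiv (design_hc (k := ResidueField O) (V := Red O F V) (by omega)).hr _
    ((fibEquiv 0 T).trans (equiv0 hϖ (T.L 0)))
  have g1 := card_of_equiv (design_ph (k := ResidueField O) (V := Red O F V) (by omega)).hr _
    ((fibEquiv 1 T).trans (equiv1 hϖ (T.L 1)))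
  have g2 := card_of_equiv (design_pl (k := ResidueField O) (V := Red O F V)).hr _
    ((fibEquiv 2 T).trans (equiv2 hϖ (T.L 2)))
  rw [hH, h0] at g0
  rw [hP, h0] at g1 g2
  fin_cases l
  · exact g0
  · exact g1
  · exact g2

theorem link0 (hn : 3 ≤ finrank F V) (T : Tri F V hϖ) (u v : Submodule O V → H)
    (hu : ∑ t ∈ fib 0 T, u (t.L 1) = 0) :
    (∑ t ∈ fib 0 T, (inner ℝ (u (t.L 1)) (v (t.L 2)))) ^ 2 ≤
      (1 / ((Nat.card (ResidueField O) : ℝ) + 1)) *
      (∑ t ∈ fib 0 T, ‖u (t.L 1)‖ ^ 2) * ∑ t ∈ fib 0 T, ‖v (t.L 2)‖ ^ 2 := by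
  classical
  have h0 : finrank (ResidueField O) (Red O F V) = finrank F V := finrank_red
  have := T.lati 0
  have := Fintype.ofFinite (Hyps (ResidueField O) (Red O F V))
  have := Fintype.ofFinite (Cod2 (ResidueField O) (Red O F V))
  have h1 := link_of_equiv (design_hc (k := ResidueField O) (V := Red O F V) (by omega))
    (fun y => design_hc_s (by omega) y) (theta_pos _ (by omega)) (Nat.succ_pos _) (fib 0 T)
    ((fibEquiv 0 T).trans (equiv0 hϖ (T.L 0))) (fun t => t.L 1) (fun t => t.L 2)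
    (fun x => up hϖ (T.L 0) x.1) (fun y => up hϖ (T.L 0) y.1)
    (fun t => (congrArg (fun T' => T'.1.L 1)
        ((equiv0 hϖ (T.L 0)).left_inv ((fibEquiv 0 T) t))).symm)
    (fun t => (congrArg (fun T' => T'.1.L 2)
        ((equiv0 hϖ (T.L 0)).left_inv ((fibEquiv 0 T) t))).symm) u v hu
  refine h1.trans ?_
  rw [mul_assoc, mul_assoc]
  refine mul_le_mul_of_nonneg_right ?_ (mul_nonneg (Finset.sum_nonneg fun _ _ => sq_nonneg _)
    (Finset.sum_nonneg fun _ _ => sq_nonneg _))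
  push_cast
  exact lam_pl _ _ (by omega)

theorem link1 (hn : 3 ≤ finrank F V) (T : Tri F V hϖ) (u v : Submodule O V → H)
    (hu : ∑ t ∈ fib 1 T, u (t.L 0) = 0) :
    (∑ t ∈ fib 1 T, (inner ℝ (u (t.L 0)) (v (t.L 2)))) ^ 2 ≤
      (1 / ((Nat.card (ResidueField O) : ℝ) + 1)) *
      (∑ t ∈ fib 1 T, ‖u (t.L 0)‖ ^ 2) * ∑ t ∈ fib 1 T, ‖v (t.L 2)‖ ^ 2 := by
  classical
  have h0 : finrank (ResidueField O) (Red O F V) = finrank F V := finrank_red
  have := T.lati 1
  have := Fintype.ofFinite (Hyps (ResidueField O) (Red O F V))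
  have := Fintype.ofFinite (Pts (ResidueField O) (Red O F V))
  have h1 := link_of_equiv (design_ph (k := ResidueField O) (V := Red O F V) (by omega))
    (fun y => design_ph_s y) (theta_pos _ (by omega)) (theta_pos _ (by omega)) (fib 1 T)
    ((fibEquiv 1 T).trans (equiv1 hϖ (T.L 1))) (fun t => t.L 0) (fun t => t.L 2)
    (fun x => (dilS F V hϖ.ne_zero).symm (up hϖ (T.L 1) x.1)) (fun y => up hϖ (T.L 1) y.1)
    (fun t => (congrArg (fun T' => T'.1.L 0)
        ((equiv1 hϖ (T.L 1)).left_inv ((fibEquiv 1 T) t))).symm)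
    (fun t => (congrArg (fun T' => T'.1.L 2)
        ((equiv1 hϖ (T.L 1)).left_inv ((fibEquiv 1 T) t))).symm) u v hu
  refine h1.trans ?_
  rw [mul_assoc, mul_assoc]
  refine mul_le_mul_of_nonneg_right ?_ (mul_nonneg (Finset.sum_nonneg fun _ _ => sq_nonneg _)
    (Finset.sum_nonneg fun _ _ => sq_nonneg _))
  obtain ⟨m, hm⟩ : ∃ m, finrank (ResidueField O) (Red O F V) = m + 2 := ⟨_, (by omega :
    finrank (ResidueField O) (Red O F V) = (finrank (ResidueField O) (Red O F V) - 2) + 2)⟩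
  rw [hm]
  exact lam_ph _ m (by omega)

theorem link2 (hn : 3 ≤ finrank F V) (T : Tri F V hϖ) (u v : Submodule O V → H)
    (hu : ∑ t ∈ fib 2 T, u (t.L 1) = 0) :
    (∑ t ∈ fib 2 T, (inner ℝ (u (t.L 1)) (v (t.L 0)))) ^ 2 ≤
      (1 / ((Nat.card (ResidueField O) : ℝ) + 1)) *
      (∑ t ∈ fib 2 T, ‖u (t.L 1)‖ ^ 2) * ∑ t ∈ fib 2 T, ‖v (t.L 0)‖ ^ 2 := by
  classical
  have h0 : finrank (ResidueField O) (Red O F V) = finrank F V := finrank_red
  have := T.lati 2
  have := Fintype.ofFinite (Pts (ResidueField O) (Red O F V))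
  have := Fintype.ofFinite (Lns (ResidueField O) (Red O F V))
  have h1 := link_of_equiv (design_pl (k := ResidueField O) (V := Red O F V))
    (fun y => design_pl_s y) (theta_pos _ (by omega)) (Nat.succ_pos _) (fib 2 T)
    ((fibEquiv 2 T).trans (equiv2 hϖ (T.L 2))) (fun t => t.L 1) (fun t => t.L 0)
    (fun x => (dilS F V hϖ.ne_zero).symm (up hϖ (T.L 2) x.1))
    (fun y => (dilS F V hϖ.ne_zero).symm (up hϖ (T.L 2) y.1))
    (fun t => (congrArg (fun T' => T'.1.L 1)
        ((equiv2 hϖ (T.L 2)).left_inv ((fibEquiv 2 T) t))).symm)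
    (fun t => (congrArg (fun T' => T'.1.L 0)
        ((equiv2 hϖ (T.L 2)).left_inv ((fibEquiv 2 T) t))).symm) u v hu
  refine h1.trans ?_
  rw [mul_assoc, mul_assoc]
  refine mul_le_mul_of_nonneg_right ?_ (mul_nonneg (Finset.sum_nonneg fun _ _ => sq_nonneg _)
    (Finset.sum_nonneg fun _ _ => sq_nonneg _))
  push_cast
  exact lam_pl _ _ (by omega)

/-- **The link inequality of the triangles.** For functions `u` of the vertex of type `i` and `v`
of the vertex of type `j`, on the triangles with a given vertex of type `l`. -/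
theorem link_fib (hn : 3 ≤ finrank F V) {i j l : Fin 3} (hij : i ≠ j) (hil : i ≠ l) (hjl : j ≠ l)
    (T : Tri F V hϖ) (u v : Submodule O V → H) (hu : ∑ t ∈ fib l T, u (t.L i) = 0) :
    (∑ t ∈ fib l T, (inner ℝ (u (t.L i)) (v (t.L j)))) ^ 2 ≤
      (1 / ((Nat.card (ResidueField O) : ℝ) + 1)) *
      (∑ t ∈ fib l T, ‖u (t.L i)‖ ^ 2) * ∑ t ∈ fib l T, ‖v (t.L j)‖ ^ 2 := by
  have hsymm : ∀ (i' j' l' : Fin 3), (∀ u v : Submodule O V → H,
      ∑ t ∈ fib l' T, u (t.L i') = 0 → (∑ t ∈ fib l' T, (inner ℝ (u (t.L i')) (v (t.L j')))) ^ 2 ≤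
      (1 / ((Nat.card (ResidueField O) : ℝ) + 1)) *
      (∑ t ∈ fib l' T, ‖u (t.L i')‖ ^ 2) * ∑ t ∈ fib l' T, ‖v (t.L j')‖ ^ 2) →
      ∀ v u : Submodule O V → H, ∑ t ∈ fib l' T, v (t.L j') = 0 →
      (∑ t ∈ fib l' T, (inner ℝ (v (t.L j')) (u (t.L i')))) ^ 2 ≤
      (1 / ((Nat.card (ResidueField O) : ℝ) + 1)) *
      (∑ t ∈ fib l' T, ‖v (t.L j')‖ ^ 2) * ∑ t ∈ fib l' T, ‖u (t.L i')‖ ^ 2 := by
    intro i' j' l' h v u hv
    have h1 := link_symm (by positivity) (fib l' T) (fun t => t.L i') (fun t => t.L j') h u v hv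
    rw [mul_assoc, mul_comm (∑ t ∈ fib l' T, ‖v (t.L j')‖ ^ 2), ← mul_assoc]
    simpa only [real_inner_comm] using h1
  fin_cases i <;> fin_cases j <;> fin_cases l <;>
    first | exact absurd rfl hij | exact absurd rfl hil | exact absurd rfl hjl | skip
  · exact hsymm 1 0 2 (link2 hn T) u v hu
  · exact link1 hn T u v hu
  · exact link2 hn T u v hu
  · exact link0 hn T u v hu
  · exact hsymm 0 2 1 (link1 hn T) u v hu
  · exact hsymm 1 2 0 (link0 hn T) u v hu

end links

end Vale.Agent.P011.H974
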